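import Vale.Agent.P092MG.Defs
import Vale.Agent.P092CP.Cp

/-!
P092, E4/E5: projection valued measures on open invariant sets, basic calculus.
-/

set_option linter.all false

open scoped InnerProductSpace ENNReal NNReal
open MeasureTheory Filter Topology ContinuousLinearMap

namespace Vale.Agent.P092MG

open Vale.Agent.P092.RC (Cm)
open Vale.Agent.P092CP

section ri

variable {G : Type} [Group G] [TopologicalSpace G] {H H' : Subgroup G} {A B : Set G}

@[simp] theorem mem_lt {g x : G} : x ∈ lt g A ↔ g⁻¹ * x ∈ A := Iff.rfl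

@[simp] theorem mem_rt {z x : G} : x ∈ rt z A ↔ x * z ∈ A := Iff.rfl

theorem lt_one (A : Set G) : lt 1 A = A := by ext x; simp

theorem rt_one (A : Set G) : rt 1 A = A := by ext x; simp

theorem lt_lt (g h : G) (A : Set G) : lt g (lt h A) = lt (g * h) A := by
  ext x; simp [mul_assoc]

theorem rt_rt (g h : G) (A : Set G) : rt g (rt h A) = rt (g * h) A := by
  ext x; simp [mul_assoc]

theorem lt_rt (g h : G) (A : Set G) : lt g (rt h A) = rt h (lt g A) := by
  ext x; simp [mul_assoc]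

theorem lt_inter (g : G) (A B : Set G) : lt g (A ∩ B) = lt g A ∩ lt g B := rfl

theorem rt_inter (g : G) (A B : Set G) : rt g (A ∩ B) = rt g A ∩ rt g B := rfl

theorem RI.inter (hA : RI H A) (hB : RI H B) : RI H (A ∩ B) :=
  ⟨hA.1.inter hB.1, fun x hx h hh => ⟨hA.2 x hx.1 h hh, hB.2 x hx.2 h hh⟩⟩

theorem RI.union (hA : RI H A) (hB : RI H B) : RI H (A ∪ B) :=
  ⟨hA.1.union hB.1, fun x hx h hh => hx.imp (fun a => hA.2 x a h hh) fun a => hB.2 x a h hh⟩

theorem ri_univ : RI H (Set.univ : Set G) := ⟨isOpen_univ, fun _ _ _ _ => trivial⟩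

theorem ri_empty : RI H (∅ : Set G) := ⟨isOpen_empty, fun _ h => h.elim⟩

theorem ri_iUnion {ι : Sort*} {F : ι → Set G} (h : ∀ i, RI H (F i)) : RI H (⋃ i, F i) :=
  ⟨isOpen_iUnion fun i => (h i).1, fun x hx k hk => by
    obtain ⟨i, hi⟩ := Set.mem_iUnion.1 hx
    exact Set.mem_iUnion.2 ⟨i, (h i).2 x hi k hk⟩⟩

theorem ri_biInter {ι : Type*} (s : Finset ι) {F : ι → Set G} (h : ∀ i ∈ s, RI H (F i)) :
    RI H (⋂ i ∈ s, F i) :=
  ⟨isOpen_biInter_finset fun i hi => (h i hi).1, fun x hx k hk =>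
    Set.mem_iInter₂.2 fun i hi => (h i hi).2 x (Set.mem_iInter₂.1 hx i hi) k hk⟩

theorem RI.mono (hA : RI H' A) (h : H ≤ H') : RI H A := ⟨hA.1, fun x hx k hk => hA.2 x hx k (h hk)⟩

theorem RI.iff (hA : RI H A) {x h : G} (hh : h ∈ H) : x * h ∈ A ↔ x ∈ A :=
  ⟨fun a => by simpa using hA.2 _ a h⁻¹ (H.inv_mem hh), fun a => hA.2 x a h hh⟩

theorem RI.rt_eq (hA : RI H A) {h : G} (hh : h ∈ H) : rt h A = A := Set.ext fun _ => hA.iff hh

variable [IsTopologicalGroup G]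

theorem RI.lt (hA : RI H A) (g : G) : RI H (lt g A) :=
  ⟨hA.1.preimage (continuous_const_mul g⁻¹), fun x hx h hh => by
    rw [mem_lt, ← mul_assoc]; exact hA.2 _ hx h hh⟩

theorem RI.rt (hA : RI H A) {z : G} (hz : ∀ h ∈ H, z⁻¹ * h * z ∈ H) : RI H (rt z A) :=
  ⟨hA.1.preimage (continuous_mul_const z), fun x hx h hh => by
    have := hA.2 _ hx _ (hz h hh)
    rw [mem_rt]
    convert this using 1
    group⟩

/-- the saturation -/
def sat (H : Subgroup G) (V : Set G) : Set G := {x | ∃ h ∈ H, x * h ∈ V}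

theorem ri_sat {V : Set G} (hV : IsOpen V) : RI H (sat H V) := by
  constructor
  · have e : sat H V = ⋃ h ∈ H, (fun x => x * h) ⁻¹' V := by
      ext x; simp [sat]
    rw [e]
    exact isOpen_biUnion fun h _ => hV.preimage (continuous_mul_const h)
  · rintro x ⟨h, hh, hx⟩ k hk
    exact ⟨k⁻¹ * h, H.mul_mem (H.inv_mem hk) hh, by simpa [mul_assoc] using hx⟩

theorem subset_sat (V : Set G) : V ⊆ sat H V := fun x hx => ⟨1, H.one_mem, by simpa using hx⟩

theorem sat_subset {V : Set G} (hA : RI H A) (h : V ⊆ A) : sat H V ⊆ A := by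
  rintro x ⟨k, hk, hx⟩
  exact (hA.iff hk).1 (h hx)

end ri

section ind

variable {G G' : Type} [Group G] [TopologicalSpace G] [SecondCountableTopology G] [Group G']
  [TopologicalSpace G'] [SecondCountableTopology G'] {H : Subgroup G} {H' : Subgroup G'}

/-- induction on unions of open invariant sets -/
theorem ri_ind2 {R : Set G → Set G' → Prop} (h0 : R ∅ ∅)
    (hU : ∀ A B A' B', RI H A → RI H B → RI H' A' → RI H' B' → R A A' → R B B' →
      R (A ∪ B) (A' ∪ B'))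
    (hL : ∀ (A : ℕ → Set G) (A' : ℕ → Set G'), (∀ n, RI H (A n)) → (∀ n, RI H' (A' n)) →
      Monotone A → Monotone A' → (∀ n, R (A n) (A' n)) → R (⋃ n, A n) (⋃ n, A' n))
    {ι : Type*} {F : ι → Set G} {F' : ι → Set G'} (hF : ∀ i, RI H (F i))
    (hF' : ∀ i, RI H' (F' i)) (h : ∀ i, R (F i) (F' i)) : R (⋃ i, F i) (⋃ i, F' i) := by
  obtain ⟨T, hT, e⟩ := TopologicalSpace.isOpen_iUnion_countable F fun i => (hF i).1
  obtain ⟨T', hT', e'⟩ := TopologicalSpace.isOpen_iUnion_countable F' fun i => (hF' i).1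
  rcases isEmpty_or_nonempty ι with hι | ⟨⟨i₀⟩⟩
  · simpa using h0
  obtain ⟨f, hf⟩ := ((hT.union hT').insert i₀).exists_eq_range (Set.insert_nonempty _ _)
  have hm : ∀ i, i ∈ T ∨ i ∈ T' → ∃ n, f n = i := fun i hi => by
    have : i ∈ Set.range f := by rw [← hf]; exact Or.inr hi
    exact this
  let U : ℕ → Set G := fun n => ⋃ k ∈ Finset.range n, F (f k)
  let U' : ℕ → Set G' := fun n => ⋃ k ∈ Finset.range n, F' (f k)
  have hU1 : ∀ n, RI H (U n) := fun n => ri_iUnion fun k => ri_iUnion fun _ => hF _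
  have hU2 : ∀ n, RI H' (U' n) := fun n => ri_iUnion fun k => ri_iUnion fun _ => hF' _
  have hR : ∀ n, R (U n) (U' n) := by
    intro n
    induction n with
    | zero => simpa [U, U'] using h0
    | succ n ih =>
      have e1 : U (n + 1) = F (f n) ∪ U n := by
        simp only [U, Finset.range_add_one, Finset.set_biUnion_insert]
      have e2 : U' (n + 1) = F' (f n) ∪ U' n := by
        simp only [U', Finset.range_add_one, Finset.set_biUnion_insert]
      rw [e1, e2]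
      exact hU _ _ _ _ (hF _) (hU1 n) (hF' _) (hU2 n) (h _) ih
  have key : ∀ {X : Type} (E : ι → Set X) (S : Set ι), (∀ i ∈ S, ∃ n, f n = i) →
      ⋃ i ∈ S, E i = ⋃ i, E i → ⋃ n, ⋃ k ∈ Finset.range n, E (f k) = ⋃ i, E i := by
    intro X E S hS e
    refine Set.Subset.antisymm (Set.iUnion_subset fun n => Set.iUnion₂_subset fun k _ =>
      Set.subset_iUnion E _) ?_
    rw [← e]
    refine Set.iUnion₂_subset fun i hi x hx => ?_
    obtain ⟨n, rfl⟩ := hS i hi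
    exact Set.mem_iUnion.2 ⟨n + 1, Set.mem_iUnion₂.2 ⟨n, Finset.self_mem_range_succ n, hx⟩⟩
  have mo : ∀ {X : Type} (E : ℕ → Set X), Monotone fun n => ⋃ k ∈ Finset.range n, E k :=
    fun E a b hab => Set.biUnion_subset_biUnion_left fun k hk =>
      Finset.mem_coe.2 (Finset.range_mono hab (Finset.mem_coe.1 hk))
  have := hL U U' hU1 hU2 (mo fun k => F (f k)) (mo fun k => F' (f k)) hR
  rwa [key F T (fun i hi => hm i (Or.inl hi)) e, key F' T' (fun i hi => hm i (Or.inr hi)) e']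
    at this

end ind

section proj

variable {K : Type} [NormedAddCommGroup K] [InnerProductSpace ℂ K] [CompleteSpace K]
  {p q T : K →L[ℂ] K}

/-- orthogonal projections -/
structure Pj (p : K →L[ℂ] K) : Prop where
  sa : star p = p
  idem : p * p = p

theorem Pj.ap (h : Pj p) (ξ : K) : p (p ξ) = p ξ := ap_eq h.idem ξ

theorem Pj.inner (h : Pj p) (ξ η : K) : ⟪p ξ, η⟫_ℂ = ⟪ξ, p η⟫_ℂ := by
  conv_lhs => rw [← h.sa, star_eq_adjoint, adjoint_inner_left]

theorem pj_one : Pj (1 : K →L[ℂ] K) := ⟨star_one _, one_mul _⟩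

theorem pj_zero : Pj (0 : K →L[ℂ] K) := ⟨star_zero _, zero_mul _⟩

theorem Pj.compl (h : Pj p) : Pj (1 - p) :=
  ⟨by rw [star_sub, star_one, h.sa], by
    rw [sub_mul, one_mul, mul_sub, mul_one, h.idem, sub_self, sub_zero]⟩

theorem Pj.mul (hp : Pj p) (hq : Pj q) (h : p * q = q * p) : Pj (p * q) :=
  ⟨by rw [star_mul, hp.sa, hq.sa, h], by
    rw [mul_assoc, ← mul_assoc q, ← h, mul_assoc, hq.idem, ← mul_assoc, hp.idem]⟩

theorem Pj.pyth (h : Pj p) (ξ : K) : ‖ξ‖ ^ 2 = ‖p ξ‖ ^ 2 + ‖ξ - p ξ‖ ^ 2 := by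
  have h1 : ⟪p ξ, ξ - p ξ⟫_ℂ = 0 := by
    rw [h.inner, map_sub, h.ap, sub_self, inner_zero_right]
  have h2 := norm_add_sq_eq_norm_sq_add_norm_sq_of_inner_eq_zero _ _ h1
  rw [add_sub_cancel] at h2
  nlinarith [h2]

theorem Pj.norm_le (h : Pj p) (ξ : K) : ‖p ξ‖ ≤ ‖ξ‖ :=
  le_of_sq_le_sq (by rw [h.pyth ξ]; nlinarith [sq_nonneg ‖ξ - p ξ‖]) (norm_nonneg _) |>
    fun a => a

theorem Pj.opNorm_le (h : Pj p) : ‖p‖ ≤ 1 :=
  opNorm_le_bound _ zero_le_one fun ξ => by rw [one_mul]; exact h.norm_le ξ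

theorem Pj.enorm_le (h : Pj p) (ξ : K) : ‖p ξ‖ₑ ≤ ‖ξ‖ₑ := enorm_le_iff_norm_le.2 (h.norm_le ξ)

/-- a finite orthogonal sum -/
theorem norm_sum_orth {ι : Type*} (s : Finset ι) {v : ι → K}
    (h : ∀ i ∈ s, ∀ j ∈ s, i ≠ j → ⟪v i, v j⟫_ℂ = 0) :
    ‖∑ i ∈ s, v i‖ ^ 2 = ∑ i ∈ s, ‖v i‖ ^ 2 := by
  classical
  induction s using Finset.induction_on with
  | empty => simp
  | insert a s ha ih =>
    rw [Finset.sum_insert ha, Finset.sum_insert ha, ← ih fun i hi j hj =>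
      h i (Finset.mem_insert_of_mem hi) j (Finset.mem_insert_of_mem hj)]
    have h1 : ⟪v a, ∑ i ∈ s, v i⟫_ℂ = 0 := by
      rw [inner_sum]
      exact Finset.sum_eq_zero fun i hi => h a (Finset.mem_insert_self _ _) i
        (Finset.mem_insert_of_mem hi) fun e => ha (e ▸ hi)
    have h2 := norm_add_sq_eq_norm_sq_add_norm_sq_of_inner_eq_zero _ _ h1
    nlinarith [h2]

theorem enorm_sq_eq {E : Type*} [NormedAddCommGroup E] (u : E) :
    ‖u‖ₑ ^ 2 = ENNReal.ofReal (‖u‖ ^ 2) := by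
  rw [ENNReal.ofReal_pow (norm_nonneg _), ofReal_norm]

/-- an orthogonal series -/
theorem tsum_orth {ι : Type*} {v : ι → K} {u : K} (h : ∀ i j, i ≠ j → ⟪v i, v j⟫_ℂ = 0)
    (hs : HasSum v u) : ∑' i, ‖v i‖ₑ ^ 2 = ‖u‖ₑ ^ 2 := by
  have h1 : Tendsto (fun s : Finset ι => ‖∑ i ∈ s, v i‖ₑ ^ 2) atTop (𝓝 (‖u‖ₑ ^ 2)) :=
    ((ENNReal.continuous_pow 2).comp continuous_enorm).continuousAt.tendsto.comp hs
  refine tendsto_nhds_unique ENNReal.summable.hasSum (h1.congr fun s => ?_)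
  rw [enorm_sq_eq, norm_sum_orth s fun i _ j _ => h i j,
    ENNReal.ofReal_sum_of_nonneg fun i _ => sq_nonneg _]
  exact Finset.sum_congr rfl fun i _ => (enorm_sq_eq _).symm

/-- an orthogonal series with finite sum of squares converges -/
theorem summable_orth {ι : Type*} {v : ι → K} (h : ∀ i j, i ≠ j → ⟪v i, v j⟫_ℂ = 0) {c : ℝ}
    (hc : ∀ s : Finset ι, ∑ i ∈ s, ‖v i‖ ^ 2 ≤ c) : Summable v := by
  have h1 : Summable fun i => ‖v i‖ ^ 2 := summable_of_sum_le (fun i => sq_nonneg _) hc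
  rw [summable_iff_vanishing_norm] at h1 ⊢
  intro ε hε
  obtain ⟨s, hs⟩ := h1 (ε ^ 2) (by positivity)
  refine ⟨s, fun t ht => ?_⟩
  have h2 := hs t ht
  rw [← norm_sum_orth t fun i _ j _ => h i j, Real.norm_of_nonneg (sq_nonneg _)] at h2
  exact lt_of_pow_lt_pow_left₀ 2 hε.le h2

/-- a selfadjoint operator which preserves the kernel of a projection commutes with it -/
theorem Pj.comm_of_ker (hp : Pj p) (hT : star T = T) (h : ∀ ξ, p ξ = 0 → p (T ξ) = 0) :
    T * p = p * T := by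
  have h1 : p * T * (1 - p) = 0 := ContinuousLinearMap.ext fun ξ =>
    h (ξ - p ξ) (by rw [map_sub, hp.ap, sub_self])
  have h2 := congrArg star h1
  rw [star_mul, star_mul, hp.sa, hT, hp.compl.sa, star_zero, sub_mul, one_mul, sub_eq_zero] at h2
  rw [mul_sub, mul_one, sub_eq_zero] at h1
  rw [h1, h2, mul_assoc]

end proj

section op

variable {G K : Type} [Group G] [TopologicalSpace G] [NormedAddCommGroup K]
  [InnerProductSpace ℂ K] [CompleteSpace K] {H H' : Subgroup G} {P : Set G → K →L[ℂ] K}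
  {A B : Set G}

namespace OP

theorem pj (h : OP H P) (hA : RI H A) : Pj (P A) :=
  ⟨h.sa A hA, by rw [← h.inter A A hA hA, Set.inter_self]⟩

theorem comm (h : OP H P) (hA : RI H A) (hB : RI H B) : P A * P B = P B * P A := by
  rw [← h.inter A B hA hB, ← h.inter B A hB hA, Set.inter_comm]

theorem mul_of_subset (h : OP H P) (hA : RI H A) (hB : RI H B) (hAB : A ⊆ B) :
    P A * P B = P A := by
  rw [← h.inter A B hA hB, Set.inter_eq_self_of_subset_left hAB]

theorem mul_of_subset' (h : OP H P) (hA : RI H A) (hB : RI H B) (hAB : A ⊆ B) :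
    P B * P A = P A := by
  rw [h.comm hB hA, h.mul_of_subset hA hB hAB]

theorem disj (h : OP H P) (hA : RI H A) (hB : RI H B) (hd : ∀ x ∈ A, x ∉ B) : P A * P B = 0 := by
  rw [← h.inter A B hA hB,
    Set.eq_empty_of_forall_notMem (s := A ∩ B) fun x hx => hd x hx.1 hx.2, h.empty]

theorem norm_mono (h : OP H P) (hA : RI H A) (hB : RI H B) (hAB : A ⊆ B) (ξ : K) :
    ‖P A ξ‖ ≤ ‖P B ξ‖ := by
  rw [← h.mul_of_subset hA hB hAB]
  exact (h.pj hA).norm_le _

/-- sets which agree on a set of full measure -/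
theorem congr_full (h : OP H P) {O : Set G} (hO : RI H O) (h1 : P O = 1) (hA : RI H A)
    (hB : RI H B) (e : ∀ x ∈ O, x ∈ A ↔ x ∈ B) : P A = P B := by
  rw [← mul_one (P A), ← mul_one (P B), ← h1, ← h.inter _ _ hA hO, ← h.inter _ _ hB hO]
  congr 1
  ext x
  exact ⟨fun a => ⟨(e x a.2).1 a.1, a.2⟩, fun a => ⟨(e x a.2).2 a.1, a.2⟩⟩

theorem full_mono (h : OP H P) (hA : RI H A) (hB : RI H B) (hAB : A ⊆ B) (h1 : P A = 1) :
    P B = 1 := by
  have := h.mul_of_subset hA hB hAB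
  rwa [h1, one_mul] at this

theorem restrict (h : OP H P) (hH : H ≤ H') : OP H' P where
  sa A hA := h.sa A (hA.mono hH)
  inter A B hA hB := h.inter A B (hA.mono hH) (hB.mono hH)
  union A B hA hB := h.union A B (hA.mono hH) (hB.mono hH)
  univ := h.univ
  empty := h.empty
  lim A hA := h.lim A fun n => (hA n).mono hH

theorem biUnion (h : OP H P) {ι : Type*} (s : Finset ι) {F : ι → Set G} (hF : ∀ i, RI H (F i))
    (hd : ∀ i j, i ≠ j → ∀ x ∈ F i, x ∉ F j) : P (⋃ i ∈ s, F i) = ∑ i ∈ s, P (F i) := by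
  classical
  induction s using Finset.induction_on with
  | empty => simpa using h.empty
  | insert a s ha ih =>
    have hs : RI H (⋃ i ∈ s, F i) := ri_iUnion fun i => ri_iUnion fun _ => hF i
    rw [Finset.set_biUnion_insert, Finset.sum_insert ha, h.union _ _ (hF a) hs,
      h.disj (hF a) hs, sub_zero, ih]
    intro x hx hx'
    obtain ⟨i, hi, hxi⟩ := Set.mem_iUnion₂.1 hx'
    exact hd a i (fun e => ha (e ▸ hi)) x hx hxi

theorem biInter (h : OP H P) {Φ : (K →L[ℂ] K) → Prop} (h1 : Φ 1)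
    (hm : ∀ x y, Φ x → Φ y → Φ (x * y)) {ι : Type*} (s : Finset ι) {F : ι → Set G}
    (hF : ∀ i ∈ s, RI H (F i)) (hΦ : ∀ i ∈ s, Φ (P (F i))) : Φ (P (⋂ i ∈ s, F i)) := by
  classical
  induction s using Finset.induction_on with
  | empty => simpa [h.univ] using h1
  | insert a s ha ih =>
    rw [Finset.set_biInter_insert, h.inter _ _ (hF a (Finset.mem_insert_self _ _))
      (ri_biInter s fun i hi => hF i (Finset.mem_insert_of_mem hi))]
    exact hm _ _ (hΦ a (Finset.mem_insert_self _ _))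
      (ih (fun i hi => hF i (Finset.mem_insert_of_mem hi))
        fun i hi => hΦ i (Finset.mem_insert_of_mem hi))

variable [SecondCountableTopology G]

theorem iUnion_ind (h : OP H P) {Φ : (K →L[ℂ] K) → Prop} (h0 : Φ 0)
    (hU : ∀ x y, Φ x → Φ y → Φ (x + y - x * y))
    (hL : ∀ (F : ℕ → K →L[ℂ] K) (T : K →L[ℂ] K), (∀ n, Φ (F n)) → (∀ n, ‖F n‖ ≤ 1) →
      (∀ ξ, Tendsto (fun n => F n ξ) atTop (𝓝 (T ξ))) → Φ T)
    {ι : Type*} {F : ι → Set G} (hF : ∀ i, RI H (F i)) (hΦ : ∀ i, Φ (P (F i))) :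
    Φ (P (⋃ i, F i)) :=
  ri_ind2 (H := H) (H' := H) (R := fun A _ => Φ (P A)) (by rw [h.empty]; exact h0)
    (fun A B _ _ hA hB _ _ a b => by rw [h.union A B hA hB]; exact hU _ _ a b)
    (fun A _ hA _ mo _ a => hL _ _ a (fun n => (h.pj (hA n)).opNorm_le) (h.lim A hA mo)) hF hF hΦ

theorem iUnion_eq {G' : Type} [Group G'] [TopologicalSpace G'] [SecondCountableTopology G']
    {H₁ : Subgroup G'} {P' : Set G' → K →L[ℂ] K} (h : OP H P) (h' : OP H₁ P') {ι : Type*}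
    {F : ι → Set G} {F' : ι → Set G'} (hF : ∀ i, RI H (F i)) (hF' : ∀ i, RI H₁ (F' i))
    (e : ∀ i, P (F i) = P' (F' i)) : P (⋃ i, F i) = P' (⋃ i, F' i) :=
  ri_ind2 (H := H) (H' := H₁) (R := fun A A' => P A = P' A') (by rw [h.empty, h'.empty])
    (fun A B A' B' hA hB hA' hB' a b => by
      rw [h.union A B hA hB, h'.union A' B' hA' hB', a, b])
    (fun A A' hA hA' mo mo' a => ContinuousLinearMap.ext fun ξ =>
      tendsto_nhds_unique (h.lim A hA mo ξ) ((h'.lim A' hA' mo' ξ).congr fun n => by rw [a n]))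
    hF hF' e

theorem iUnion_zero (h : OP H P) {ι : Type*} {F : ι → Set G} (hF : ∀ i, RI H (F i)) {ξ : K}
    (h0 : ∀ i, P (F i) ξ = 0) : P (⋃ i, F i) ξ = 0 :=
  h.iUnion_ind (Φ := fun T => T ξ = 0) rfl
    (fun x y a b => by rw [sub_apply, add_apply, mul_ap, a, b, map_zero, add_zero, sub_zero])
    (fun F T a _ b => tendsto_nhds_unique (b ξ) (by simpa only [a] using tendsto_const_nhds)) hF h0

theorem iUnion_comm (h : OP H P) {ι : Type*} {F : ι → Set G} (hF : ∀ i, RI H (F i))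
    {T : K →L[ℂ] K} (h0 : ∀ i, T * P (F i) = P (F i) * T) :
    T * P (⋃ i, F i) = P (⋃ i, F i) * T :=
  h.iUnion_ind (Φ := fun S => T * S = S * T) (by rw [mul_zero, zero_mul])
    (fun x y a b => by
      rw [mul_sub, mul_add, sub_mul, add_mul, a, b, ← mul_assoc, a, mul_assoc, b, mul_assoc])
    (fun F S a _ b => ContinuousLinearMap.ext fun ξ =>
      tendsto_nhds_unique (T.continuous.continuousAt.tendsto.comp (b ξ))
        ((b (T ξ)).congr fun n => (ap_eq (a n) ξ).symm)) hF h0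

/-- a vector killed locally on `A` is killed on `A` -/
theorem loc_zero (h : OP H P) (hA : RI H A) {ξ : K}
    (h0 : ∀ x ∈ A, ∃ F, RI H F ∧ x ∈ F ∧ P F ξ = 0) : P A ξ = 0 := by
  choose F h1 h2 h3 using h0
  have hU : RI H (⋃ x : A, F x x.2) := ri_iUnion fun x => h1 x x.2
  rw [← h.mul_of_subset hA hU fun x hx => Set.mem_iUnion.2 ⟨⟨x, hx⟩, h2 x hx⟩, mul_ap,
    h.iUnion_zero (fun x : A => h1 x x.2) fun x => h3 x x.2, map_zero]

theorem hasSum (h : OP H P) {ι : Type*} [Countable ι] {F : ι → Set G} (hF : ∀ i, RI H (F i))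
    (hd : ∀ i j, i ≠ j → ∀ x ∈ F i, x ∉ F j) (ξ : K) :
    HasSum (fun i => P (F i) ξ) (P (⋃ i, F i) ξ) := by
  have hU : RI H (⋃ i, F i) := ri_iUnion hF
  have ho : ∀ i j, i ≠ j → ⟪P (F i) ξ, P (F j) ξ⟫_ℂ = 0 := fun i j hij => by
    rw [(h.pj (hF i)).inner, ← mul_ap, h.disj (hF i) (hF j) (hd i j hij), zero_apply,
      inner_zero_right]
  obtain ⟨u, hu⟩ := summable_orth ho (c := ‖ξ‖ ^ 2) fun s => by
    rw [← norm_sum_orth s fun i _ j _ => ho i j, ← sum_apply, ← h.biUnion s hF hd]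
    exact pow_le_pow_left₀ (norm_nonneg _)
      ((h.pj (ri_iUnion fun i => ri_iUnion fun _ => hF i)).norm_le ξ) 2
  have h1 : P (⋃ i, F i) u = u :=
    (hu.mapL (P (⋃ i, F i))).unique (by
      convert hu using 2 with i
      rw [← mul_ap, h.mul_of_subset' (hF i) hU (Set.subset_iUnion F i)])
  have h2 : P (⋃ i, F i) (ξ - u) = 0 := h.iUnion_zero hF fun j => by
    have h3 : HasSum (fun i => P (F j) (P (F i) ξ)) (P (F j) ξ) := by
      have := hasSum_single (f := fun i => P (F j) (P (F i) ξ)) j fun i hi => by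
        rw [← mul_ap, h.disj (hF j) (hF i) (hd j i hi.symm), zero_apply]
      rwa [(h.pj (hF j)).ap] at this
    rw [map_sub, (hu.mapL (P (F j))).unique h3, sub_self]
  rw [map_sub, h1, sub_eq_zero] at h2
  rwa [h2]

theorem tsum (h : OP H P) {ι : Type*} [Countable ι] {F : ι → Set G} (hF : ∀ i, RI H (F i))
    (hd : ∀ i j, i ≠ j → ∀ x ∈ F i, x ∉ F j) (ξ : K) :
    ∑' i, ‖P (F i) ξ‖ₑ ^ 2 = ‖P (⋃ i, F i) ξ‖ₑ ^ 2 :=
  tsum_orth (fun i j hij => by
    rw [(h.pj (hF i)).inner, ← mul_ap, h.disj (hF i) (hF j) (hd i j hij), zero_apply,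
      inner_zero_right]) (h.hasSum hF hd ξ)

/-- two commuting measures: a vector killed locally on `A × B` is killed on `A × B` -/
theorem loc_zero2 [IsTopologicalGroup G] [LocallyCompactSpace G] {P' : Set G → K →L[ℂ] K}
    (h : OP H P) (h' : OP H' P')
    (hc : ∀ A B, RI H A → RI H' B → P A * P' B = P' B * P A) (hA : RI H A) (hB : RI H' B) {ξ : K}
    (h0 : ∀ x ∈ A, ∀ y ∈ B, ∃ F F', RI H F ∧ RI H' F' ∧ x ∈ F ∧ y ∈ F' ∧ P F (P' F' ξ) = 0) :
    P A (P' B ξ) = 0 := by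
  rw [← mul_ap, hc A B hA hB, mul_ap]
  refine h'.loc_zero hB fun y hy => ?_
  obtain ⟨C, hC, hy1, hCB⟩ := exists_compact_subset hB.1 hy
  have hS : RI H' (sat H' (interior C)) := ri_sat isOpen_interior
  refine ⟨_, hS, subset_sat _ hy1, ?_⟩
  rw [← mul_ap, ← hc _ _ hA hS, mul_ap]
  refine h.loc_zero hA fun x hx => ?_
  choose F F' h1 h2 h3 h4 h5 using fun y : C => h0 x hx y (hCB y.2)
  obtain ⟨t, ht⟩ := hC.elim_finite_subcover F' (fun y => (h2 y).1)
    fun y hy => Set.mem_iUnion.2 ⟨⟨y, hy⟩, h4 _⟩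
  have hI : RI H (⋂ y ∈ t, F y) := ri_biInter t fun y _ => h1 y
  have hU : RI H' (⋃ y : t, F' y) := ri_iUnion fun y => h2 _
  refine ⟨_, hI, Set.mem_iInter₂.2 fun y _ => h3 y, ?_⟩
  have h6 : sat H' (interior C) ⊆ ⋃ y : t, F' y := sat_subset hU fun z hz => by
    obtain ⟨y, hy, hz'⟩ := Set.mem_iUnion₂.1 (ht (interior_subset hz))
    exact Set.mem_iUnion.2 ⟨⟨y, hy⟩, hz'⟩
  rw [← mul_ap, hc _ _ hI hS, mul_ap, ← h'.mul_of_subset hS hU h6, mul_ap,
    h'.iUnion_zero (fun y : t => h2 y) fun y => ?_, map_zero]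
  rw [← mul_ap, ← hc _ _ hI (h2 y), mul_ap, ← h.mul_of_subset hI (h1 y)
    (Set.biInter_subset_of_mem y.2), mul_ap, h5, map_zero]

end OP

end op

section ur

variable {G K : Type} [Group G] [TopologicalSpace G] [NormedAddCommGroup K]
  [InnerProductSpace ℂ K] [CompleteSpace K] {π : G →* (K →L[ℂ] K)} {x y : K →L[ℂ] K}

/-- continuous unitary representations -/
structure UR (π : G →* (K →L[ℂ] K)) : Prop where
  st : ∀ g, star (π g) = π g⁻¹
  nm : ∀ g ξ, ‖π g ξ‖ = ‖ξ‖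
  cont : ∀ ξ, Continuous fun g => π g ξ
  ccj : ∀ x ξ, Continuous fun g => cj π g x ξ

theorem cj_ap (g : G) (x : K →L[ℂ] K) (ξ : K) : cj π g x ξ = π g (x (π g⁻¹ ξ)) := rfl

theorem cj_mul (g : G) (x y : K →L[ℂ] K) : cj π g (x * y) = cj π g x * cj π g y := by
  simp only [cj, mul_assoc]
  rw [← mul_assoc (π g⁻¹), pi_inv_mul, one_mul]

theorem cj_add (g : G) (x y : K →L[ℂ] K) : cj π g (x + y) = cj π g x + cj π g y := by
  simp only [cj, mul_add, add_mul]

theorem cj_sub (g : G) (x y : K →L[ℂ] K) : cj π g (x - y) = cj π g x - cj π g y := by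
  simp only [cj, mul_sub, sub_mul]

theorem cj_smul (g : G) (c : ℂ) (x : K →L[ℂ] K) : cj π g (c • x) = c • cj π g x := by
  simp only [cj, mul_smul_comm, smul_mul_assoc]

theorem cj_one (g : G) : cj π g (1 : K →L[ℂ] K) = 1 := by rw [cj, mul_one, pi_mul_inv]

theorem cj_zero (g : G) : cj π g (0 : K →L[ℂ] K) = 0 := by rw [cj, mul_zero, zero_mul]

theorem cj_cj (g h : G) (x : K →L[ℂ] K) : cj π g (cj π h x) = cj π (g * h) x := by
  simp only [cj, mul_inv_rev, map_mul, mul_assoc]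

theorem one_cj (x : K →L[ℂ] K) : cj π 1 x = x := by
  rw [cj, inv_one, map_one, one_mul, mul_one]

theorem cj_inv_cj (g : G) (x : K →L[ℂ] K) : cj π g⁻¹ (cj π g x) = x := by
  rw [cj_cj, inv_mul_cancel, one_cj]

theorem cj_cj_inv (g : G) (x : K →L[ℂ] K) : cj π g (cj π g⁻¹ x) = x := by
  rw [cj_cj, mul_inv_cancel, one_cj]

theorem cj_inj (g : G) (h : cj π g x = cj π g y) : x = y := by
  rw [← cj_inv_cj (π := π) g x, h, cj_inv_cj]

theorem cj_eq_iff {g : G} : cj π g x = x ↔ x * π g = π g * x :=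
  ⟨fun h => by
    conv_lhs => rw [← h, cj, mul_assoc, pi_inv_mul, mul_one],
   fun h => by rw [cj, ← h, mul_assoc, pi_mul_inv, mul_one]⟩

theorem cj_comm {G' : Type} [Group G'] {ρ : G' →* (K →L[ℂ] K)}
    (h : ∀ g k, π g * ρ k = ρ k * π g) (g : G) (k : G') (x : K →L[ℂ] K) :
    cj π g (cj ρ k x) = cj ρ k (cj π g x) := by
  simp only [cj, ← mul_assoc]
  rw [h g k, mul_assoc _ (ρ k⁻¹), ← h g⁻¹, ← mul_assoc]

theorem UR.cj_star (h : UR π) (g : G) (x : K →L[ℂ] K) : star (cj π g x) = cj π g (star x) := by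
  simp only [cj, star_mul, h.st, inv_inv, mul_assoc]

theorem UR.norm_cj (h : UR π) (g : G) (x : K →L[ℂ] K) (ξ : K) :
    ‖cj π g x ξ‖ = ‖x (π g⁻¹ ξ)‖ := h.nm _ _

theorem UR.enorm (h : UR π) (g : G) (ξ : K) : ‖π g ξ‖ₑ = ‖ξ‖ₑ := by
  rw [← ofReal_norm, h.nm, ofReal_norm]

theorem UR.cj_le (h : UR π) (g : G) (x : K →L[ℂ] K) : ‖cj π g x‖ ≤ ‖x‖ :=
  opNorm_le_bound _ (norm_nonneg _) fun ξ => by
    rw [h.norm_cj, ← h.nm g⁻¹ ξ]; exact x.le_opNorm _

theorem Pj.cj (hx : Pj x) (h : UR π) (g : G) : Pj (cj π g x) :=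
  ⟨by rw [h.cj_star, hx.sa], by rw [← cj_mul, hx.idem]⟩

variable {G' : Type} [Group G'] [TopologicalSpace G'] {H : Subgroup G'} {P : Set G' → K →L[ℂ] K}

theorem OP.cj (h : OP H P) (hπ : UR π) (g : G) : OP H fun A => cj π g (P A) where
  sa A hA := ((h.pj hA).cj hπ g).sa
  inter A B hA hB := by rw [h.inter A B hA hB, cj_mul]
  union A B hA hB := by rw [h.union A B hA hB, cj_sub, cj_add, cj_mul]
  univ := by rw [h.univ, cj_one]
  empty := by rw [h.empty, cj_zero]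
  lim A hA mo ξ := (π g).continuous.continuousAt.tendsto.comp (h.lim A hA mo _)

theorem OP.rt [IsTopologicalGroup G'] (h : OP H P) {z : G'} (hz : ∀ k ∈ H, z⁻¹ * k * z ∈ H) :
    OP H fun A => P (rt z A) where
  sa A hA := h.sa _ (hA.rt hz)
  inter A B hA hB := h.inter _ _ (hA.rt hz) (hB.rt hz)
  union A B hA hB := h.union _ _ (hA.rt hz) (hB.rt hz)
  univ := h.univ
  empty := h.empty
  lim A hA mo ξ := by
    have := h.lim (fun n => Vale.Agent.P092MG.rt z (A n)) (fun n => (hA n).rt hz)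
      (fun a b hab x hx => mo hab hx) ξ
    convert this using 4
    ext x
    simp

/-- a covariant measure has full support -/
theorem OP.ne_zero [IsTopologicalGroup G'] [SecondCountableTopology G'] {ρ : G' →* (K →L[ℂ] K)}
    (h : OP H P) (cov : ∀ g A, RI H A → Vale.Agent.P092MG.cj ρ g (P A) = P (lt g A))
    (h1 : (1 : K →L[ℂ] K) ≠ 0) {A : Set G'} (hA : RI H A) {x : G'} (hx : x ∈ A) : P A ≠ 0 :=
  fun h0 => h1 (ContinuousLinearMap.ext fun ξ => by
    rw [← h.univ]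
    exact h.loc_zero ri_univ fun y _ => ⟨lt (y * x⁻¹) A, hA.lt _, by simpa using hx, by
      rw [← cov _ _ hA, h0, cj_zero, zero_apply]⟩)

end ur

section side

variable {G K : Type} [Group G] [TopologicalSpace G] [IsTopologicalGroup G] [LocallyCompactSpace G]
  [SecondCountableTopology G] [T2Space G] [MeasurableSpace G] [BorelSpace G]
  [NormedAddCommGroup K] [InnerProductSpace ℂ K] [CompleteSpace K] {μ : Measure G}
  [μ.IsHaarMeasure] {W : Set (K →L[ℂ] K)}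

theorem ur (S : Side μ W) : UR S.π := ⟨S.star_π, S.norm_π, S.cont, S.cont_conj⟩

theorem one_ne (S : Side μ W) : (1 : K →L[ℂ] K) ≠ 0 := fun h => by
  have h1 : S.Ω = 0 := ap_eq h S.Ω
  have h2 := S.nΩ
  rw [h1, norm_zero] at h2
  exact zero_ne_one h2

end side

end Vale.Agent.P092MG
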