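import Vale.Agent.P092MG.Scal

/-!
P092, E4/E5: big cells, smooth operators, invariance of the sum over the Levi group.
-/

set_option linter.all false

open scoped InnerProductSpace ENNReal NNReal
open MeasureTheory Filter Topology ContinuousLinearMap

namespace Vale.Agent.P092MG

open Vale.Agent.P092.RC (Cm)
open Vale.Agent.P092CP

section grp

variable {G : Type} [Group G] [TopologicalSpace G] {I L J Q K K' : Subgroup G}

/-- the cell `I K J` -/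
def cK (I K J : Subgroup G) : Set G := {g | ∃ u ∈ I, ∃ z ∈ K, ∃ v ∈ J, g = u * z * v}

theorem cs_univ : cs I L J Set.univ Set.univ = cK I L J := by
  ext g; simp [cs, cK]

theorem cK_mono (h : K ≤ K') : cK I K J ⊆ cK I K' J := fun _ ⟨u, a, z, b, v, c, e⟩ =>
  ⟨u, a, z, h b, v, c, e⟩

theorem one_cK : (1 : G) ∈ cK I K J := ⟨1, I.one_mem, 1, K.one_mem, 1, J.one_mem, by simp⟩

theorem mk_cK {u z v : G} (hu : u ∈ I) (hz : z ∈ K) (hv : v ∈ J) : u * z * v ∈ cK I K J :=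
  ⟨u, hu, z, hz, v, hv, rfl⟩

theorem OpIn.inf (h : OpIn K L) (h' : OpIn K' L) : OpIn (K ⊓ K') L := by
  obtain ⟨a, T, hT, b⟩ := h
  obtain ⟨-, T', hT', b'⟩ := h'
  exact ⟨inf_le_left.trans a, T ∩ T', hT.inter hT', fun l hl => by
    rw [Subgroup.mem_inf, b l hl, b' l hl]; rfl⟩

theorem opIn_inf (hK : IsOpen (K : Set G)) : OpIn (K ⊓ L) L :=
  ⟨inf_le_right, K, hK, fun l hl => by simp [hl]⟩

theorem opIn_self : OpIn L L := ⟨le_rfl, Set.univ, isOpen_univ, fun l hl => by simp [hl]⟩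

theorem OpIn.trans {L' : Subgroup G} (h : OpIn K L) (h' : OpIn L L') : OpIn K L' := by
  obtain ⟨a, T, hT, b⟩ := h
  obtain ⟨a', T', hT', b'⟩ := h'
  exact ⟨a.trans a', T ∩ T', hT.inter hT', fun l hl =>
    ⟨fun c => ⟨(b l (a c)).1 c, (b' l hl).1 (a c)⟩, fun c => (b l ((b' l hl).2 c.2)).2 c.1⟩⟩

theorem OpIn.down {L' : Subgroup G} (h : OpIn K L) (h1 : K ≤ L') (h2 : L' ≤ L) : OpIn K L' := by
  obtain ⟨-, T, hT, b⟩ := h
  exact ⟨h1, T, hT, fun l hl => b l (h2 hl)⟩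

/-- representatives of `L / K` -/
def Rp (K L : Subgroup G) {ι : Type} (ρ : ι → G) : Prop :=
  (∀ i, ρ i ∈ L) ∧ ∀ l ∈ L, ∃! i, (ρ i)⁻¹ * l ∈ K

theorem exists_rp [IsTopologicalGroup G] [SecondCountableTopology G] (h : OpIn K L) :
    ∃ (ι : Type) (_ : Countable ι) (ρ : ι → G), Rp K L ρ := by
  obtain ⟨-, T, hT, b⟩ := h
  have hR : Rp K L fun q : L ⧸ K.subgroupOf L => (q.out : L) := ⟨fun q => q.out.2, fun l hl => by
    have key : ∀ q : L ⧸ K.subgroupOf L, ((q.out : L) : G)⁻¹ * l ∈ K ↔ q = (⟨l, hl⟩ : L) := by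
      intro q
      conv_rhs => rw [← QuotientGroup.out_eq' q, QuotientGroup.eq, Subgroup.mem_subgroupOf]
      rfl
    exact ⟨_, (key _).2 rfl, fun q hq => (key q).1 hq⟩⟩
  refine ⟨_, ?_, _, hR⟩
  haveI : SecondCountableTopology L := TopologicalSpace.Subtype.secondCountableTopology (L : Set G)
  refine Pairwise.countable_of_isOpen_disjoint
    (s := fun q : L ⧸ K.subgroupOf L => {l : L | ((q.out : L) : G)⁻¹ * l ∈ T}) ?_
    (fun q => hT.preimage (by fun_prop)) fun q => ⟨q.out, ?_⟩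
  · intro q q' hq
    rw [Function.onFun, Set.disjoint_left]
    intro l a a'
    exact hq ((hR.2 l l.2).unique ((b _ (L.mul_mem (L.inv_mem (hR.1 q)) l.2)).2 a)
      ((b _ (L.mul_mem (L.inv_mem (hR.1 q')) l.2)).2 a'))
  · change _ ∈ T
    rw [inv_mul_cancel]
    exact (b 1 L.one_mem).1 K.one_mem

namespace Cell

variable (h : Cell I L J Q)
include h

theorem nI' {l u : G} (hl : l ∈ L) (hu : u ∈ I) : l⁻¹ * u * l ∈ I := by
  simpa using h.nI _ (L.inv_mem hl) u hu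

theorem nJ' {l u : G} (hl : l ∈ L) (hu : u ∈ J) : l⁻¹ * u * l ∈ J := by
  simpa using h.nJ _ (L.inv_mem hl) u hu

theorem LQ : L ≤ Q := fun l hl => (h.memQ l).2 ⟨l, hl, 1, J.one_mem, by simp⟩

theorem JQ : J ≤ Q := fun v hv => (h.memQ v).2 ⟨1, L.one_mem, v, hv, by simp⟩

theorem eq {u l v u' l' v' : G} (hu : u ∈ I) (hl : l ∈ L) (hv : v ∈ J) (hu' : u' ∈ I)
    (hl' : l' ∈ L) (hv' : v' ∈ J) (e : u * l * v = u' * l' * v') : u = u' ∧ l = l' ∧ v = v' := by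
  obtain ⟨a, b⟩ := h.uniq (u'⁻¹ * u) (I.mul_mem (I.inv_mem hu') hu) (l * l'⁻¹)
    (L.mul_mem hl (L.inv_mem hl')) (l' * (v * v'⁻¹) * l'⁻¹)
    (h.nJ _ hl' _ (J.mul_mem hv (J.inv_mem hv'))) (by
      have : u'⁻¹ * u * (l * l'⁻¹) * (l' * (v * v'⁻¹) * l'⁻¹) =
        u'⁻¹ * (u * l * v) * v'⁻¹ * l'⁻¹ := by group
      rw [this, e]; group)
  have a' : u = u' := (inv_mul_eq_one.1 a).symm
  have b' : l = l' := mul_inv_eq_one.1 b
  subst a' b'
  exact ⟨rfl, rfl, mul_left_cancel e⟩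

theorem mem_cK (hK : K ≤ L) {u l v : G} (hu : u ∈ I) (hl : l ∈ L) (hv : v ∈ J) :
    u * l * v ∈ cK I K J ↔ l ∈ K :=
  ⟨fun ⟨_, a, _, b, _, c, e⟩ => (h.eq hu hl hv a (hK b) c e).2.1 ▸ b, fun a => mk_cK hu a hv⟩

theorem lt_cK (hK : K ≤ L) {u l v s : G} (hu : u ∈ I) (hl : l ∈ L) (hv : v ∈ J) (hs : s ∈ L) :
    s⁻¹ * (u * l * v) ∈ cK I K J ↔ s⁻¹ * l ∈ K := by
  rw [← h.mem_cK hK (h.nI' hs hu) (L.mul_mem (L.inv_mem hs) hl) hv]
  congr! 1
  group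

theorem rt_cK (hK : K ≤ L) {u l v s : G} (hu : u ∈ I) (hl : l ∈ L) (hv : v ∈ J) (hs : s ∈ L) :
    u * l * v * s ∈ cK I K J ↔ l * s ∈ K := by
  rw [← h.mem_cK hK hu (L.mul_mem hl hs) (h.nJ' hs hv)]
  congr! 1
  group

theorem left_cK (hK : K ≤ L) {u k x : G} (hu : u ∈ I) (hk : k ∈ K) (hx : x ∈ cK I K J) :
    u * k * x ∈ cK I K J := by
  obtain ⟨u', a, z, b, v, c, rfl⟩ := hx
  exact ⟨u * (k * u' * k⁻¹), I.mul_mem hu (h.nI _ (hK hk) _ a), k * z, K.mul_mem hk b, v, c,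
    by group⟩

theorem right_cK (hK : K ≤ L) {k v x : G} (hx : x ∈ cK I K J) (hk : k ∈ K) (hv : v ∈ J) :
    x * (k * v) ∈ cK I K J := by
  obtain ⟨u', a, z, b, v', c, rfl⟩ := hx
  exact ⟨u', a, z * k, K.mul_mem b hk, k⁻¹ * v' * k * v, J.mul_mem (h.nJ' (hK hk) c) hv,
    by group⟩

theorem open_cK (hK : OpIn K L) : IsOpen (cK I K J) := by
  obtain ⟨a, T, hT, b⟩ := hK
  convert h.opn Set.univ T isOpen_univ hT using 1
  ext g
  exact ⟨fun ⟨u, c, z, d, e⟩ => ⟨u, c, trivial, z, a d, (b z (a d)).1 d, e⟩,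
    fun ⟨u, c, _, z, d, d', e⟩ => ⟨u, c, z, (b z d).2 d', e⟩⟩

/-- invariance under a group `H` contained in `K J` -/
theorem ri_cK (hK : OpIn K L) {H : Subgroup G} (hH : ∀ g ∈ H, ∃ k ∈ K, ∃ v ∈ J, g = k * v) :
    RI H (cK I K J) := ⟨h.open_cK hK, fun x hx g hg => by
  obtain ⟨k, a, v, b, rfl⟩ := hH g hg
  exact h.right_cK hK.1 hx a b⟩

theorem ri_big : RI Q (cK I L J) := h.ri_cK opIn_self fun g => (h.memQ g).1

theorem ri_cs {S : Set G} (hS : IsOpen S) : RI Q (cs I L J S Set.univ) :=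
  ⟨h.opn S _ hS isOpen_univ, fun x ⟨u, a, a', l, b, _, v, c, e⟩ g hg => by
    obtain ⟨k, a₁, w, b₁, rfl⟩ := (h.memQ g).1 hg
    exact ⟨u, a, a', l * k, L.mul_mem b a₁, trivial, k⁻¹ * v * k * w,
      J.mul_mem (h.nJ' a₁ c) b₁, by rw [e]; group⟩⟩

theorem mem_cs {S T : Set G} {u l v : G} (hu : u ∈ I) (hl : l ∈ L) (hv : v ∈ J) :
    u * l * v ∈ cs I L J S T ↔ u ∈ S ∧ l ∈ T :=
  ⟨fun ⟨_, a, a', _, b, b', _, c, e⟩ => by
    obtain ⟨rfl, rfl, -⟩ := h.eq hu hl hv a b c e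
    exact ⟨a', b'⟩, fun a => ⟨u, hu, a.1, l, hl, a.2, v, hv, rfl⟩⟩

end Cell

/-- the set where the cocycle of `g` has values in `K` -/
def Wh (I K J Q : Subgroup G) (g : G) : Set G := sat Q (cK I K J ∩ lt g (cK I K J))

variable [IsTopologicalGroup G]

theorem Cell.ri_Wh (h : Cell I L J Q) (hK : OpIn K L) (g : G) : RI Q (Wh I K J Q g) :=
  ri_sat ((h.open_cK hK).inter ((h.open_cK hK).preimage (continuous_const_mul _)))

theorem Cell.W_sub (h : Cell I L J Q) (hK : K ≤ L) {g l l' x : G} (hl : l ∈ L) (hl' : l' ∈ L)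
    (hx : x ∈ lt l' (Wh I K J Q (l'⁻¹ * g * l))) : x ∈ cK I L J ∩ lt g (cK I L J) := by
  obtain ⟨q, hq, a, b⟩ := hx
  have a1 := h.left_cK le_rfl I.one_mem hl' (cK_mono hK a)
  have b1 := h.left_cK le_rfl I.one_mem hl (cK_mono hK b)
  refine ⟨(h.ri_big.iff hq).1 ?_, (h.ri_big.iff hq).1 ?_⟩
  · convert a1 using 1; group
  · convert b1 using 1; group

theorem Cell.exists_m (h : Cell I L J Q) {g x : G} (hx : x ∈ cK I L J ∩ lt g (cK I L J)) :
    ∃ m ∈ L, ∀ K ≤ L, ∀ l ∈ L, ∀ l' ∈ L,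
      x ∈ lt l' (Wh I K J Q (l'⁻¹ * g * l)) ↔ l⁻¹ * m * l' ∈ K := by
  obtain ⟨⟨u, hu, l₀, hl₀, v₀, hv₀, rfl⟩, hx⟩ := hx
  have hq₀ : l₀ * v₀ ∈ Q := (h.memQ _).2 ⟨_, hl₀, _, hv₀, rfl⟩
  obtain ⟨u₁, hu₁, m, hm, v₁, hv₁, e⟩ : g⁻¹ * u ∈ cK I L J :=
    (h.ri_big.iff hq₀).1 (by rw [mem_lt] at hx; convert hx using 1; group)
  refine ⟨m, hm, fun K hK l hl l' hl' => ?_⟩
  have key : ∀ s ∈ L, ∀ w ∈ J, ∀ q, l₀ * v₀ * q = s * w →
      (l'⁻¹ * (u * l₀ * v₀) * q ∈ cK I K J ∩ lt (l'⁻¹ * g * l) (cK I K J) ↔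
        l'⁻¹ * s ∈ K ∧ l⁻¹ * (m * s) ∈ K) := fun s hs w hw q e' => by
    have e1 : l'⁻¹ * (u * l₀ * v₀) * q = l'⁻¹ * (u * s * w) := by
      rw [mul_assoc u s, ← e']; group
    have e2 : (l'⁻¹ * g * l)⁻¹ * (l'⁻¹ * (u * s * w)) =
        l⁻¹ * (u₁ * (m * s) * (s⁻¹ * v₁ * s * w)) := by
      have : (l'⁻¹ * g * l)⁻¹ * (l'⁻¹ * (u * s * w)) = l⁻¹ * (g⁻¹ * u) * s * w := by group
      rw [this, e]; group
    rw [Set.mem_inter_iff, mem_lt, e1, e2, h.lt_cK hK hu hs hw hl',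
      h.lt_cK hK hu₁ (L.mul_mem hm hs) (J.mul_mem (h.nJ' hs hv₁) hw) hl]
  constructor
  · rintro ⟨q, hq, a⟩
    obtain ⟨s, hs, w, hw, e'⟩ := (h.memQ _).1 (Q.mul_mem hq₀ hq)
    obtain ⟨b, c⟩ := (key s hs w hw q e').1 a
    convert K.mul_mem c (K.inv_mem b) using 1
    group
  · intro a
    exact ⟨(l₀ * v₀)⁻¹ * l', Q.mul_mem (Q.inv_mem hq₀) (h.LQ hl'),
      (key l' hl' 1 J.one_mem _ (by group)).2 ⟨by simp, by simpa [mul_assoc] using a⟩⟩

end grp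

section sm

variable {G K : Type} [Group G] [TopologicalSpace G] [IsTopologicalGroup G]
  [NormedAddCommGroup K] [InnerProductSpace ℂ K] [CompleteSpace K] {I L J Q N N' : Subgroup G}
  {π : G →* (K →L[ℂ] K)} {E : Set G → K →L[ℂ] K} {a b : K →L[ℂ] K}

/-- a covariant measure on `G / Q` carried by the big cell -/
structure Ow (π : G →* (K →L[ℂ] K)) (I L J Q : Subgroup G) (E : Set G → K →L[ℂ] K) : Prop where
  cell : Cell I L J Q
  ur : UR π
  op : OP Q E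
  cov : ∀ g A, RI Q A → cj π g (E A) = E (lt g A)
  full : E (cK I L J) = 1

/-- `a` commutes with the measure -/
def Cme (Q : Subgroup G) (E : Set G → K →L[ℂ] K) (a : K →L[ℂ] K) : Prop :=
  ∀ A, RI Q A → a * E A = E A * a

/-- `a` is induced from an operator fixed by `N J` -/
structure Sm (π : G →* (K →L[ℂ] K)) (I J Q : Subgroup G) (E : Set G → K →L[ℂ] K)
    (N : Subgroup G) (a : K →L[ℂ] K) : Prop where
  cme : Cme Q E a
  eq : ∀ g, cj π g a * E (Wh I N J Q g) = a * E (Wh I N J Q g)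

theorem Cme.mul (ha : Cme Q E a) (hb : Cme Q E b) : Cme Q E (a * b) := fun A hA => by
  rw [mul_assoc, hb A hA, ← mul_assoc, ha A hA, mul_assoc]

theorem Cme.add (ha : Cme Q E a) (hb : Cme Q E b) : Cme Q E (a + b) := fun A hA => by
  rw [add_mul, mul_add, ha A hA, hb A hA]

theorem Cme.smul (c : ℂ) (ha : Cme Q E a) : Cme Q E (c • a) := fun A hA => by
  rw [smul_mul_assoc, mul_smul_comm, ha A hA]

theorem Cme.star (h : OP Q E) (ha : Cme Q E a) : Cme Q E (star a) := fun A hA => by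
  have := congrArg Star.star (ha A hA)
  rw [star_mul, star_mul, h.sa A hA] at this
  exact this.symm

theorem Cme.cj (h : Ow π I L J Q E) (ha : Cme Q E a) (g : G) : Cme Q E (cj π g a) :=
  fun A hA => by
    have e : E A = Vale.Agent.P092MG.cj π g (E (lt g⁻¹ A)) := by
      rw [h.cov _ _ (hA.lt _), lt_lt, mul_inv_cancel, lt_one]
    rw [e, ← cj_mul, ha _ (hA.lt _), cj_mul]

theorem Sm.add (ha : Sm π I J Q E N a) (hb : Sm π I J Q E N b) : Sm π I J Q E N (a + b) :=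
  ⟨ha.cme.add hb.cme, fun g => by rw [cj_add, add_mul, add_mul, ha.eq, hb.eq]⟩

theorem Sm.smul (c : ℂ) (ha : Sm π I J Q E N a) : Sm π I J Q E N (c • a) :=
  ⟨ha.cme.smul c, fun g => by rw [cj_smul, smul_mul_assoc, smul_mul_assoc, ha.eq]⟩

theorem sm_one : Sm π I J Q E N 1 :=
  ⟨fun A _ => by rw [one_mul, mul_one], fun g => by rw [cj_one]⟩

theorem sm_zero : Sm π I J Q E N 0 :=
  ⟨fun A _ => by rw [zero_mul, mul_zero], fun g => by rw [cj_zero]⟩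

theorem Sm.sub (ha : Sm π I J Q E N a) (hb : Sm π I J Q E N b) : Sm π I J Q E N (a - b) := by
  have := ha.add (hb.smul (-1))
  rwa [neg_one_smul, ← sub_eq_add_neg] at this

/-- conjugation by a representation which fixes the measure -/
theorem Sm.other {G' : Type} [Group G'] [TopologicalSpace G'] {ρ : G' →* (K →L[ℂ] K)} (ha : Sm π I J Q E N a)
    (hN : ∀ g, RI Q (Wh I N J Q g)) (hc : ∀ g k, π g * ρ k = ρ k * π g) {k : G'}
    (hk : ∀ A, RI Q A → cj ρ k (E A) = E A) : Sm π I J Q E N (cj ρ k a) :=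
  ⟨fun A hA => by rw [← hk A hA, ← cj_mul, ha.cme A hA, cj_mul], fun g => by
    rw [← hk _ (hN g), cj_comm hc, ← cj_mul, ha.eq, cj_mul]⟩

namespace Ow

variable (h : Ow π I L J Q E)
include h

theorem sm_mul (hN : OpIn N L) (ha : Sm π I J Q E N a) (hb : Sm π I J Q E N b) :
    Sm π I J Q E N (a * b) :=
  ⟨ha.cme.mul hb.cme, fun g => by
    have h1 := hb.cme _ (h.cell.ri_Wh hN g)
    rw [cj_mul, mul_assoc, hb.eq, h1, ← mul_assoc, ha.eq, mul_assoc, ← h1, mul_assoc]⟩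

theorem sm_star (hN : OpIn N L) (ha : Sm π I J Q E N a) : Sm π I J Q E N (star a) :=
  ⟨ha.cme.star h.op, fun g => by
    have hW := h.cell.ri_Wh hN g
    have := congrArg Star.star (ha.eq g)
    rw [star_mul, star_mul, h.op.sa _ hW, h.ur.cj_star] at this
    rw [((ha.cme.star h.op).cj h g) _ hW, this, ha.cme.star h.op _ hW]⟩

theorem sm_sub (hN : OpIn N L) (ha : Sm π I J Q E N a) {A : Set G} (hA : RI Q A) {g l : G}
    (hs : A ⊆ lt l (Wh I N J Q (l⁻¹ * g))) : cj π g a * E A = cj π l a * E A := by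
  have hW := h.cell.ri_Wh hN (l⁻¹ * g)
  have := congrArg (cj π l) (ha.eq (l⁻¹ * g))
  rw [cj_mul, cj_mul, cj_cj, mul_inv_cancel_left, h.cov _ _ hW] at this
  rw [← h.op.mul_of_subset' hA (hW.lt l) hs, ← mul_assoc, this, mul_assoc]

theorem sm_mono (hN : OpIn N L) (hN' : OpIn N' L) (hle : N' ≤ N) (ha : Sm π I J Q E N a) :
    Sm π I J Q E N' a :=
  ⟨ha.cme, fun g => by
    have := h.sm_sub hN ha (h.cell.ri_Wh hN' g) (g := g) (l := 1) fun x ⟨q, hq, c, d⟩ =>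
      ⟨q, hq, by simpa using cK_mono hle c, by simpa using cK_mono hle d⟩
    rwa [one_cj] at this⟩

theorem sm_cj (hN : OpIn N L) (hN' : OpIn N' L) {l : G} (hl : l ∈ L)
    (hle : ∀ k ∈ N', l⁻¹ * k * l ∈ N) (ha : Sm π I J Q E N a) : Sm π I J Q E N' (cj π l a) :=
  ⟨ha.cme.cj h l, fun g => by
    rw [cj_cj]
    refine h.sm_sub hN ha (h.cell.ri_Wh hN' g) fun x hx => ?_
    have hx' : x ∈ lt 1 (Wh I N' J Q (1⁻¹ * g * 1)) := by simpa [lt_one] using hx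
    obtain ⟨m, hm, e⟩ := h.cell.exists_m (h.cell.W_sub hN'.1 L.one_mem L.one_mem hx')
    rw [← mul_assoc, e N hN.1 l hl l hl]
    exact hle m (by simpa using (e N' hN'.1 1 L.one_mem 1 L.one_mem).1 hx')⟩

theorem sm_fix (hN : OpIn N L) (ha : Sm π I J Q E N a) {u k : G} (hu : u ∈ I) (hk : k ∈ N) :
    cj π (u * k) a = a := by
  have := h.sm_sub hN ha h.cell.ri_big (g := u * k) (l := 1)
    fun x ⟨u', c, l, d, v, e, e'⟩ => ⟨(l * v)⁻¹,
      Q.inv_mem ((h.cell.memQ _).2 ⟨l, d, v, e, rfl⟩), by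
        have e1 : 1⁻¹ * x * (l * v)⁻¹ = u' * 1 * 1 := by rw [e']; group
        rw [e1]
        refine ⟨mk_cK c N.one_mem J.one_mem, ?_⟩
        have := h.cell.left_cK hN.1 (h.cell.nI' (hN.1 hk) (I.inv_mem hu)) (N.inv_mem hk)
          (mk_cK c N.one_mem J.one_mem)
        rw [mem_lt]
        convert this using 1
        group⟩
  rwa [h.full, mul_one, mul_one, one_cj] at this

theorem sm_fixI (hN : OpIn N L) (ha : Sm π I J Q E N a) {u : G} (hu : u ∈ I) : cj π u a = a := by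
  simpa using h.sm_fix hN ha hu N.one_mem

theorem sm_fixN (hN : OpIn N L) (ha : Sm π I J Q E N a) {k : G} (hk : k ∈ N) : cj π k a = a := by
  simpa using h.sm_fix hN ha I.one_mem hk

theorem full2 (g : G) : E (cK I L J ∩ lt g (cK I L J)) = 1 := by
  rw [h.op.inter _ _ h.cell.ri_big (h.cell.ri_big.lt g), ← h.cov _ _ h.cell.ri_big, h.full,
    cj_one, one_mul]

variable [SecondCountableTopology G]

/-- **The sum over the Levi group is invariant.** -/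
theorem sc (hN : OpIn N L) {ι : Type} [Countable ι] {ρ : ι → G} (hρ : Rp N L ρ)
    (ha : Sm π I J Q E N a) (g : G) (ξ : K) :
    qq (fun i => cj π (ρ i) a) (π g ξ) = qq (fun i => cj π (ρ i) a) ξ := by
  let V : ι → ι → Set G := fun i j => lt (ρ j) (Wh I N J Q ((ρ j)⁻¹ * g⁻¹ * ρ i))
  have hV : ∀ i j, RI Q (V i j) := fun i j => (h.cell.ri_Wh hN _).lt _
  have hs : ∀ i j, V i j ⊆ cK I L J ∩ lt g⁻¹ (cK I L J) := fun i j x hx =>
    h.cell.W_sub hN.1 (hρ.1 i) (hρ.1 j) hx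
  have u1 : ∀ x ∈ cK I L J ∩ lt g⁻¹ (cK I L J), (∀ i, ∃! j, x ∈ V i j) ∧ ∀ j, ∃! i, x ∈ V i j := by
    intro x hx
    obtain ⟨m, hm, e⟩ := h.cell.exists_m hx
    have e' : ∀ i j, x ∈ V i j ↔ (ρ i)⁻¹ * m * ρ j ∈ N := fun i j =>
      e N hN.1 _ (hρ.1 i) _ (hρ.1 j)
    refine ⟨fun i => ?_, fun j => ?_⟩
    · refine (existsUnique_congr fun j => ?_).1
        (hρ.2 (m⁻¹ * ρ i) (L.mul_mem (L.inv_mem hm) (hρ.1 i)))
      rw [e', ← N.inv_mem_iff]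
      congr! 1
      group
    · simpa only [e', mul_assoc] using hρ.2 (m * ρ j) (L.mul_mem hm (hρ.1 j))
  have key : ∀ F : ι → Set G, (∀ i, RI Q (F i)) → (∀ i, F i ⊆ cK I L J ∩ lt g⁻¹ (cK I L J)) →
      (∀ x ∈ cK I L J ∩ lt g⁻¹ (cK I L J), ∃! i, x ∈ F i) → ∀ η,
      ‖η‖ₑ ^ 2 = ∑' i, ‖E (F i) η‖ₑ ^ 2 := fun F a b c η => by
    rw [h.op.tsum a fun i j hij x hx hx' => hij ((c x (b i hx)).unique hx hx'),
      h.op.full_mono (h.cell.ri_big.inter (h.cell.ri_big.lt _)) (ri_iUnion a)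
        (fun x hx => Set.mem_iUnion.2 (c x hx).exists) (h.full2 g⁻¹), one_apply_eq_self]
  calc qq (fun i => cj π (ρ i) a) (π g ξ) = ∑' i, ∑' j, ‖E (V i j) (cj π (ρ j) a ξ)‖ₑ ^ 2 := by
        refine tsum_congr fun i => ?_
        have e : ‖cj π (ρ i) a (π g ξ)‖ₑ = ‖cj π (g⁻¹ * ρ i) a ξ‖ₑ := by
          rw [← cj_cj, cj_ap g⁻¹, inv_inv, h.ur.enorm]
        rw [e, key (V i) (hV i) (hs i) fun x hx => (u1 x hx).1 i]
        refine tsum_congr fun j => ?_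
        rw [← mul_ap, ← (ha.cme.cj h _) _ (hV i j), h.sm_sub hN ha (hV i j) (l := ρ j)
          (by rw [← mul_assoc]), (ha.cme.cj h _) _ (hV i j), mul_ap]
    _ = qq (fun i => cj π (ρ i) a) ξ := by
        rw [ENNReal.tsum_comm]
        exact tsum_congr fun j =>
          (key (fun i => V i j) (fun i => hV i j) (fun i => hs i j) (fun x hx => (u1 x hx).2 j) _).symm

end Ow

/-- the measure of an invariant part of the cell is smooth -/
theorem sm_of_set {H : Subgroup G} {θ : Set G → K →L[ℂ] K} (hc : Cell I L J Q) (hθ : OP H θ)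
    (hH : H ≤ Q) (cov : ∀ g A, RI H A → cj π g (θ A) = θ (lt g A)) (hN : OpIn N L) {A : Set G}
    (hA : RI H A) (hI : ∀ u ∈ I, ∀ x ∈ A, u * x ∈ A) (hK : ∀ k ∈ N, ∀ x ∈ A, k * x ∈ A)
    (hJ : J ≤ H) : Sm π I J Q θ N (θ A) :=
  ⟨fun B hB => hθ.comm hA (hB.mono hH), fun g => by
    have hW := (hc.ri_Wh hN g).mono hH
    rw [cov _ _ hA, ← hθ.inter _ _ (hA.lt g) hW, ← hθ.inter _ _ hA hW]
    congr 1
    ext x
    refine and_congr_left fun ⟨q, hq, a, b⟩ => ?_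
    obtain ⟨s, hs, w, hw, e⟩ := (hc.memQ _).1 (Q.inv_mem hq)
    have key : ∀ y, y * q ∈ cK I N J → (y ∈ A ↔ s ∈ A) := by
      rintro y ⟨u, hu, k, hk, v, hv, e'⟩
      have e1 : y = u * (k * s) * (s⁻¹ * v * s * w) := by
        rw [← mul_inv_cancel_right y q, e', e]; group
      rw [e1, hA.iff (hJ (J.mul_mem (hc.nJ' hs hv) hw))]
      exact ⟨fun c => by simpa using hK _ (N.inv_mem hk) _ (hI _ (I.inv_mem hu) _ c),
        fun c => hI _ hu _ (hK _ hk _ c)⟩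
    rw [mem_lt, key x a, key (g⁻¹ * x) (by rw [mul_assoc]; exact b)]⟩

end sm

end Vale.Agent.P092MG
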