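import Vale.Agent.P092CP.Defs

/-!
P092, blocks E4 and E5 for totally disconnected groups: the interface.

`Cell`: a big cell `I L J`.  `Mn`, `Pn`, `Bld`: the minimal cell, the panels, the whole group data.
`OP`: projection valued measures on the open right invariant subsets of a group.
`Sd`, `Mag`: the magic pair of boundary measures in a coupling.
-/

set_option linter.all false

open scoped InnerProductSpace ENNReal NNReal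
open MeasureTheory Filter Topology ContinuousLinearMap

namespace Vale.Agent.P092MG

open Vale.Agent.P092.RC (Cm)
open Vale.Agent.P092CP

section grp

variable {G : Type} [Group G] [TopologicalSpace G]

/-- open and right invariant under `H` -/
def RI (H : Subgroup G) (A : Set G) : Prop := IsOpen A ∧ ∀ x ∈ A, ∀ h ∈ H, x * h ∈ A

/-- the left translate `g A` -/
def lt (g : G) (A : Set G) : Set G := {x | g⁻¹ * x ∈ A}

/-- the right translate `A z⁻¹` -/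
def rt (z : G) (A : Set G) : Set G := {x | x * z ∈ A}

/-- the part `(I ∩ S) (L ∩ T) J` of the big cell -/
def cs (I L J : Subgroup G) (S T : Set G) : Set G :=
  {g | ∃ u ∈ I, u ∈ S ∧ ∃ l ∈ L, l ∈ T ∧ ∃ v ∈ J, g = u * l * v}

/-- `K` is an open subgroup of `L` -/
def OpIn (K L : Subgroup G) : Prop := K ≤ L ∧ ∃ T, IsOpen T ∧ ∀ l ∈ L, l ∈ K ↔ l ∈ T

/-- a big cell `I L J`, and `Q = L J` -/
structure Cell (I L J Q : Subgroup G) : Prop where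
  nI : ∀ l ∈ L, ∀ u ∈ I, l * u * l⁻¹ ∈ I
  nJ : ∀ l ∈ L, ∀ v ∈ J, l * v * l⁻¹ ∈ J
  memQ : ∀ g, g ∈ Q ↔ ∃ l ∈ L, ∃ v ∈ J, g = l * v
  uniq : ∀ u ∈ I, ∀ l ∈ L, ∀ v ∈ J, u * l * v = 1 → u = 1 ∧ l = 1
  opn : ∀ S T, IsOpen S → IsOpen T → IsOpen (cs I L J S T)
  clI : IsClosed (I : Set G)
  clL : IsClosed (L : Set G)
  clJ : IsClosed (J : Set G)
  clQ : IsClosed (Q : Set G)
  clIL : IsClosed {g | ∃ u ∈ I, ∃ l ∈ L, g = u * l}

/-- the data of the minimal cell: `Z` centraliser of the split torus, `M` its compact part, `I`, `J`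
the two opposite maximal unipotent groups, `P = Z J`, `H = M J` -/
structure MnD (G : Type) [Group G] where
  /-- left unipotent group -/
  I : Subgroup G
  /-- Levi group -/
  Z : Subgroup G
  /-- right unipotent group -/
  J : Subgroup G
  /-- minimal parabolic group -/
  P : Subgroup G
  /-- compact part of `Z` -/
  M : Subgroup G
  /-- stabiliser of the base point of the cone -/
  H : Subgroup G

/-- the big cell -/
def MnD.Ω (D : MnD G) : Set G := cs D.I D.Z D.J Set.univ Set.univ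

/-- the cell `I Λ J` -/
def MnD.cl (D : MnD G) (Λ : Subgroup G) : Set G :=
  {g | ∃ u ∈ D.I, ∃ z ∈ Λ, ∃ v ∈ D.J, g = u * z * v}

structure Mn (D : MnD G) : Prop where
  cell : Cell D.I D.Z D.J D.P
  td : ∀ O ∈ 𝓝 (1 : G), ∃ K : Subgroup G, IsOpen (K : Set G) ∧ IsCompact (K : Set G) ∧
    (K : Set G) ⊆ O
  opM : OpIn D.M D.Z
  cpM : IsCompact (D.M : Set G)
  memH : ∀ g, g ∈ D.H ↔ ∃ m ∈ D.M, ∃ v ∈ D.J, g = m * v
  ab : ∀ a ∈ D.Z, ∀ b ∈ D.Z, a * b * a⁻¹ * b⁻¹ ∈ D.M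
  tf : ∀ z ∈ D.Z, ∀ k : ℕ, k ≠ 0 → z ^ k ∈ D.M → z ∈ D.M
  dense : Dense D.Ω
  coc : ∃ C : Set G, IsCompact C ∧ ∀ g, ∃ c ∈ C, c⁻¹ * g ∈ D.P
  ic : ∀ u ∈ D.I, ∃ C : Subgroup G, IsCompact (C : Set G) ∧ u ∈ C

/-- the data of a panel: the cell `I L J` of the parabolic group `Q = L J` of semisimple rank one,
`L₁` the kernel of the real characters of `L`, `n` the reflection, `χ` the size of the root -/
structure PnD (G : Type) [Group G] where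
  /-- left radical -/
  I : Subgroup G
  /-- Levi group -/
  L : Subgroup G
  /-- right radical -/
  J : Subgroup G
  /-- parabolic group -/
  Q : Subgroup G
  /-- unimodular part of `L` -/
  L₁ : Subgroup G
  /-- the reflection -/
  n : G
  /-- the size of the simple root -/
  χ : G → ℝ

structure Pn (D : MnD G) (E : PnD G) : Prop where
  cell : Cell E.I E.L E.J E.Q
  ZL : D.Z ≤ E.L
  II : E.I ≤ D.I
  JJ : E.J ≤ D.J
  decI : ∀ u ∈ D.I, ∃ v ∈ E.I, v⁻¹ * u ∈ E.L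
  decJ : ∀ u ∈ D.J, u ∈ E.Q
  op₁ : OpIn E.L₁ E.L
  ab₁ : ∀ a ∈ E.L, ∀ b ∈ E.L, a * b * a⁻¹ * b⁻¹ ∈ E.L₁
  tf₁ : ∀ z ∈ D.Z, ∀ k : ℕ, k ≠ 0 → z ^ k ∈ E.L₁ → z ∈ E.L₁
  M₁ : D.M ≤ E.L₁
  I₁ : ∀ u ∈ D.I, u ∈ E.L → u ∈ E.L₁
  n₁ : E.n ∈ E.L₁
  nZ : ∀ z, z ∈ D.Z ↔ E.n * z * E.n⁻¹ ∈ D.Z
  nM : ∀ z, z ∈ D.M ↔ E.n * z * E.n⁻¹ ∈ D.M
  nn : E.n * E.n ∈ D.Z
  nR : ∀ u ∈ E.L, u ∈ D.I ↔ E.n * u * E.n⁻¹ ∈ D.J
  neg : ∀ z ∈ D.Z, z ∈ E.L₁ → E.n * z * E.n⁻¹ * z ∈ D.M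
  bru : ∀ l ∈ E.L, l ∈ D.P ∨ E.n⁻¹ * l ∈ D.Ω
  χmul : ∀ a ∈ D.Z, ∀ b ∈ D.Z, E.χ (a * b) = E.χ a + E.χ b
  χzero : ∀ z ∈ D.Z, E.χ z = 0 ↔ E.n⁻¹ * z * E.n * z⁻¹ ∈ D.M
  χne : ∃ z ∈ D.Z, E.χ z ≠ 0
  rk : ∀ a ∈ D.Z, a ∈ E.L₁ → ∀ b ∈ D.Z, b ∈ E.L₁ → b ∉ D.M →
    ∃ m : ℕ, m ≠ 0 ∧ ∃ k : ℤ, a ^ m * b ^ k ∈ D.M
  con : ∀ z ∈ D.Z, 0 < E.χ z → ∀ C : Set G, IsCompact C → (∀ r ∈ C, r ∈ D.J ∧ r ∈ E.L) →
    ∀ O ∈ 𝓝 (1 : G), ∀ᶠ k : ℕ in atTop, ∀ r ∈ C, z ^ k * r * (z ^ k)⁻¹ ∈ O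

/-- the group data: minimal cell and all panels -/
structure Bld {σ : Type} (D : MnD G) (E : σ → PnD G) : Prop where
  mn : Mn D
  pn : ∀ i, Pn D (E i)
  bn : ∀ S S' : Subgroup G, D.P ≤ S → D.P ≤ S' → (∀ i, (E i).n ∈ S → (E i).n ∈ S') → S ≤ S'
  ind : ∀ i j, (E j).n ∉ (E i).Q →
    ∃ a ∈ D.Z, a * (E j).n⁻¹ * a⁻¹ * (E j).n ∉ (E i).L₁

/-- a gallery from the base chamber to the opposite one which crosses distinct walls -/
structure Gal {σ : Type} (D : MnD G) (E : σ → PnD G) (N : ℕ) (τ : ℕ → σ) (w : ℕ → G) :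
    Prop where
  zero : w 0 = 1
  step : ∀ i, w (i + 1) = w i * (E (τ i)).n
  dense : Dense {g | ∃ u ∈ D.I, ∃ z ∈ D.Z, ∃ v ∈ D.I, g = u * z * w N * v}
  wall : ∀ i < N, ∀ k < N, i ≠ k → ∃ a ∈ D.Z,
    (E (τ i)).χ ((w i)⁻¹ * a * w i) ≠ 0 ∧ (E (τ k)).χ ((w k)⁻¹ * a * w k) = 0

end grp

section op

variable {G K : Type} [Group G] [TopologicalSpace G] [NormedAddCommGroup K]
  [InnerProductSpace ℂ K] [CompleteSpace K]

/-- a projection valued measure on the open subsets of `G / H` -/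
structure OP (H : Subgroup G) (P : Set G → K →L[ℂ] K) : Prop where
  sa : ∀ A, RI H A → star (P A) = P A
  inter : ∀ A B, RI H A → RI H B → P (A ∩ B) = P A * P B
  union : ∀ A B, RI H A → RI H B → P (A ∪ B) = P A + P B - P A * P B
  univ : P Set.univ = 1
  empty : P ∅ = 0
  lim : ∀ A : ℕ → Set G, (∀ n, RI H (A n)) → Monotone A →
    ∀ ξ, Tendsto (fun n => P (A n) ξ) atTop (𝓝 (P (⋃ n, A n) ξ))

/-- conjugation -/
def cj (π : G →* (K →L[ℂ] K)) (g : G) (T : K →L[ℂ] K) : K →L[ℂ] K := π g * T * π g⁻¹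

end op

section mag

variable {G G' K : Type} [Group G] [TopologicalSpace G] [MeasurableSpace G] [Group G']
  [TopologicalSpace G'] [MeasurableSpace G'] [NormedAddCommGroup K] [InnerProductSpace ℂ K]
  [CompleteSpace K] {μ : Measure G} {μ' : Measure G'} {W : Set (K →L[ℂ] K)}

/-- Moore ergodicity of the subgroup `S` of the source -/
def Erg (C : Cpl μ μ' W) (S : Subgroup G) : Prop :=
  ∀ T, C.t.M T → (∀ s ∈ S, T * C.s.π s = C.s.π s * T) → ∃ z : ℂ, T = z • (1 : K →L[ℂ] K)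

/-- the boundary measure `θ` on the cone `G' / H'` of the target -/
structure Sd (C : Cpl μ μ' W) (D : MnD G) (D' : MnD G') (θ : Set G' → K →L[ℂ] K) : Prop where
  op : OP D'.H θ
  cm : ∀ A, RI D'.H A → Cm W (θ A)
  cov : ∀ h A, RI D'.H A → cj C.t.π h (θ A) = θ (lt h A)
  invM : ∀ m ∈ D.M, ∀ A, RI D'.H A → cj C.s.π m (θ A) = θ A
  invI : ∀ u ∈ D.I, ∀ A, RI D'.H A → cj C.s.π u (θ A) = θ A
  ht : ∀ a ∈ D.Z, ∃ z ∈ D'.Z, ∀ A, RI D'.H A → cj C.s.π a (θ A) = θ (rt z A)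
  full : θ D'.Ω = 1

/-- **The magic pair.** -/
structure Mag (C : Cpl μ μ' W) (D : MnD G) (D' : MnD G') (θ : Set G' → K →L[ℂ] K)
    (Θ : Set G → K →L[ℂ] K) : Prop where
  t : Sd C D D' θ
  s : Sd C.swap D' D Θ
  mag : θ (D'.cl D'.M) = Θ (D.cl D.M)
  fin : ∀ L' L, IsCompact L' → L' ⊆ D'.Ω → IsCompact L → L ⊆ D.Ω → ∀ A' A, RI D'.H A' →
    RI D.H A → (∀ x ∈ A', ∃ c ∈ L', c⁻¹ * x ∈ D'.H) → (∀ x ∈ A, ∃ c ∈ L, c⁻¹ * x ∈ D.H) →
    C.t.Tr (θ A' * Θ A) ≠ ∞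

/-- the translates of `θ` by `g` commute with `θ` -/
def Cmg (C : Cpl μ μ' W) (D' : MnD G') (θ : Set G' → K →L[ℂ] K) (g : G) : Prop :=
  ∀ A B, RI D'.H A → RI D'.H B → cj C.s.π g (θ A) * θ B = θ B * cj C.s.π g (θ A)

/-- the panel `E` of the source corresponds to the panel `E'` of the target -/
def Typ (C : Cpl μ μ' W) (D : MnD G) (D' : MnD G') (θ : Set G' → K →L[ℂ] K) (E : PnD G)
    (E' : PnD G') : Prop :=
  ∀ a ∈ D.Z, ∀ z ∈ D'.Z, (∀ A, RI D'.H A → cj C.s.π a (θ A) = θ (rt z A)) →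
    (a ∈ E.L₁ ↔ z ∈ E'.L₁)

end mag

end Vale.Agent.P092MG
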