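import Vale.Agent.P092MG.Main
import Vale.Agent.P092CT.Com

/-!
P092: the blocks E4 and E5 as the proposition `AC`.
-/

namespace Vale.Agent.P092MG

theorem ac : Vale.Agent.P092CT.AC := fun b b' ga m e e' g => all_comm b b' ga m e e' g

end Vale.Agent.P092MG
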