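import Vale.Agent.P092MG.Rel
import Vale.Agent.P092.H720.ThC

/-!
P092, E4: Theorem C for an action with a compact kernel.
-/

set_option linter.all false

open scoped InnerProductSpace ENNReal NNReal
open MeasureTheory Filter Topology ContinuousLinearMap

namespace Vale.Agent.P092MG

open Vale.Agent.P092.H242.ThC
open Vale.Agent.P092CP

variable {A L : Type} [NonUnitalRing A] [StarRing A] [Module ℂ A] [SMulCommClass ℂ A A]
  [IsScalarTower ℂ A A] [NormedAddCommGroup L] [InnerProductSpace ℂ L] [CompleteSpace L]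
  {j : A →ₗ[ℂ] L} {H Y : Type} [Group H] [TopologicalSpace H] [IsTopologicalGroup H]
  [SecondCountableTopology H] [MeasurableSpace H] [BorelSpace H] [Group Y] [TopologicalSpace Y]
  [IsTopologicalGroup Y] [SecondCountableTopology Y] [MeasurableSpace Y] [BorelSpace Y]
  {α : H → A → A} {μ : Measure H} {r : Y → A → A} {ν : Measure Y}

/-- an integrable action -/
structure Ac (j : A →ₗ[ℂ] L) (α : H → A → A) (μ : Measure H) : Prop where
  mul : ∀ h a b, α h (a * b) = α h a * α h b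
  st : ∀ h a, α h (star a) = star (α h a)
  one : ∀ a, α 1 a = a
  act : ∀ g h a, α g (α h a) = α (g * h) a
  add : ∀ h a b, α h (a + b) = α h a + α h b
  smul : ∀ h (c : ℂ) a, α h (c • a) = c • α h a
  iso : ∀ h a, ‖j (α h a)‖ = ‖j a‖
  cont : ∀ a, Continuous fun h => j (α h a)
  int : ∀ a x, ∫⁻ h, ‖j (α h a * x)‖ₑ ^ 2 ∂μ = ‖j a‖ₑ ^ 2 * ‖j x‖ₑ ^ 2

theorem Ac.exists_act (hj : HA j) (h : Ac j α μ) : ∃ U : H →* (L →L[ℂ] L), Act j α U :=
  Vale.Agent.P092.H242.ThC.exists_act hj.dense h.mul h.st h.one h.act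
    (fun g a b => by rw [h.add, map_add]) (fun g c a => by rw [h.smul, map_smul]) h.iso h.cont

theorem Ac.itg (hj : HA j) (h : Ac j α μ) : Itg j α μ := by
  have m : ∀ a x, MemLp (fun g => j (α g a * x)) 2 μ := fun a x => by
    have h1 := eLpNorm_nnreal_pow_eq_lintegral (f := fun g => j (α g a * x)) (μ := μ) (p := 2)
      (by norm_num)
    refine ⟨(hj.cont_mulR x (h.cont a)).aestronglyMeasurable, lt_top_iff_ne_top.2 fun e => ?_⟩
    have h2 : ∫⁻ g, ‖j (α g a * x)‖ₑ ^ 2 ∂μ = ∞ := by simpa [e] using h1.symm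
    rw [h.int] at h2
    exact absurd h2 (by finiteness)
  let F : A → A → Lp L 2 μ := fun a x => (m a x).toLp _
  have f1 : ∀ a x (c : ℂ) y, F a (x + c • y) = F a x + c • F a y := fun a x c y => by
    rw [← MemLp.toLp_const_smul, ← MemLp.toLp_add]
    exact MemLp.toLp_congr _ _ (ae_of_all _ fun g => by simp [mul_add, mul_smul_comm])
  have f2 : ∀ a (c : ℂ) b x, F (a + c • b) x = F a x + c • F b x := fun a c b x => by
    rw [← MemLp.toLp_const_smul, ← MemLp.toLp_add]
    exact MemLp.toLp_congr _ _ (ae_of_all _ fun g => by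
      simp [add_mul, h.add, h.smul, smul_mul_assoc])
  have f3 : ∀ a x, ‖F a x‖ = ‖(‖j a‖ : ℂ) • j x‖ := fun a x => norm_of_enorm_sq (by
    rw [enorm_sq, lintegral_congr_ae ((m a x).coeFn_toLp.mono fun g hg => by rw [hg]), h.int,
      enorm_smul, mul_pow]
    simp [← ofReal_norm])
  have f4 : ∀ a x y, ⟪F a x, F a y⟫_ℂ = ⟪j a, j a⟫_ℂ * ⟪j x, j y⟫_ℂ := fun a x y => by
    rw [inner_of_norm2 (u := (‖j a‖ : ℂ) • j x) (v := (‖j a‖ : ℂ) • j y) fun c => by
      rw [← f1, f3, map_add, map_smul, smul_add, smul_comm], inner_smul_left, inner_smul_right,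
      inner_self_eq_norm_sq_to_K, Complex.conj_ofReal, pow_two, mul_assoc]
    rfl
  refine ⟨fun a x => (memLp_two_iff_integrable_sq_norm (m a x).1).1 (m a x), fun a b x y => ?_⟩
  have e : ∫ g, ⟪j (α g a * x), j (α g b * y)⟫_ℂ ∂μ = ⟪F a x, F b y⟫_ℂ := by
    rw [L2.inner_def]
    refine integral_congr_ae ?_
    filter_upwards [(m a x).coeFn_toLp, (m b y).coeFn_toLp] with g h1 h2
    rw [h1, h2]
  have h1 := f4 (a + (1 : ℂ) • b) x y
  have h2 := f4 (a + Complex.I • b) x y
  have h3 := f4 a x y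
  have h4 := f4 b x y
  simp only [f2, map_add, map_smul, inner_add_left, inner_add_right, inner_smul_left,
    inner_smul_right, map_one, Complex.conj_I] at h1 h2
  rw [e]
  linear_combination (h1 - Complex.I * h2 - (1 - Complex.I) * (h3 + h4)) / 2 +
    (⟪F a x, F b y⟫_ℂ - ⟪F b x, F a y⟫_ℂ - Complex.I * ⟪F b x, F b y⟫_ℂ -
      (⟪j a, j b⟫_ℂ - ⟪j b, j a⟫_ℂ - Complex.I * ⟪j b, j b⟫_ℂ) * ⟪j x, j y⟫_ℂ) / 2 * Complex.I_mul_I

theorem cen_normal {Q : Type} [Group Q] {S : Set Q} (hS : ∀ s, ∀ t ∈ S, s * t * s⁻¹ ∈ S) :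
    (Subgroup.centralizer S).Normal := ⟨fun x hx g t ht => by
  have := hx _ (hS g⁻¹ t ht)
  calc t * (g * x * g⁻¹) = g * (g⁻¹ * t * g⁻¹⁻¹ * x) * g⁻¹ := by group
    _ = _ := by rw [this]; group⟩

open Vale.Agent.P092.H565 Vale.Agent.P092.H978 Vale.Agent.P092.H720 in
/-- **Theorem C with a compact kernel.** -/
theorem thmK [LocallyCompactSpace H] [T2Space H] [μ.IsHaarMeasure] [SFinite ν]
    [ν.IsMulLeftInvariant] [ν.IsInvInvariant] [ν.IsOpenPosMeasure] (hj : HA j) (hα : Ac j α μ)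
    (hr : Ac j r ν) (hc : ∀ h y a, α h (r y a) = r y (α h a)) (N : Subgroup H) [N.Normal]
    (cN : IsCompact (N : Set H)) (fix : ∀ k ∈ N, ∀ a, α k a = a)
    (p1 : ∀ T : Subgroup H, T.Normal → IsCompact (T : Set H) → T ≤ N)
    (p2 : ∀ T : Subgroup H, T.Normal → (∀ x ∈ T, ∀ y ∈ T, x * y * x⁻¹ * y⁻¹ ∈ N) → T ≤ N)
    (a b : A) : j (a * b) = j (b * a) := by
  haveI : IsClosed (N : Set H) := cN.isClosed
  borelize (H ⧸ N)
  have pr : IsProperMap (QuotientGroup.mk' N) := isProperMap_iff_isClosedMap_and_compact_fibers.2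
    ⟨QuotientGroup.continuous_mk, QuotientGroup.isClosedMap_coe cN, fun q => by
      obtain ⟨g, rfl⟩ := QuotientGroup.mk_surjective q
      convert cN.image (continuous_const_mul g) using 1
      ext x
      exact ⟨fun e => ⟨_, QuotientGroup.eq.1 (Eq.symm e), by simp⟩,
        fun ⟨k, c, d⟩ => (QuotientGroup.eq.2 (by simpa [← d] using c)).symm⟩⟩
  haveI := Measure.isHaarMeasure_map μ (QuotientGroup.mk' N) pr.continuous
    (QuotientGroup.mk'_surjective N) (isProperMap_iff_tendsto_cocompact.1 pr).2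
  obtain ⟨β, e⟩ : ∃ β : H ⧸ N → A → A, ∀ g : H, β g = α g := ⟨fun q => α q.out, fun g => by
    obtain ⟨k, hk⟩ := QuotientGroup.mk_out_eq_mul N g
    funext x
    beta_reduce
    rw [hk, ← hα.act, fix k k.2]⟩
  have ind : ∀ {P : H ⧸ N → Prop}, (∀ g : H, P g) → ∀ q, P q := fun h q =>
    QuotientGroup.induction_on q h
  have ct : ∀ a, Continuous fun q => j (β q a) := fun a =>
    (QuotientGroup.isQuotientMap_mk N).continuous_iff.2 (by
      simpa only [Function.comp_def, e] using hα.cont a)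
  have hβ : Ac j β (μ.map (QuotientGroup.mk' N)) :=
    ⟨ind fun g => e g ▸ hα.mul g, ind fun g => e g ▸ hα.st g, e 1 ▸ hα.one,
      ind fun g => ind fun g' x => by rw [← QuotientGroup.mk_mul, e, e, e, hα.act],
      ind fun g => e g ▸ hα.add g, ind fun g => e g ▸ hα.smul g, ind fun g => e g ▸ hα.iso g, ct,
      fun a x => by
        rw [lintegral_map ((hj.cont_mulR x (ct a)).enorm.measurable.pow_const 2)
          pr.continuous.measurable, ← hα.int]
        simp only [QuotientGroup.mk'_apply, e]⟩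
  obtain ⟨U, hU⟩ := hβ.exists_act hj
  obtain ⟨R, hR⟩ := hr.exists_act hj
  have P : Pk j β U _ r R ν := ⟨hj, hU, hβ.itg hj, hR, hr.itg hj, ind fun g => e g ▸ hc g⟩
  have triv : ∀ T : Subgroup (H ⧸ N), T.comap (QuotientGroup.mk' N) ≤ N → ∀ q ∈ T, q = 1 :=
    fun T h => ind fun g hg => (QuotientGroup.eq_one_iff g).2 (h hg)
  by_cases hne : ∃ a, j a ≠ 0
  swap
  · push Not at hne
    rw [hne, hne]
  have h0 := coef_van P.ha P.actH P.itgH
  have hf : ∀ q, (∀ a, j (β q a) = j a) → q = 1 := fun q hq => by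
    obtain ⟨x, hx⟩ := hne
    have hk : ∀ t, t ∈ U.ker ↔ ∀ a, j (β t a) = j a := fun t =>
      ⟨fun c a => by rw [← hU.coe, MonoidHom.mem_ker.1 c, one_apply_eq_self], fun c =>
        ContinuousLinearMap.coeFn_injective (hj.dense.equalizer (U t).continuous
          (1 : L →L[ℂ] L).continuous (funext fun a => (hU.coe t a).trans (c a)))⟩
    obtain ⟨T, t1, t2⟩ := mem_cocompact.1 (h0 (j x) (j x) (isOpen_ne.mem_nhds
      (inner_self_ne_zero.2 hx).symm))
    refine triv U.ker (p1 _ inferInstance (pr.isCompact_preimage (K := (U.ker : Set (H ⧸ N)))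
      (t1.of_isClosed_subset ?_ fun t ht => by_contra fun c => t2 c (by
        beta_reduce
        rw [hU.coe, (hk t).1 ht])))) q ((hk q).2 hq)
    have : (U.ker : Set (H ⧸ N)) = ⋂ a, {t | j (β t a) = j a} := by
      ext t; simp only [Set.mem_iInter]; exact hk t
    rw [this]
    exact isClosed_iInter fun a => isClosed_eq (ct a) continuous_const
  refine single_comm P h0 (dense_ph P h0 hne hf) (Vale.Agent.P092.H978.thL P) ?_
    (fun S _ hS hc s hs => ?_) a b
  · intro x n b c K hK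
    have h1 : ∀ k, ⟪j x, Th P.ha P.actY P.itgY (b k) (c k) (j x)⟫_ℂ =
        ⟪j (c k), Th P.ha P.actY P.itgY (star x) (star x) (j (b k))⟫_ℂ := fun k =>
      psi_eq P x (b k) (c k)
    simp_rw [h1]
    refine sup_bound P hf hne (fun y ξ => Th_R P.ha P.actY P.itgY (star x) (star x) y ξ)
      (posOp_Th P x) (fun k => j (b k)) (fun k => j (c k)) ?_
    intro t
    simpa only [P.actH.coe] using hK t
  · haveI := cen_normal hS
    refine triv (Subgroup.centralizer S ⊓ Subgroup.centralizer (Subgroup.centralizer S))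
      (p2 _ inferInstance fun x hx y hy => (QuotientGroup.eq_one_iff _).1 ?_) s
      ⟨fun t ht => hc t ht s hs, fun t ht => (ht s hs).symm⟩
    have := hy.2 _ hx.1
    simp only [QuotientGroup.mk'_apply] at this
    simp [this]

end Vale.Agent.P092MG
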