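import Vale.Agent.P092MG.Nrm
import Vale.Agent.P092MG.ThK
import Vale.Agent.P092CP.L2

/-!
P092, E4: the algebra of the elements of finite trace is commutative.
-/

set_option linter.all false

open scoped InnerProductSpace ENNReal NNReal
open MeasureTheory Filter Topology ContinuousLinearMap

namespace Vale.Agent.P092MG

open Vale.Agent.P092.RC (Cm)
open Vale.Agent.P092CP
open Vale.Agent.P092.H242.ThC (HA)

variable {G G' K : Type} [Group G] [TopologicalSpace G] [IsTopologicalGroup G]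
  [LocallyCompactSpace G] [SecondCountableTopology G] [T2Space G] [MeasurableSpace G] [BorelSpace G]
  [Group G'] [TopologicalSpace G'] [IsTopologicalGroup G'] [LocallyCompactSpace G']
  [SecondCountableTopology G'] [T2Space G'] [MeasurableSpace G'] [BorelSpace G']
  [NormedAddCommGroup K] [InnerProductSpace ℂ K] [CompleteSpace K] {μ : Measure G}
  [μ.IsHaarMeasure] {μ' : Measure G'} [μ'.IsHaarMeasure] {W : Set (K →L[ℂ] K)}
  {C : Cpl μ μ' W} {D : MnD G} {D' : MnD G'} {E : PnD G} {E' : PnD G'}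
  {θ : Set G' → K →L[ℂ] K} {Θ : Set G → K →L[ℂ] K} {a b q x y z : K →L[ℂ] K}

theorem exists_j0 {A H : Type} [AddCommGroup A] [Module ℂ A] [NormedAddCommGroup H]
    [InnerProductSpace ℂ H] [CompleteSpace H] (j₀ : A →ₗ[ℂ] H) :
    ∃ (L : Type) (_ : NormedAddCommGroup L) (_ : InnerProductSpace ℂ L) (_ : CompleteSpace L)
      (j : A →ₗ[ℂ] L), DenseRange j ∧ (∀ a b, ⟪j a, j b⟫_ℂ = ⟪j₀ a, j₀ b⟫_ℂ) ∧
        ∀ a, ‖j a‖ₑ = ‖j₀ a‖ₑ :=
  ⟨(LinearMap.range j₀).topologicalClosure, _, _, inferInstance,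
    j₀.codRestrict _ fun a => Submodule.le_topologicalClosure _ ⟨a, rfl⟩,
    Subtype.dense_iff.2 (closure_mono fun _ ⟨a, h⟩ => ⟨_, ⟨a, rfl⟩, h⟩), fun _ _ => rfl,
    fun _ => rfl⟩

theorem exists_j (S : Side μ' W) (A : NonUnitalStarSubalgebra ℂ (K →L[ℂ] K))
    (hq : ∀ a ∈ A, a * q ∈ S.HS) (st : ∀ a ∈ A, S.Tr (star a * q) = S.Tr (a * q)) :
    ∃ (L : Type) (_ : NormedAddCommGroup L) (_ : InnerProductSpace ℂ L) (_ : CompleteSpace L)
      (j : A →ₗ[ℂ] L), HA j ∧ ∀ a : A, ‖j a‖ₑ ^ 2 = S.Tr (a * q) := by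
  obtain ⟨L, _, _, _, j, d, e, e'⟩ := exists_j0 (A := A) (H := S.LB)
    { toFun := fun a => S.vB (a * q)
      map_add' := fun a b => by
        rw [← S.gnsB.add _ (hq a a.2) _ (hq b b.2), ← add_mul]; rfl
      map_smul' := fun c a => by
        rw [RingHom.id_apply, ← S.gnsB.smul c _ (hq a a.2), ← smul_mul_assoc]; rfl }
  have n : ∀ a : A, ‖j a‖ₑ ^ 2 = S.Tr (a * q) := fun a => by
    rw [e']; exact S.enorm_vB (hq a a.2)
  have i : ∀ a b : A, ⟪j a, j b⟫_ℂ = ∫ g, ⟪(a.1 * q) (S.π g S.Ω), (b.1 * q) (S.π g S.Ω)⟫_ℂ ∂μ' :=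
    fun a b => (e a b).trans (S.inner_vB (hq _ a.2) (hq _ b.2))
  have l : ∀ a b c : A, ⟪j (a * b), j c⟫_ℂ = ⟪j b, j (star a * c)⟫_ℂ := fun a b c => by
    rw [i, i]
    exact integral_congr_ae (ae_of_all _ fun g => (adjoint_inner_right a.1 _ _).symm)
  have t : ∀ a b : A, ⟪j (star a), j (star b)⟫_ℂ = ⟪j b, j a⟫_ℂ := fun a b =>
    inner_of_anti fun c => norm_of_enorm_sq (by
      rw [← map_smul, ← map_add, ← map_smul, ← map_add, ← star_smul, ← star_add, n, n]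
      exact st _ (a + c • b).2)
  exact ⟨L, _, _, inferInstance, j, ⟨d, l, fun a b c => by
    rw [← t c, star_mul, ← l, ← t (c * star b), star_mul, star_star], t,
    fun a => ⟨‖a.1‖, fun b => norm_le_of_enorm_sq (norm_nonneg _) (by
      rw [n, n, ofReal_norm]
      exact S.Tr_mul_le a.1 (b.1 * q))⟩⟩, n⟩

theorem mk_ac {π : G →* (K →L[ℂ] K)} (hπ : UR π) {T : Subgroup G} (ν : Measure T) [SFinite ν]
    [ν.IsMulRightInvariant] (S : Side μ' W) {A : NonUnitalStarSubalgebra ℂ (K →L[ℂ] K)} {L : Type}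
    [NormedAddCommGroup L] [InnerProductSpace ℂ L] [CompleteSpace L] {j : A →ₗ[ℂ] L}
    (hj : ∀ a : A, ‖j a‖ₑ ^ 2 = S.Tr (a * q)) (hA : ∀ l ∈ T, ∀ a ∈ A, cj π l a ∈ A)
    (hz : ∀ a ∈ A, z * a = a) (z0 : z ≠ 0) (hN : ∀ a ∈ A, ∃ N, OpIn N T ∧ ∀ k ∈ N, cj π k a = a)
    (hi : ∀ a ∈ A, ∀ ξ, ∫⁻ l, ‖cj π l.1 a ξ‖ₑ ^ 2 ∂ν = S.Tr (a * q) * ‖z ξ‖ₑ ^ 2) :
    Ac j (fun (l : T) a => ⟨cj π l.1 a, hA l l.2 a a.2⟩) ν where
  mul h a b := Subtype.ext (cj_mul _ _ _)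
  st h a := Subtype.ext (hπ.cj_star _ _).symm
  one a := Subtype.ext (one_cj _)
  act g h a := Subtype.ext (cj_cj _ _ _)
  add h a b := Subtype.ext (cj_add _ _ _)
  smul h c a := Subtype.ext (cj_smul _ _ _)
  iso h a := norm_of_enorm_sq (by
    obtain ⟨ξ, hξ⟩ : ∃ ξ, z ξ ≠ 0 := by
      by_contra! hn
      exact z0 (ContinuousLinearMap.ext hn)
    rw [hj, hj, ← ENNReal.mul_left_inj (pow_ne_zero 2 (enorm_ne_zero.2 hξ)) (by finiteness),
      ← hi _ (hA h h.2 a a.2), ← hi _ a.2]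
    simp only [cj_cj]
    exact lintegral_mul_right_eq_self (fun l : T => ‖cj π l.1 a ξ‖ₑ ^ 2) h)
  cont a := by
    obtain ⟨N, i, f⟩ := hN a a.2
    refine ((IsLocallyConstant.iff_eventually_eq _).2 fun x => ?_).continuous
    filter_upwards [(i.isOpen.preimage (continuous_const_mul x⁻¹)).mem_nhds
      (by simpa using N.one_mem)] with y hy
    refine congrArg j (Subtype.ext ?_)
    simpa [cj_cj] using congrArg (cj π x.1) (f _ hy)
  int a x := by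
    haveI := S.right
    have hv : Continuous fun g => (x.1 * q) (S.π g S.Ω) := (x.1 * q).continuous.comp (S.cont _)
    have hc : Continuous fun w : T × G' => cj π w.1.1 a ((x.1 * q) (S.π w.2 S.Ω)) :=
      continuous_iff_continuousAt.2 fun w => tendsto_ap (fun w : T × G' => hπ.cj_le w.1.1 a)
        (((hπ.ccj a _).comp (continuous_subtype_val.comp continuous_fst)).tendsto w)
        ((hv.comp continuous_snd).tendsto w)
    simp only [hj]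
    refine (lintegral_lintegral_swap
      (f := fun (l : T) g => ‖cj π l.1 a ((x.1 * q) (S.π g S.Ω))‖ₑ ^ 2)
      (hc.enorm.measurable.pow_const 2).aemeasurable).trans ?_
    simp only [hi _ a.2, ← mul_ap z, ← mul_assoc, hz _ x.2]
    exact lintegral_const_mul _ (S.meas_π _ _)

theorem Pn.ko (h : Mn D) (p : Pn D E) : IsCompact (Ko D E : Set E.L₁) ∧
    (∀ T : Subgroup E.L₁, T.Normal → IsCompact (T : Set E.L₁) → T ≤ Ko D E) ∧
    ∀ T : Subgroup E.L₁, T.Normal → (∀ x ∈ T, ∀ y ∈ T, x * y * x⁻¹ * y⁻¹ ∈ Ko D E) →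
      T ≤ Ko D E := by
  have c := sub_cp p.closed₁ h.cpM
  have n : ∀ T : Subgroup E.L₁, T.Normal → ∀ l ∈ E.L₁, ∀ x ∈ T.map E.L₁.subtype,
      l * x * l⁻¹ ∈ T.map E.L₁.subtype := fun T hT l hl _ ⟨x, a, b⟩ =>
    ⟨_, hT.conj_mem x a ⟨l, hl⟩, b ▸ rfl⟩
  exact ⟨c.of_isClosed_subset (Subgroup.normalCore_isClosed _ c.isClosed)
    (D.M.subgroupOf E.L₁).normalCore_le,
    fun T hT hc => Subgroup.normal_le_normalCore.2 fun x hx => p.P1 h (E.L₁.map_subtype_le T)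
      (n T hT) (hc.image continuous_subtype_val) ⟨x, hx, rfl⟩,
    fun T hT hc => Subgroup.normal_le_normalCore.2 fun x hx => p.P2 h (E.L₁.map_subtype_le T)
      (n T hT) (fun _ ⟨x, a, b⟩ _ ⟨y, a', b'⟩ => b ▸ b' ▸
        (D.M.subgroupOf E.L₁).normalCore_le (hc x a y a')) ⟨x, hx, rfl⟩⟩

namespace Ctx

variable (X : Ctx C D D' E E' θ Θ z) {ν : Measure E.L₁} {ν' : Measure E'.L₁}
  (n : Nm C D E E' θ Θ z q ν ν')
include X

theorem af_left (ha : Bs C E E' θ Θ z a) (fa : Fk C D E a) (hb : Af C D E E' θ Θ z q b) :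
    Af C D E E' θ Θ z q (a * b) :=
  ⟨X.bs_mul ha hb.1, fa.mul hb.2.1, by
    rw [mul_assoc]
    exact ne_top_of_le_ne_top (by have := hb.2.2; finiteness) (C.t.Tr_mul_le _ _)⟩

include n

/-- the algebra of the elements of finite trace -/
def alg : NonUnitalStarSubalgebra ℂ (K →L[ℂ] K) where
  carrier := {a | Af C D E E' θ Θ z q a}
  add_mem' ha hb := ⟨X.bs_add ha.1 hb.1, fun k hk => by rw [cj_add, ha.2.1 k hk, hb.2.1 k hk], by
    rw [add_mul]; exact C.t.Tr_add_ne ha.2.2 hb.2.2⟩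
  zero_mem' := ⟨X.bs_zero, fun k _ => cj_zero _, by simp [C.t.Tr_zero]⟩
  smul_mem' c a ha := ⟨X.bs_smul c ha.1, fun k hk => by rw [cj_smul, ha.2.1 k hk], by
    rw [smul_mul_assoc, C.t.Tr_smul]; have := ha.2.2; finiteness⟩
  mul_mem' ha hb := X.af_left ha.1 ha.2.1 hb
  star_mem' ha := ⟨X.bs_star ha.1, fun k hk => by rw [← (ur C.s).cj_star, ha.2.1 k hk], by
    rw [n.st _ ha.1]; exact ha.2.2⟩

omit X in
theorem z_ne : ∃ ξ, z ξ ≠ 0 := by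
  obtain ⟨b, a1, -, a2, -⟩ := n.ex
  by_contra! hn
  exact a2 (by rw [← a1.z2]; exact ContinuousLinearMap.ext fun ξ => hn _)

theorem af_cjS [ν.IsMulRightInvariant] {l : G} (hl : l ∈ E.L₁) (ha : Af C D E E' θ Θ z q a) :
    Af C D E E' θ Θ z q (cj C.s.π l a) := by
  obtain ⟨ξ, hξ⟩ := z_ne n
  refine ⟨X.bs_cjS ha.1 hl, ha.2.1.cjS hl, ne_of_eq_of_ne ?_ ha.2.2⟩
  rw [← ENNReal.mul_left_inj (pow_ne_zero 2 (enorm_ne_zero.2 hξ)) (by finiteness),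
    ← n.s _ (X.bs_cjS ha.1 hl), ← n.s _ ha.1]
  simp only [cj_cj]
  exact lintegral_mul_right_eq_self (fun l : E.L₁ => ‖cj C.s.π l.1 a ξ‖ₑ ^ 2) ⟨l, hl⟩

theorem af_cjT [ν'.IsMulRightInvariant] {l : G'} (hl : l ∈ E'.L₁) (ha : Af C D E E' θ Θ z q a) :
    Af C D E E' θ Θ z q (cj C.t.π l a) := by
  obtain ⟨ξ, hξ⟩ := z_ne n
  refine ⟨X.bs_cjT ha.1 hl, ha.2.1.cjT l, ne_of_eq_of_ne ?_ ha.2.2⟩
  rw [← ENNReal.mul_left_inj (pow_ne_zero 2 (enorm_ne_zero.2 hξ)) (by finiteness),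
    ← n.t _ (X.bs_cjT ha.1 hl), ← n.t _ ha.1]
  simp only [cj_cj]
  exact lintegral_mul_right_eq_self (fun l : E'.L₁ => ‖cj C.t.π l.1 a ξ‖ₑ ^ 2) ⟨l, hl⟩

omit n in
theorem loc (ha : Bs C E E' θ Θ z a) : ∃ N, OpIn N E'.L₁ ∧ ∀ k ∈ N, cj C.t.π k a = a := by
  obtain ⟨N, i, j⟩ := ha.t
  exact ⟨N ⊓ E'.L₁, (i.inf X.p'.op₁).down inf_le_right X.p'.L₁L,
    fun k hk => X.ot.sm_fixN i j hk.1⟩

/-- **The finite part is commutative.** -/
theorem af_comm [ν.IsHaarMeasure] [ν.IsMulRightInvariant] [ν'.IsHaarMeasure]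
    [ν'.IsMulRightInvariant] [ν'.IsInvInvariant] (ha : Af C D E E' θ Θ z q a)
    (hb : Af C D E E' θ Θ z q b) : a * b = b * a := by
  haveI : LocallyCompactSpace E.L₁ := X.p.closed₁.locallyCompactSpace
  haveI : LocallyCompactSpace E'.L₁ := X.p'.closed₁.locallyCompactSpace
  obtain ⟨L, _, _, _, j, hj, e⟩ := exists_j C.t (X.alg n)
    (fun a ha => ⟨cm_mul ha.1.cm n.cm, ha.2.2⟩) fun a ha => n.st a ha.1
  have z0 : z ≠ 0 := fun h => (z_ne n).elim fun ξ i => i (by rw [h, zero_apply])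
  obtain ⟨k1, k2, k3⟩ := X.p.ko X.h
  have := thmK hj (mk_ac (ur C.s) ν C.t e (fun l hl a ha => X.af_cjS n hl ha) (fun a ha => ha.1.z2)
    z0 (fun a ha => X.swap.loc ha.1.swap) fun a ha => n.s a ha.1)
    (mk_ac (ur C.t) ν' C.t e (fun l hl a ha => X.af_cjT n hl ha) (fun a ha => ha.1.z2) z0
      (fun a ha => X.loc ha.1) fun a ha => n.t a ha.1)
    (fun h y a => Subtype.ext (cj_st _ _ _)) (Ko D E) k1 (fun k hk a => Subtype.ext (a.2.2.1 k hk))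
    k2 k3 ⟨a, ha⟩ ⟨b, hb⟩
  rw [← sub_eq_zero, ← map_sub] at this
  have h1 := e (⟨a, ha⟩ * ⟨b, hb⟩ - ⟨b, hb⟩ * ⟨a, ha⟩)
  rw [this, enorm_zero, zero_pow two_ne_zero] at h1
  exact sub_eq_zero.1 (n.inj _ (⟨a, ha⟩ * ⟨b, hb⟩ - ⟨b, hb⟩ * ⟨a, ha⟩ : X.alg n).2.1 h1.symm)

end Ctx

end Vale.Agent.P092MG
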