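import Vale.Agent.P092MG.Scal

/-!
P092, E5: partitions of the identity and the sum of the squares of their commutators.
-/

set_option linter.all false

open scoped InnerProductSpace ENNReal NNReal
open Filter Topology ContinuousLinearMap

namespace Vale.Agent.P092MG

open Vale.Agent.P092CP

variable {K : Type} [NormedAddCommGroup K] [InnerProductSpace ℂ K] [CompleteSpace K]
  {ι ι' κ : Type} {p f a : ι → K →L[ℂ] K} {p' : ι' → K →L[ℂ] K} {q g b : κ → K →L[ℂ] K}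

theorem inner_orth (h : ∀ i, Pj (p i)) (ho : ∀ i j, i ≠ j → p i * p j = 0) (ξ : K) :
    ∀ i j, i ≠ j → ⟪p i ξ, p j ξ⟫_ℂ = 0 := fun i j hij => by
  rw [(h i).inner, ← mul_ap, ho i j hij, zero_apply, inner_zero_right]

theorem sum_orth_le (h : ∀ i, Pj (p i)) (ho : ∀ i j, i ≠ j → p i * p j = 0) (ξ : K)
    (s : Finset ι) : ∑ i ∈ s, ‖p i ξ‖ ^ 2 ≤ ‖ξ‖ ^ 2 := by
  classical
  have hs : Pj (∑ i ∈ s, p i) := ⟨by rw [star_sum]; exact Finset.sum_congr rfl fun i _ => (h i).sa,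
    by
      rw [Finset.sum_mul_sum]
      exact Finset.sum_congr rfl fun i hi => by
        rw [Finset.sum_eq_single_of_mem i hi fun j _ hj => ho i j hj.symm, (h i).idem]⟩
  rw [← norm_sum_orth s fun i _ j _ => inner_orth h ho ξ i j, ← ContinuousLinearMap.sum_apply]
  exact pow_le_pow_left₀ (norm_nonneg _) (hs.norm_le ξ) 2

theorem qq_orth_le (h : ∀ i, Pj (p i)) (ho : ∀ i j, i ≠ j → p i * p j = 0) (ξ : K) :
    qq p ξ ≤ ‖ξ‖ₑ ^ 2 := by
  rw [qq, ENNReal.tsum_eq_iSup_sum]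
  refine iSup_le fun s => ?_
  simp only [enorm_sq_eq]
  rw [← ENNReal.ofReal_sum_of_nonneg fun i _ => sq_nonneg _]
  exact ENNReal.ofReal_le_ofReal (sum_orth_le h ho ξ s)

theorem qq_sub_le (hp : ∀ ξ, qq p ξ ≤ ‖ξ‖ₑ ^ 2) (hf : ∀ ξ, qq f ξ ≤ ‖ξ‖ₑ ^ 2) (ξ : K) :
    qq (fun i => p i - f i) ξ ≤ 4 * ‖ξ‖ₑ ^ 2 := by
  calc _ ≤ ∑' i, (2 * ‖p i ξ‖ₑ ^ 2 + 2 * ‖f i ξ‖ₑ ^ 2) := ENNReal.tsum_le_tsum fun i => by
        rw [sub_apply, sub_eq_add_neg, ← enorm_neg (f i ξ)]; exact enorm_add_sq_le _ _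
    _ ≤ 2 * ‖ξ‖ₑ ^ 2 + 2 * ‖ξ‖ₑ ^ 2 := by
        rw [ENNReal.tsum_add, ENNReal.tsum_mul_left, ENNReal.tsum_mul_left]
        gcongr
        exacts [hp ξ, hf ξ]
    _ = _ := by ring

/-- a partition of the identity -/
structure Pt (p : ι → K →L[ℂ] K) : Prop where
  pj : ∀ i, Pj (p i)
  orth : ∀ i j, i ≠ j → p i * p j = 0
  ker : ∀ ξ, (∀ i, p i ξ = 0) → ξ = 0

theorem Pt.hasSum (h : Pt p) (ξ : K) : HasSum (fun i => p i ξ) ξ := by
  have hs := (summable_orth (inner_orth h.pj h.orth ξ) (sum_orth_le h.pj h.orth ξ)).hasSum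
  have : ξ - ∑' i, p i ξ = 0 := h.ker _ fun j => by
    rw [map_sub, sub_eq_zero]
    refine HasSum.unique ?_ ((p j).hasSum hs)
    convert hasSum_single j fun i hi => ?_ using 1
    · exact ((h.pj j).ap ξ).symm
    · rw [← mul_ap, h.orth j i hi.symm, zero_apply]
  rwa [← sub_eq_zero.1 this] at hs

theorem Pt.cj {G : Type} [Group G] [TopologicalSpace G] {π : G →* (K →L[ℂ] K)} (h : Pt p)
    (hπ : UR π) (x : G) : Pt fun i => cj π x (p i) where
  pj i := (h.pj i).cj hπ x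
  orth i j hij := by rw [← cj_mul, h.orth i j hij, cj_zero]
  ker ξ h0 := by
    rw [← norm_eq_zero, ← hπ.nm x⁻¹, norm_eq_zero]
    exact h.ker _ fun i => by rw [← norm_eq_zero, ← hπ.norm_cj, h0 i, norm_zero]

/-- the sum of the squares of the commutators -/
noncomputable def nn (p : ι → K →L[ℂ] K) (q : κ → K →L[ℂ] K) (ξ : K) : ℝ≥0∞ :=
  qq (fun z : ι × κ => p z.1 * q z.2 - q z.2 * p z.1) ξ

theorem nn_eq (ξ : K) : nn p q ξ = ∑' i, ∑' j, ‖(p i * q j - q j * p i) ξ‖ₑ ^ 2 :=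
  ENNReal.tsum_prod' (f := fun z : ι × κ => ‖(p z.1 * q z.2 - q z.2 * p z.1) ξ‖ₑ ^ 2)

theorem nn_symm (ξ : K) : nn p q ξ = nn q p ξ := by
  rw [nn_eq, nn_eq, ENNReal.tsum_comm]
  exact tsum_congr fun j => tsum_congr fun i => by rw [← neg_sub, neg_apply, enorm_neg]

theorem nn_cj {G : Type} [Group G] [TopologicalSpace G] {π : G →* (K →L[ℂ] K)} (hπ : UR π)
    (x : G) (ξ : K) :
    nn p q (π x⁻¹ ξ) = nn (fun i => cj π x (p i)) (fun j => cj π x (q j)) ξ :=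
  tsum_congr fun z => by
    beta_reduce
    rw [← cj_mul, ← cj_mul, ← cj_sub, cj_ap, hπ.enorm]

theorem nn_le (ha : ∀ η, qq a η ≤ 4 * ‖η‖ₑ ^ 2) (hb : ∀ η, qq b η ≤ 4 * ‖η‖ₑ ^ 2)
    (e : ∀ i j, p i * q j - q j * p i = a i * b j - b j * a i) (ξ : K) :
    nn p q ξ ≤ 8 * (qq a ξ + qq b ξ) := by
  rw [nn_eq]
  calc _ ≤ ∑' i, ∑' j, (2 * ‖a i (b j ξ)‖ₑ ^ 2 + 2 * ‖b j (a i ξ)‖ₑ ^ 2) :=
        ENNReal.tsum_le_tsum fun i => ENNReal.tsum_le_tsum fun j => by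
          rw [e, sub_apply, sub_eq_add_neg, ← enorm_neg (b j (a i ξ))]; exact enorm_add_sq_le _ _
    _ = 2 * ∑' j, qq a (b j ξ) + 2 * ∑' i, qq b (a i ξ) := by
        simp only [ENNReal.tsum_add, ENNReal.tsum_mul_left, qq]
        rw [ENNReal.tsum_comm]
    _ ≤ 2 * ∑' j, 4 * ‖b j ξ‖ₑ ^ 2 + 2 * ∑' i, 4 * ‖a i ξ‖ₑ ^ 2 := by
        gcongr with j i
        exacts [ha _, hb _]
    _ = _ := by simp only [ENNReal.tsum_mul_left, qq]; ring

/-- two atoms: their product is a cut by a projection of the class `Φ` -/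
def Ra (Φ : (K →L[ℂ] K) → Prop) (x y : K →L[ℂ] K) : Prop :=
  x * y = y * x ∧ ∃ e, Pj e ∧ Φ e ∧ x * y = e * x ∧ x * y = e * y

theorem Ra.symm {Φ : (K →L[ℂ] K) → Prop} {x y : K →L[ℂ] K} (h : Ra Φ x y) : Ra Φ y x := by
  obtain ⟨c, e, h1, h2, h3, h4⟩ := h
  exact ⟨c.symm, e, h1, h2, c ▸ h4, c ▸ h3⟩

theorem split_comm (h : Pt p') {x T : K →L[ℂ] K} (hx : Pj x)
    (r : ∀ k, Ra (fun e => e * T = T * e) x (p' k)) (ξ : K) :
    ‖(x * T - T * x) ξ‖ₑ ^ 2 = ∑' k, ‖(x * p' k * T - T * (x * p' k)) ξ‖ₑ ^ 2 := by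
  choose c e h1 h2 h3 _ using r
  have e1 : ∀ k, x * p' k * T - T * (x * p' k) = e k * (x * T - T * x) := fun k => by
    rw [h3, mul_sub, mul_assoc, ← mul_assoc T, ← h2, mul_assoc]
  refine (tsum_orth (fun k l hkl => ?_) ?_).symm
  · have e2 : e k * e l * x = 0 := by
      rw [mul_assoc, ← h3, ← mul_assoc, ← h3, mul_assoc, h.orth k l hkl, mul_zero]
    rw [e1, e1, mul_ap, mul_ap, (h1 k).inner, ← mul_ap, ← mul_ap, mul_sub, ← mul_assoc, e2,
      ← mul_assoc, mul_assoc (e k), h2, ← mul_assoc, h2, mul_assoc T, mul_assoc T, e2]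
    simp
  · exact (x.hasSum (h.hasSum (T ξ))).sub (T.hasSum (x.hasSum (h.hasSum ξ)))

theorem nn_ind1 (h : Pt p) (h' : Pt p') (r : ∀ i k j, Ra (fun e => e * q j = q j * e) (p i) (p' k))
    (ξ : K) : nn p q ξ = nn p' q ξ := by
  rw [nn_eq, nn_eq]
  simp only [fun i j => split_comm h' (h.pj i) (fun k => r i k j) ξ,
    fun k j => split_comm h (h'.pj k) (fun i => (r i k j).symm) ξ]
  rw [ENNReal.tsum_comm]
  conv_rhs => rw [ENNReal.tsum_comm]
  refine tsum_congr fun j => ENNReal.tsum_comm.trans (tsum_congr fun k => tsum_congr fun i => ?_)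
  obtain ⟨e, -⟩ := r i k j
  rw [e]

theorem comm_of_part (h : Pt p') {x T : K →L[ℂ] K} (hx : Pj x)
    (r : ∀ k, Ra (fun e => e * T = T * e) x (p' k)) (c : ∀ k, p' k * T = T * p' k) :
    x * T = T * x := sub_eq_zero.1 (ContinuousLinearMap.ext fun ξ => by
  have := split_comm h hx r ξ
  rw [tsum_congr (g := fun _ => 0) fun k => by
    obtain ⟨-, e, -, h2, -, h4⟩ := r k
    rw [h4, mul_assoc, c, ← mul_assoc, h2, mul_assoc, sub_self]; simp, tsum_zero] at this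
  simpa using this)

theorem tendsto_qq {ι : ℕ → Type} {a : ∀ k, ι k → K →L[ℂ] K}
    (ha : ∀ k η, qq (a k) η ≤ 4 * ‖η‖ₑ ^ 2)
    (h : ∀ ξ, (∀ e, Pj e → (∀ᶠ k in atTop, ∀ i, a k i * e = 0) → e ξ = 0) → ξ = 0) (ξ : K) :
    Tendsto (fun k => qq (a k) ξ) atTop (𝓝 0) := by
  let V : Submodule ℂ K :=
    { carrier := {η | ∀ᶠ k in atTop, ∀ i, a k i η = 0}
      zero_mem' := Eventually.of_forall fun k i => map_zero _
      add_mem' := fun {x y} b c => (b.and c).mono fun k d i => by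
        rw [map_add, d.1 i, d.2 i, add_zero]
      smul_mem' := fun c x b => b.mono fun k d i => by rw [map_smul, d i, smul_zero] }
  have hV : Dense (V : Set K) := by
    rw [Submodule.dense_iff_topologicalClosure_eq_top, Submodule.topologicalClosure_eq_top_iff,
      eq_bot_iff]
    refine fun η hη => h η fun e he b => ?_
    have := hη (e η) (b.mono fun k d i => ap_eq (d i) η)
    rw [← he.ap, he.inner, ← he.ap η, ← he.inner, he.ap] at this
    rwa [he.ap, inner_self_eq_zero] at this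
  refine ENNReal.tendsto_nhds_zero.2 fun ε hε => ?_
  have hc : Continuous fun η => 4 * ‖ξ - η‖ₑ ^ 2 := (ENNReal.continuous_const_mul (by simp)).comp
    ((ENNReal.continuous_pow 2).comp (continuous_enorm.comp (by fun_prop)))
  obtain ⟨η, h1, h2⟩ := hV.inter_open_nonempty _ (isOpen_lt hc continuous_const (g := fun _ => ε))
    ⟨ξ, by simpa using hε⟩
  refine (h2 : ∀ᶠ k in atTop, _).mono fun k d => le_trans ?_ ((ha k _).trans (le_of_lt h1))
  exact le_of_eq (tsum_congr fun i => by rw [map_sub, d i, sub_zero])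

end Vale.Agent.P092MG
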