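import Vale.Agent.P092MG.Sep

/-!
P092, E5: labelled rectangles and sheets over a panel.
-/

set_option linter.all false

open Filter Topology

namespace Vale.Agent.P092MG

variable {G : Type} [Group G] [TopologicalSpace G] [IsTopologicalGroup G] {D : MnD G} {E : PnD G}
  {K : Subgroup G} {t ν : G} {F B F' B' : Set G}

/-- the double coset `H ν H` -/
def Lab (D : MnD G) (ν : G) : Set G := {g | ∃ h ∈ D.H, ∃ h' ∈ D.H, g = h * ν * h'}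

/-- a rectangle with the label `ν` -/
structure Lb (D : MnD G) (E : PnD G) (ν : G) (F B : Set G) : Prop where
  rF : RI D.H F
  rB : RI D.H B
  lab : ∀ x ∈ F, ∀ y ∈ B, x⁻¹ * y ∈ E.Q → x⁻¹ * y ∈ Lab D ν

/-- a scale in the root group -/
structure Sc (D : MnD G) (E : PnD G) (K : Subgroup G) : Prop where
  le : ∀ k ∈ K, k ∈ D.J ∧ k ∈ E.L
  op : ∃ T, IsOpen T ∧ ∀ r ∈ D.J, r ∈ E.L → (r ∈ K ↔ r ∈ T)
  cp : IsCompact (K : Set G)
  nm : ∀ m ∈ D.M, ∀ k ∈ K, m * k * m⁻¹ ∈ K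

/-- the conjugate `z K z⁻¹` -/
def cg (z : G) (K : Subgroup G) : Subgroup G where
  carrier := {r | z⁻¹ * r * z ∈ K}
  one_mem' := by simpa using K.one_mem
  mul_mem' {a b} ha hb := by convert K.mul_mem ha hb using 1; simp [mul_assoc]
  inv_mem' {a} ha := by convert K.inv_mem ha using 1; simp [mul_assoc]

/-- the class `K ν H` -/
def cls (D : MnD G) (K : Subgroup G) (ν : G) : Set G := {y | ∃ k ∈ K, ∃ h ∈ D.H, y = k * ν * h}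

/-- a sheet of scale `K` -/
structure Sh (D : MnD G) (E : PnD G) (K : Subgroup G) (ν : G) (F B : Set G) : Prop where
  rF : RI D.H F
  rB : RI D.H B
  cl : ∀ x ∈ F, ∃ h ∈ D.H, ∀ y, y ∈ B ∧ x⁻¹ * y ∈ E.Q ↔ (x * h)⁻¹ * y ∈ cls D K ν

/-- the set `I K ν H` -/
def Bo (D : MnD G) (E : PnD G) (K : Subgroup G) (ν : G) : Set G :=
  {y | ∃ u ∈ E.I, u⁻¹ * y ∈ cls D K ν}

/-- the stabiliser of `I K ν H` in the Levi group -/
def St (D : MnD G) (E : PnD G) (K : Subgroup G) (ν : G) : Subgroup G where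
  carrier := {l | l ∈ E.L ∧ ∀ y, l * y ∈ Bo D E K ν ↔ y ∈ Bo D E K ν}
  one_mem' := ⟨E.L.one_mem, fun y => by rw [one_mul]⟩
  mul_mem' a b := ⟨E.L.mul_mem a.1 b.1, fun y => by rw [mul_assoc, a.2, b.2]⟩
  inv_mem' a := ⟨E.L.inv_mem a.1, fun y => by rw [← a.2, mul_inv_cancel_left]⟩

/-- the base of the basic sheet -/
def Fo (D : MnD G) (E : PnD G) (K : Subgroup G) (ν : G) : Set G :=
  sat D.H (cK E.I (St D E K ν) E.J)

/-- the pair `(x, y)` has coordinate in `S` -/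
def Co (D : MnD G) (ν : G) (S : Set G) (x y : G) : Prop :=
  ∃ w ∈ D.I, ∃ z ∈ D.Z, ∃ h ∈ D.H, ∃ r ∈ S, ∃ h' ∈ D.H, x = w * z * h ∧ y = w * z * r * ν * h'

theorem Lb.lt (a : Lb D E ν F B) (g : G) : Lb D E ν (lt g F) (lt g B) :=
  ⟨a.rF.lt g, a.rB.lt g, fun x hx y hy hq => by
    simpa [mul_assoc] using a.lab _ hx _ hy (by simpa [mul_assoc] using hq)⟩

theorem Sh.lt (a : Sh D E K ν F B) (g : G) : Sh D E K ν (lt g F) (lt g B) :=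
  ⟨a.rF.lt g, a.rB.lt g, fun x hx => (a.cl _ hx).imp fun h b => ⟨b.1, fun y => by
    simpa [mul_assoc] using b.2 (g⁻¹ * y)⟩⟩

theorem Sh.lb (h : Mn D) (s : Sc D E K) (a : Sh D E K ν F B) : Lb D E ν F B :=
  ⟨a.rF, a.rB, fun x hx y hy hq => by
    obtain ⟨k, hk, b⟩ := a.cl x hx
    obtain ⟨r, c, k', d, e⟩ := (b y).1 ⟨hy, hq⟩
    refine ⟨_, D.H.mul_mem hk (h.JH (s.le r c).1), k', d, ?_⟩
    rw [mul_assoc k, mul_assoc k, ← e]; group⟩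

theorem Sc.cg (h : Mn D) (p : Pn D E) (s : Sc D E K) {z : G} (hz : z ∈ D.Z) : Sc D E (cg z K) where
  le k hk := by
    obtain ⟨a, b⟩ := s.le _ hk
    exact ⟨by simpa [mul_assoc] using h.cell.nJ z hz _ a, by
      simpa [mul_assoc] using E.L.mul_mem (E.L.mul_mem (p.ZL hz) b) (E.L.inv_mem (p.ZL hz))⟩
  op := by
    obtain ⟨T, a, b⟩ := s.op
    exact ⟨(fun r => z⁻¹ * r * z) ⁻¹' T, a.preimage (by fun_prop), fun r c d => b _
      (h.cell.nJ' hz c) (E.L.mul_mem (E.L.mul_mem (E.L.inv_mem (p.ZL hz)) d) (p.ZL hz))⟩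
  cp := by
    convert s.cp.image (f := fun k => z * k * z⁻¹) (by fun_prop) using 1
    ext r
    exact ⟨fun a => ⟨_, a, by group⟩, fun ⟨k, a, b⟩ => by
      rw [← b]; change _ ∈ K; simpa [mul_assoc] using a⟩
  nm m hm k hk := by
    change _ ∈ K
    convert s.nm _ (h.conj' le_rfl h.MZ hz hm) _ hk using 1; group

theorem Pn.exists_sc [T2Space G] (h : Mn D) (p : Pn D E) {O : Set G} (hO : O ∈ 𝓝 (1 : G)) :
    ∃ K, Sc D E K ∧ (K : Set G) ⊆ O := by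
  obtain ⟨K, a, b, c⟩ := h.td O hO
  obtain ⟨N, d, e, f⟩ := exists_core h.cpM a
  refine ⟨N ⊓ (D.J ⊓ E.L), ⟨fun k hk => hk.2, ⟨N, d, fun r i j => ⟨fun k => k.1, fun k =>
    ⟨k, i, j⟩⟩⟩, ?_, fun m hm k hk => ⟨f m hm k hk.1, h.cell.nJ m (h.MZ hm) k hk.2.1, ?_⟩⟩,
    fun k hk => c (e hk.1)⟩
  · exact b.of_isClosed_subset ((N.isClosed_of_isOpen d).inter (h.cell.clJ.inter p.cell.clL))
      fun k hk => e hk.1
  · exact E.L.mul_mem (E.L.mul_mem (p.ZL (h.MZ hm)) hk.2.2) (E.L.inv_mem (p.ZL (h.MZ hm)))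

namespace Pn

variable (h : Mn D) (p : Pn D E) (ht : t ∈ D.Z)
include h p ht

theorem νL : E.n * t ∈ E.L := E.L.mul_mem p.nL (p.ZL ht)

theorem νI {r : G} (hr : r ∈ D.J) (hl : r ∈ E.L) : (E.n * t)⁻¹ * r * (E.n * t) ∈ D.I := by
  convert h.cell.nI' ht (p.nJ' hr hl) using 1; group

theorem νM {m : G} (hm : m ∈ D.M) : (E.n * t)⁻¹ * m * (E.n * t) ∈ D.M := by
  convert h.conj' le_rfl h.MZ ht (p.nM' hm) using 1; group

theorem act {k : G} (hk : k ∈ D.H) : ∃ r ∈ D.J, r ∈ E.L ∧ ∃ m ∈ D.M, ∀ s ∈ E.L,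
    ∃ k' ∈ D.H, k * s * (E.n * t) = r * (m * s * m⁻¹) * (E.n * t) * k' := by
  obtain ⟨m, a, r, b, c, w, d, rfl⟩ := p.dH h hk
  have hm := p.ZL (h.MZ a)
  refine ⟨_, h.cell.nJ m (h.MZ a) r b, E.L.mul_mem (E.L.mul_mem hm c) (E.L.inv_mem hm), m, a,
    fun s hs => ⟨_, D.H.mul_mem (h.MH (p.νM h ht a)) (p.JH h (p.cell.nJ'
      (E.L.mul_mem hs (p.νL h ht)) d)), by group⟩⟩

theorem act1 {k : G} (hk : k ∈ D.H) :
    ∃ r ∈ D.J, r ∈ E.L ∧ ∃ k' ∈ D.H, k * (E.n * t) = r * (E.n * t) * k' := by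
  obtain ⟨r, a, b, m, -, c⟩ := p.act h ht hk
  exact ⟨r, a, b, by simpa using c 1 E.L.one_mem⟩

theorem cls_Q (s : Sc D E K) {y : G} (hy : y ∈ cls D K (E.n * t)) : y ∈ E.Q := by
  obtain ⟨k, a, k', b, rfl⟩ := hy
  exact E.Q.mul_mem (p.cell.LQ (E.L.mul_mem (s.le k a).2 (p.νL h ht))) (p.HQ h b)

theorem lab_iff {g : G} : g ∈ Lab D (E.n * t) ↔ g ∈ E.Q ∧ (E.n * t)⁻¹ * g ∈ D.cl D.M := by
  constructor
  · rintro ⟨k, a, k', b, rfl⟩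
    obtain ⟨r, c, d, k'', e, f⟩ := p.act1 h ht a
    refine ⟨E.Q.mul_mem (E.Q.mul_mem (p.HQ h a) (p.cell.LQ (p.νL h ht))) (p.HQ h b),
      h.mem_clM.2 ⟨_, p.νI h ht c d, _, D.H.mul_mem e b, by rw [f]; group⟩⟩
  · rintro ⟨a, b⟩
    obtain ⟨u, c, k, d, e⟩ := h.mem_clM.1 b
    have hu : u ∈ E.L := p.IQL c (by
      rw [eq_mul_inv_of_mul_eq e.symm]
      exact E.Q.mul_mem (E.Q.mul_mem (E.Q.inv_mem (p.cell.LQ (p.νL h ht))) a)
        (E.Q.inv_mem (p.HQ h d)))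
    refine ⟨_, h.JH (p.nI (h.cell.nI t ht u c)
      (E.L.mul_mem (E.L.mul_mem (p.ZL ht) hu) (E.L.inv_mem (p.ZL ht)))), k, d, ?_⟩
    rw [← mul_inv_cancel_left (E.n * t) g, e]; group

theorem exists_lb {x y : G} (hxy : x⁻¹ * y ∈ Lab D (E.n * t)) :
    ∃ F B, Lb D E (E.n * t) F B ∧ x ∈ F ∧ y ∈ B := by
  have hc : Continuous fun z : G × G => (E.n * t)⁻¹ * (z.1⁻¹ * z.2) := by fun_prop
  obtain ⟨U, V, a, b, c, d, e⟩ := isOpen_prod_iff.1 (h.ri_M.1.preimage hc) x y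
    ((p.lab_iff h ht).1 hxy).2
  refine ⟨sat D.H U, sat D.H V, ⟨ri_sat a, ri_sat b, ?_⟩, subset_sat U c, subset_sat V d⟩
  rintro x' ⟨k, i, j⟩ y' ⟨k', i', j'⟩ hq
  obtain ⟨s, f, s', f', g⟩ := (p.lab_iff h ht).2 ⟨by
    convert E.Q.mul_mem (E.Q.mul_mem (E.Q.inv_mem (p.HQ h i)) hq) (p.HQ h i') using 1
    simp [mul_assoc], e (Set.mk_mem_prod j j')⟩
  refine ⟨_, D.H.mul_mem i f, _, D.H.mul_mem f' (D.H.inv_mem i'), ?_⟩
  calc _ = k * ((x' * k)⁻¹ * (y' * k')) * k'⁻¹ := by group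
    _ = _ := by rw [g]; group

theorem lab_uniq {t' g : G} (ht' : t' ∈ D.Z) (a : g ∈ Lab D (E.n * t))
    (b : g ∈ Lab D (E.n * t')) : t⁻¹ * t' ∈ D.M :=
  h.lt_uniq h.MZ ht ht' (x := E.n⁻¹ * g) (by simpa [mul_assoc] using ((p.lab_iff h ht).1 a).2)
    (by simpa [mul_assoc] using ((p.lab_iff h ht').1 b).2)

theorem cls_uniq {r r' k k' : G} (a : r ∈ D.J) (b : r ∈ E.L) (a' : r' ∈ D.J) (b' : r' ∈ E.L)
    (hk : k ∈ D.H) (hk' : k' ∈ D.H) (e : r * (E.n * t) * k = r' * (E.n * t) * k') : r = r' := by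
  have := h.IP (p.νI h ht (D.J.mul_mem (D.J.inv_mem a') a) (E.L.mul_mem (E.L.inv_mem b') b)) (by
    convert h.HP (D.H.mul_mem hk' (D.H.inv_mem hk)) using 1
    calc _ = (E.n * t)⁻¹ * r'⁻¹ * (r * (E.n * t) * k) * k⁻¹ := by group
      _ = _ := by rw [e]; group)
  rw [mul_assoc, inv_mul_eq_one, eq_comm, mul_eq_right, inv_mul_eq_one] at this
  exact this.symm

variable (s : Sc D E K)
include s

theorem cls_fwd {k y : G} (hk : k ∈ D.H) (a : y ∈ cls D K (E.n * t))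
    (b : k * y ∈ cls D K (E.n * t)) : ∀ y' ∈ cls D K (E.n * t), k * y' ∈ cls D K (E.n * t) := by
  obtain ⟨r, c, d, m, e, f⟩ := p.act h ht hk
  obtain ⟨k₁, a₁, h₁, b₁, rfl⟩ := a
  obtain ⟨k₂, a₂, h₂, b₂, e₂⟩ := b
  obtain ⟨k', g, i⟩ := f k₁ (s.le _ a₁).2
  have j := s.nm m e k₁ a₁
  have := p.cls_uniq h ht (D.J.mul_mem c (s.le _ j).1) (E.L.mul_mem d (s.le _ j).2) (s.le _ a₂).1
    (s.le _ a₂).2 (D.H.mul_mem g b₁) b₂ (by rw [← e₂, ← mul_assoc, ← i]; group)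
  have hr : r ∈ K := (K.mul_mem_cancel_right j).1 (this ▸ a₂)
  rintro _ ⟨k₃, a₃, h₃, b₃, rfl⟩
  obtain ⟨k'', g', i'⟩ := f k₃ (s.le _ a₃).2
  exact ⟨_, K.mul_mem hr (s.nm m e k₃ a₃), _, D.H.mul_mem g' b₃, by
    rw [← mul_assoc _ k'', ← i']; group⟩

theorem sh_sub (a : Sh D E K (E.n * t) F B) (b : Sh D E K (E.n * t) F' B') {x y y' : G}
    (hx : x ∈ F) (hx' : x ∈ F') (hy : y ∈ B) (hy' : y ∈ B') (hq : x⁻¹ * y ∈ E.Q) (h1 : y' ∈ B)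
    (h2 : x⁻¹ * y' ∈ E.Q) : y' ∈ B' := by
  obtain ⟨k, c, d⟩ := a.cl x hx
  obtain ⟨k', c', d'⟩ := b.cl x hx'
  refine ((d' y').2 ?_).1
  convert p.cls_fwd h ht s (D.H.mul_mem (D.H.inv_mem c') c) ((d y).1 ⟨hy, hq⟩) (by
    convert (d' y).1 ⟨hy', hq⟩ using 1; group) _ ((d y').1 ⟨h1, h2⟩) using 1
  group

theorem sh_rt (a : Sh D E K (E.n * t) F B) {z z' : G} (hz : z ∈ D.Z) (hz' : z' ∈ D.Z)
    (e : (E.n * t)⁻¹ * (z * (E.n * t) * z'⁻¹) ∈ D.M) :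
    Sh D E (cg z K) (E.n * t) (rt z F) (rt z' B) :=
  ⟨a.rF.rt (h.nH hz), a.rB.rt (h.nH hz'), fun x hx => by
    obtain ⟨k, c, d⟩ := a.cl _ hx
    refine ⟨_, h.nH (D.Z.inv_mem hz) k c, fun y => ?_⟩
    have e1 : x⁻¹ * y ∈ E.Q ↔ (x * z)⁻¹ * (y * z') ∈ E.Q := by
      rw [← E.Q.mul_mem_cancel_left (E.Q.inv_mem (p.cell.LQ (p.ZL hz))),
        ← E.Q.mul_mem_cancel_right (p.cell.LQ (p.ZL hz'))]
      congr! 1; group
    rw [mem_rt, e1, d]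
    constructor
    · rintro ⟨r, f, k', g, i⟩
      refine ⟨z * r * z⁻¹, by change _ ∈ K; simpa [mul_assoc] using f, _,
        D.H.mul_mem (h.MH e) (h.nH (D.Z.inv_mem hz') k' g), ?_⟩
      calc _ = z * ((x * z * k)⁻¹ * (y * z')) * z'⁻¹ := by group
        _ = _ := by rw [i]; group
    · rintro ⟨r, f, k', g, i⟩
      refine ⟨_, f, _, h.nH hz' _ (D.H.mul_mem (D.H.inv_mem (h.MH e)) g), ?_⟩
      calc _ = z⁻¹ * ((x * (z⁻¹⁻¹ * k * z⁻¹))⁻¹ * y) * z' := by group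
        _ = _ := by rw [i]; group⟩

omit h ht s in
theorem Bo_left {l u y : G} (hl : l ∈ E.L) (hu : u ∈ E.I) :
    l * (u * y) ∈ Bo D E K ν ↔ l * y ∈ Bo D E K ν := by
  have := p.cell.nI l hl u hu
  exact ⟨fun ⟨v, a, b⟩ => ⟨_, E.I.mul_mem (E.I.inv_mem this) a, by convert b using 1; group⟩,
    fun ⟨v, a, b⟩ => ⟨_, E.I.mul_mem this a, by convert b using 1; group⟩⟩

theorem Bo_Q {y : G} (hy : y ∈ Bo D E K (E.n * t)) (hq : y ∈ E.Q) : y ∈ cls D K (E.n * t) := by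
  obtain ⟨u, a, b⟩ := hy
  simpa [p.IQ a (by simpa using E.Q.mul_mem hq (E.Q.inv_mem (p.cls_Q h ht s b)))] using b

theorem ri_Bo : RI D.H (Bo D E K (E.n * t)) := by
  obtain ⟨T, a, b⟩ := s.op
  have e : Bo D E K (E.n * t) = lt E.n (bx D ((fun w => E.n * w * E.n⁻¹) ⁻¹'
      cs E.I E.L E.J Set.univ T) t) := by
    ext y
    constructor
    · rintro ⟨u, c, k, d, k', f, g⟩
      obtain ⟨i, j⟩ := s.le k d
      refine ⟨E.n⁻¹ * u * E.n * (E.n⁻¹ * k * E.n), D.I.mul_mem (p.II (p.cell.nI' p.nL c))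
        (p.nJ' i j), ⟨u, c, trivial, k, j, (b k i j).1 d, 1, E.J.one_mem, by group⟩, k', f, ?_⟩
      rw [← mul_inv_cancel_left u y, g]; group
    · rintro ⟨w, c, d, k', f, g⟩
      obtain ⟨u, i, r, j, j', rfl⟩ := p.dI c
      have := ((p.cell.mem_cs (S := Set.univ) (T := T) (p.cell.nI _ p.nL u i) (p.nc j')
        E.J.one_mem).1 (by rw [Set.mem_preimage] at d; convert d using 1; group)).2
      refine ⟨_, p.cell.nI _ p.nL u i, _, (b _ (p.nI j j') (p.nc j')).2 this, k', f, ?_⟩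
      rw [← mul_inv_cancel_left E.n y, g]; group
  rw [e]
  exact (h.ri_bx ((p.cell.opn _ T isOpen_univ a).preimage (by fun_prop)) ht).lt _

theorem M_St : D.M ≤ St D E K (E.n * t) := by
  have key : ∀ m ∈ D.M, ∀ y ∈ Bo D E K (E.n * t), m * y ∈ Bo D E K (E.n * t) := by
    rintro m hm y ⟨u, a, k, b, k', c, e⟩
    refine ⟨_, p.cell.nI m (p.ZL (h.MZ hm)) u a, _, s.nm m hm k b, _,
      D.H.mul_mem (h.MH (p.νM h ht hm)) c, ?_⟩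
    calc _ = m * (u⁻¹ * y) := by group
      _ = _ := by rw [e]; group
  exact fun m hm => ⟨p.ZL (h.MZ hm), fun y =>
    ⟨fun a => by simpa using key _ (D.M.inv_mem hm) _ a, key m hm y⟩⟩

theorem opIn_St : OpIn (St D E K (E.n * t)) E.L := by
  have hB := p.ri_Bo h ht s
  obtain ⟨N, a, -, b⟩ := h.td _ (s.cp.eventually_forall_of_forall_eventually (x₀ := (1 : G))
    (P := fun g k => g * (k * (E.n * t)) ∈ Bo D E K (E.n * t)) fun k hk => by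
      have : Continuous fun z : G × G => z.1 * (z.2 * (E.n * t)) := by fun_prop
      exact this.continuousAt.preimage_mem_nhds (hB.1.mem_nhds
        ⟨1, E.I.one_mem, k, hk, 1, D.H.one_mem, by simp⟩))
  have key : ∀ l ∈ N ⊓ E.L, ∀ y ∈ Bo D E K (E.n * t), l * y ∈ Bo D E K (E.n * t) := by
    rintro l hl y ⟨u, c, k, d, k', e, f⟩
    rw [← mul_inv_cancel_left u y, p.Bo_left hl.2 c, f, ← mul_assoc]
    exact hB.2 _ (b hl.1 k d) k' e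
  exact (opIn_inf a).up (fun l hl => ⟨hl.2, fun y =>
    ⟨fun c => by simpa using key _ ((N ⊓ E.L).inv_mem hl) _ c, key l hl y⟩⟩) fun l hl => hl.1

theorem sh_o : Sh D E K (E.n * t) (Fo D E K (E.n * t)) (Bo D E K (E.n * t)) :=
  ⟨ri_sat (p.cell.open_cK (p.opIn_St h ht s)), p.ri_Bo h ht s,
    fun x ⟨k, a, u, b, l, c, v, d, e⟩ => ⟨k * v⁻¹, D.H.mul_mem a (D.H.inv_mem (p.JH h d)),
      fun y => by
        have hk := p.HQ h (D.H.mul_mem a (D.H.inv_mem (p.JH h d)))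
        have e1 : x * (k * v⁻¹) = u * l := by rw [← mul_assoc, e]; group
        have e2 : (u * l)⁻¹ * y ∈ Bo D E K (E.n * t) ↔ y ∈ Bo D E K (E.n * t) := by
          rw [mul_inv_rev, mul_assoc, p.Bo_left (E.L.inv_mem c.1) (E.I.inv_mem b),
            ((St D E K _).inv_mem c).2]
        have e3 : x⁻¹ * y ∈ E.Q ↔ (u * l)⁻¹ * y ∈ E.Q := by
          rw [← e1, mul_inv_rev x, mul_assoc, E.Q.mul_mem_cancel_left (E.Q.inv_mem hk)]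
        rw [e1, e3, ← e2]
        exact ⟨fun f => p.Bo_Q h ht s f.1 f.2,
          fun f => ⟨⟨1, E.I.one_mem, by simpa using f⟩, p.cls_Q h ht s f⟩⟩⟩⟩

omit h ht s in
theorem mem_o {ρ u l : G} (hρ : ρ ∈ E.L) (hu : u ∈ E.I) (hl : ρ⁻¹ * l ∈ St D E K ν) :
    (∀ k ∈ D.H, u * l * k ∈ lt ρ (Fo D E K ν)) ∧
      ∀ y ∈ cls D K ν, u * l * y ∈ lt ρ (Bo D E K ν) :=
  ⟨fun k hk => ⟨k⁻¹, D.H.inv_mem hk, _, p.cell.nI' hρ hu, _, hl, 1, E.J.one_mem, by group⟩,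
    fun y hy => by
      rw [mem_lt, mul_assoc, p.Bo_left (E.L.inv_mem hρ) hu, ← mul_assoc, hl.2]
      exact ⟨1, E.I.one_mem, by simpa using hy⟩⟩

theorem o_uniq {ρ ρ' x y : G} (hρ : ρ ∈ E.L) (hρ' : ρ' ∈ E.L)
    (hx : x ∈ lt ρ (Fo D E K (E.n * t))) (hx' : x ∈ lt ρ' (Fo D E K (E.n * t)))
    (hy : y ∈ lt ρ (Bo D E K (E.n * t))) (hy' : y ∈ lt ρ' (Bo D E K (E.n * t)))
    (hq : x⁻¹ * y ∈ E.Q) : ρ⁻¹ * ρ' ∈ St D E K (E.n * t) := by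
  have key : ∀ {ρ ρ' : G}, ρ ∈ E.L → ρ' ∈ E.L → x ∈ lt ρ (Fo D E K (E.n * t)) →
      x ∈ lt ρ' (Fo D E K (E.n * t)) → y ∈ lt ρ (Bo D E K (E.n * t)) →
      y ∈ lt ρ' (Bo D E K (E.n * t)) → ∀ w ∈ lt ρ (Bo D E K (E.n * t)),
      w ∈ lt ρ' (Bo D E K (E.n * t)) := by
    intro ρ ρ' hρ hρ' hx hx' hy hy' w hw
    obtain ⟨u, a, b⟩ := hy
    obtain ⟨u', a', b'⟩ := hw
    have hv := p.cell.nI ρ hρ _ (E.I.mul_mem a (E.I.inv_mem a'))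
    rw [mem_lt, ← p.Bo_left (E.L.inv_mem hρ') hv]
    refine p.sh_sub h ht s ((p.sh_o h ht s).lt ρ) ((p.sh_o h ht s).lt ρ') hx hx' ⟨u, a, b⟩ hy' hq
      ⟨u, a, by convert b' using 1; group⟩ ?_
    convert E.Q.mul_mem hq (E.Q.mul_mem (E.Q.inv_mem (p.cls_Q h ht s b)) (p.cls_Q h ht s b'))
      using 1
    group
  refine ⟨E.L.mul_mem (E.L.inv_mem hρ) hρ', fun w => ⟨fun a => ?_, fun a => ?_⟩⟩
  · simpa using key hρ hρ' hx hx' hy hy' (ρ' * w) (by simpa [mul_assoc] using a)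
  · simpa [mul_assoc] using key hρ' hρ hx' hx hy' hy (ρ' * w) (by simpa using a)

/-- **The canonical partition into sheets.** -/
theorem exists_can [SecondCountableTopology G] : ∃ (ι : Type) (F B A : ι → Set G),
    (∀ i, Sh D E K (E.n * t) (F i) (B i)) ∧
    (∀ i j, ∀ x ∈ F i ∩ F j, ∀ y ∈ B i ∩ B j, x⁻¹ * y ∈ E.Q → i = j) ∧
    (∀ x ∈ D.Ω, ∀ y, x⁻¹ * y ∈ Lab D (E.n * t) → ∃ i, x ∈ F i ∧ y ∈ B i) ∧
    (∀ i, RI D.H (A i)) ∧ (∀ i j, i ≠ j → ∀ x ∈ A i, x ∉ A j) ∧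
    ∀ x y, Co D (E.n * t) K x y → ∃ i, x ∈ F i ∧ y ∈ B i ∧ x ∈ A i := by
  have hS := p.opIn_St h ht s
  obtain ⟨ι, -, ρ, hρ⟩ := exists_rp hS
  let A : ι → Set G := fun i =>
    ⋃ z ∈ D.Z, bx D (rt z (lt (ρ i) (cK E.I (St D E K (E.n * t)) E.J))) z
  have key : ∀ i, ∀ u ∈ E.I, ∀ r ∈ E.L, ∀ z ∈ D.Z, u * r ∈ rt z (lt (ρ i)
      (cK E.I (St D E K (E.n * t)) E.J)) ↔ (ρ i)⁻¹ * (r * z) ∈ St D E K (E.n * t) :=
    fun i u a r b z c => by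
      rw [← p.cell.lt_cK hS.1 a (E.L.mul_mem b (p.ZL c)) E.J.one_mem (hρ.1 i), mem_rt, mem_lt]
      congr! 1; group
  refine ⟨ι, fun i => lt (ρ i) (Fo D E K _), fun i => lt (ρ i) (Bo D E K _), A,
    fun i => (p.sh_o h ht s).lt _, fun i j x hx y hy hq => (hρ.2 _ (hρ.1 j)).unique
      (p.o_uniq h ht s (hρ.1 i) (hρ.1 j) hx.1 hx.2 hy.1 hy.2 hq) (by simp),
    fun x hx y ⟨k, a, k', b, e⟩ => ?_, fun i => ri_iUnion fun z => ri_iUnion fun hz =>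
      h.ri_bx (((p.cell.open_cK hS).preimage (continuous_const_mul _)).preimage
        (continuous_mul_const _)) hz, fun i j hij x hx hx' => hij ?_,
    fun x y ⟨w, a, z, b, k, c, r, d, k', e, f, g⟩ => ?_⟩
  · obtain ⟨u, c, l, d, v, f, rfl⟩ := p.Ω_sub hx
    obtain ⟨r, g, g', k'', i, j⟩ := p.act1 h ht (D.H.mul_mem (p.JH h f) a)
    obtain ⟨o, ho, -⟩ := hρ.2 _ (E.L.mul_mem d g')
    obtain ⟨m1, m2⟩ := p.mem_o (hρ.1 o) c ho
    refine ⟨o, ?_, ?_⟩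
    · convert m1 _ (D.H.mul_mem (D.H.inv_mem (h.JH g)) (p.JH h f)) using 1; group
    · convert m2 _ ⟨1, K.one_mem, _, D.H.mul_mem i b, rfl⟩ using 1
      calc y = u * l * (v * k * (E.n * t)) * k' := by
            rw [← mul_inv_cancel_left (u * l * v) y, e]; group
        _ = _ := by rw [j]; group
  · obtain ⟨z, a, w, b, c, k, d, e⟩ := Set.mem_iUnion₂.1 hx
    obtain ⟨z', a', w', b', c', k', d', e'⟩ := Set.mem_iUnion₂.1 hx'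
    obtain ⟨m, f, v, g, rfl⟩ := (h.memH k).1 d
    obtain ⟨m', f', v', g', rfl⟩ := (h.memH k').1 d'
    obtain ⟨rfl, e1, -⟩ := h.cell.eq b (D.Z.mul_mem a (h.MZ f)) g b' (D.Z.mul_mem a' (h.MZ f')) g'
      (by simpa [mul_assoc] using e.symm.trans e')
    obtain ⟨u, i1, r, -, i2, rfl⟩ := p.dI b
    refine (hρ.2 _ (E.L.mul_mem i2 (p.ZL (D.Z.mul_mem a (h.MZ f))))).unique ?_ ?_
    · simpa [mul_assoc] using (St D E K _).mul_mem ((key i u i1 r i2 z a).1 c) (p.M_St h ht s f)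
    · simpa [mul_assoc, e1] using
        (St D E K _).mul_mem ((key j u i1 r i2 z' a').1 c') (p.M_St h ht s f')
  · obtain ⟨u, i1, r', -, i2, rfl⟩ := p.dI a
    obtain ⟨o, ho, -⟩ := hρ.2 _ (E.L.mul_mem i2 (p.ZL b))
    obtain ⟨m1, m2⟩ := p.mem_o (hρ.1 o) i1 ho
    refine ⟨o, ?_, ?_, Set.mem_iUnion₂.2 ⟨z, b, _, a, (key o u i1 r' i2 z b).2 ho, k, c, f⟩⟩
    · convert m1 k c using 1; rw [f]; group
    · convert m2 _ ⟨r, d, k', e, rfl⟩ using 1; rw [g]; group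

/-- the coordinate is locally bounded -/
theorem exists_small {x y : G} (hx : x ∈ D.Ω) (hxy : x⁻¹ * y ∈ Lab D (E.n * t)) :
    ∃ F B, RI D.H F ∧ RI D.H B ∧ x ∈ F ∧ y ∈ B ∧ ∃ S, IsCompact S ∧ (∀ r ∈ S, r ∈ D.J ∧ r ∈ E.L) ∧
      ∀ x' ∈ F, ∀ y' ∈ B, x'⁻¹ * y' ∈ E.Q → Co D (E.n * t) S x' y' := by
  have hS := p.opIn_St h ht s
  rw [Ω_eq] at hx
  obtain ⟨w, a, z, b, v, c, rfl⟩ := hx
  obtain ⟨k, d, k', e, f⟩ := hxy
  obtain ⟨r, g, g', k'', i, j⟩ := p.act1 h ht (D.H.mul_mem (h.JH c) d)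
  obtain ⟨u, i1, r', -, i2, rfl⟩ := p.dI a
  have hl := E.L.mul_mem i2 (E.L.mul_mem (p.ZL b) g')
  refine ⟨bx D (rt (z * r) (lt (r' * (z * r)) (cK E.I (St D E K (E.n * t)) E.J))) z,
    lt (r' * (z * r)) (Bo D E K (E.n * t)), h.ri_bx (((p.cell.open_cK hS).preimage
      (continuous_const_mul _)).preimage (continuous_mul_const _)) b, (p.ri_Bo h ht s).lt _,
    ⟨_, a, ⟨_, p.cell.nI' hl i1, 1, Subgroup.one_mem _, 1, E.J.one_mem, by group⟩, v, h.JH c, rfl⟩,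
    ?_, (fun k => r * k) '' K, s.cp.image (by fun_prop), ?_, ?_⟩
  · convert (p.mem_o (ν := E.n * t) hl i1 (l := r' * (z * r)) (by simp)).2 _
      ⟨1, K.one_mem, _, D.H.mul_mem i e, rfl⟩ using 1
    calc y = u * r' * z * (v * k * (E.n * t)) * k' := by
          rw [← mul_inv_cancel_left (u * r' * z * v) y, f]; group
      _ = _ := by rw [j]; group
  · rintro _ ⟨k, hk, rfl⟩
    exact ⟨D.J.mul_mem g (s.le k hk).1, E.L.mul_mem g' (s.le k hk).2⟩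
  · rintro _ ⟨w, a₁, b₁, k₁, c₁, rfl⟩ y' hy hq
    obtain ⟨u₁, j1, r₁, -, j2, rfl⟩ := p.dI a₁
    have hl₁ := E.L.mul_mem j2 (E.L.mul_mem (p.ZL b) g')
    have := (p.cell.lt_cK hS.1 j1 hl₁ E.J.one_mem hl).1 (by
      rw [mem_rt, mem_lt] at b₁; convert b₁ using 1; group)
    obtain ⟨k₂, d₂, k₃, d₃, e₂⟩ := p.Bo_Q h ht s (y := (r₁ * (z * r))⁻¹ * (u₁⁻¹ * y')) (by
      rw [p.Bo_left (E.L.inv_mem hl₁) (E.I.inv_mem j1), ← this.2]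
      rw [mem_lt] at hy
      convert hy using 1; group) (by
      convert E.Q.mul_mem (E.Q.mul_mem (E.Q.inv_mem (p.cell.LQ g')) (p.HQ h c₁)) hq using 1
      group)
    refine ⟨_, a₁, z, b, k₁, c₁, _, ⟨k₂, d₂, rfl⟩, k₃, d₃, rfl, ?_⟩
    calc y' = u₁ * (r₁ * (z * r)) * ((r₁ * (z * r))⁻¹ * (u₁⁻¹ * y')) := by group
      _ = _ := by rw [e₂]; group

omit s in
/-- small sheets -/
theorem exists_loc [T2Space G] {x y : G} (hxy : x⁻¹ * y ∈ Lab D (E.n * t)) {A : Set G}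
    (hA : RI D.H A) (hy : y ∈ A) : ∃ K F B V, Sc D E K ∧ Sh D E K (E.n * t) F B ∧ RI E.Q V ∧
      x ∈ F ∧ y ∈ B ∩ V ∧ B ∩ V ⊆ A := by
  obtain ⟨k, a, k', b, e⟩ := hxy
  have e1 : y = x * k * (E.n * t) * k' := by rw [← mul_inv_cancel_left x y, e]; group
  have hc : Continuous fun z : G × G => x * k * (z.1 * (z.2 * (E.n * t))) := by fun_prop
  obtain ⟨U, O, c, d, f, g, i⟩ := isOpen_prod_iff.1 (hA.1.preimage hc) 1 1 (by
    rw [e1, hA.iff b] at hy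
    simpa [mul_assoc] using hy)
  obtain ⟨K, s, hK⟩ := p.exists_sc h (d.mem_nhds g)
  have hν : E.n * t * k' ∈ cls D K (E.n * t) := ⟨1, K.one_mem, k', b, by simp⟩
  refine ⟨K, _, _, lt (x * k) (cs E.I E.L E.J U Set.univ), s, (p.sh_o h ht s).lt (x * k),
    (p.cell.ri_cs c).lt _, ⟨k, a, by simpa using one_cK⟩,
    ⟨⟨1, E.I.one_mem, by simpa [e1, mul_assoc] using hν⟩, ?_⟩, ?_⟩
  · have := (p.cell.ri_cs c).2 1 ⟨1, E.I.one_mem, f, 1, E.L.one_mem, trivial, 1, E.J.one_mem,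
      by simp⟩ _ (p.cls_Q h ht s hν)
    simpa [e1, mul_assoc] using this
  · rintro w ⟨⟨u, j, m⟩, n⟩
    have hu : u * 1 * 1 ∈ cs E.I E.L E.J U Set.univ := by
      rw [← (p.cell.ri_cs c).iff (p.cls_Q h ht s m)]
      simpa using n
    obtain ⟨r, o, k'', q, e2⟩ := m
    have := hA.2 _ (i (Set.mk_mem_prod
      ((p.cell.mem_cs j E.L.one_mem E.J.one_mem).1 hu).1 (hK o))) k'' q
    convert this using 1
    calc w = x * k * (u * (u⁻¹ * ((x * k)⁻¹ * w))) := by group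
      _ = _ := by rw [e2]; simp [mul_assoc]

end Pn

end Vale.Agent.P092MG
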