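import Vale.Agent.P092MG.Uni
import Vale.Agent.P092MG.Sheet
import Vale.Agent.P092RK.Sint

/-!
P092, E4: averages over compact subgroups and strong limits of smooth operators.
-/

set_option linter.all false

open scoped InnerProductSpace ENNReal NNReal
open MeasureTheory Filter Topology ContinuousLinearMap

namespace Vale.Agent.P092MG

open Vale.Agent.P092RK (Sf sI)
open Vale.Agent.P092CP

variable {G K : Type} [Group G] [TopologicalSpace G] [IsTopologicalGroup G]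
  [SecondCountableTopology G] [T2Space G] [MeasurableSpace G] [BorelSpace G]
  [NormedAddCommGroup K] [InnerProductSpace ℂ K] [CompleteSpace K] {π : G →* (K →L[ℂ] K)}
  {N : Subgroup G} {a b : K →L[ℂ] K}

/-- an invariant probability measure -/
noncomputable def hp (N : Subgroup G) : Measure N :=
  Classical.epsilon fun ν => IsProbabilityMeasure ν ∧ ν.IsMulLeftInvariant

theorem hp_spec (hN : IsCompact (N : Set G)) :
    IsProbabilityMeasure (hp N) ∧ (hp N).IsMulLeftInvariant := by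
  haveI : CompactSpace N := isCompact_iff_compactSpace.1 hN
  exact Classical.epsilon_spec (p := fun ν : Measure N => IsProbabilityMeasure ν ∧
    ν.IsMulLeftInvariant) ⟨Measure.haarMeasure ⊤, ⟨by
      simpa using Measure.haarMeasure_self (K₀ := (⊤ : TopologicalSpace.PositiveCompacts N))⟩,
    inferInstance⟩

/-- the average -/
noncomputable def av (π : G →* (K →L[ℂ] K)) (N : Subgroup G) (a : K →L[ℂ] K) : K →L[ℂ] K :=
  sI (hp N) fun k => cj π k a

theorem tendsto_ap {ι : Type*} {l : Filter ι} {F : ι → K →L[ℂ] K} {v : ι → K} {c : ℝ} {ξ : K}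
    (hc : ∀ i, ‖F i‖ ≤ c) (hF : Tendsto (fun i => F i ξ) l (𝓝 (a ξ))) (hv : Tendsto v l (𝓝 ξ)) :
    Tendsto (fun i => F i (v i)) l (𝓝 (a ξ)) := by
  have : Tendsto (fun i => F i (v i - ξ)) l (𝓝 0) := squeeze_zero_norm
    (fun i => ((F i).le_opNorm _).trans (mul_le_mul_of_nonneg_right (hc i) (norm_nonneg _)))
    (by simpa using (tendsto_iff_norm_sub_tendsto_zero.1 hv).const_mul c)
  simpa using this.add hF

section av

variable (hπ : UR π) (hN : IsCompact (N : Set G))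
include hπ

theorem sf_cj (a : K →L[ℂ] K) : Sf (hp N) fun k => cj π k a :=
  ⟨fun ξ => ((hπ.ccj a ξ).comp continuous_subtype_val).aestronglyMeasurable, _,
    fun k => hπ.cj_le _ a⟩

include hN

theorem av_ap (ξ : K) : av π N a ξ = ∫ k, cj π k.1 a ξ ∂hp N :=
  haveI := (hp_spec hN).1
  (sf_cj hπ a).sI_apply ξ

theorem av_eq {x y x' y' : K →L[ℂ] K} (h : ∀ k ∈ N, x * cj π k a * y = x' * cj π k b * y') :
    x * av π N a * y = x' * av π N b * y' := by
  haveI := (hp_spec hN).1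
  rw [av, av, (sf_cj hπ a).mul_sI, (sf_cj hπ b).mul_sI]
  exact congrArg _ (funext fun k => h k k.2)

theorem av_comm {x : K →L[ℂ] K} (h : ∀ k ∈ N, cj π k a * x = x * cj π k a) :
    av π N a * x = x * av π N a := by
  simpa using av_eq hπ hN (x := 1) (y' := 1) (by simpa using h)

theorem av_cj {m : G} (hm : m ∈ N) : cj π m (av π N a) = av π N a := by
  obtain ⟨i, j⟩ := hp_spec hN
  rw [cj, av, (sf_cj hπ a).mul_sI]
  ext ξ
  rw [(((Sf.const _).mul (sf_cj hπ a)).mul (Sf.const _)).sI_apply, (sf_cj hπ a).sI_apply,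
    ← integral_mul_left_eq_self (fun k : N => cj π k.1 a ξ) ⟨m, hm⟩]
  exact integral_congr_ae (ae_of_all _ fun k => ap_eq (cj_cj m k.1 a) ξ)

theorem av_norm {ξ η : K} {c : ℝ} (h : ∀ k ∈ N, ‖cj π k a ξ - η‖ ≤ c) : ‖av π N a ξ - η‖ ≤ c := by
  haveI := (hp_spec hN).1
  have := norm_integral_le_of_norm_le_const (μ := hp N) (ae_of_all _ fun k : N => h k k.2)
  rwa [integral_sub ((sf_cj hπ a).int ξ) (integrable_const _), integral_const, probReal_univ,
    one_smul, mul_one, ← av_ap hπ hN] at this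

theorem av_le : ‖av π N a‖ ≤ ‖a‖ := opNorm_le_bound _ (norm_nonneg _) fun ξ => by
  simpa using av_norm hπ hN (η := 0) fun k _ => by
    simpa using ((cj π k a).le_opNorm ξ).trans
      (mul_le_mul_of_nonneg_right (hπ.cj_le k a) (norm_nonneg _))

theorem av_lim {F : ℕ → K →L[ℂ] K} {c : ℝ} (hc : ∀ n, ‖F n‖ ≤ c)
    (hF : ∀ ξ, Tendsto (fun n => F n ξ) atTop (𝓝 (a ξ))) (ξ : K) :
    Tendsto (fun n => av π N (F n) ξ) atTop (𝓝 (av π N a ξ)) := by
  haveI := (hp_spec hN).1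
  simp only [av_ap hπ hN]
  exact tendsto_integral_of_dominated_convergence (fun _ => c * ‖ξ‖)
    (fun n => (sf_cj hπ _).meas ξ) (integrable_const _) (fun n => ae_of_all _ fun k =>
      ((cj π k.1 (F n)).le_opNorm ξ).trans (mul_le_mul_of_nonneg_right ((hπ.cj_le _ _).trans (hc n))
        (norm_nonneg _))) (ae_of_all _ fun k => ((π k).continuous.tendsto _).comp (hF _))

theorem av_lint {X : Type} [TopologicalSpace X] [SecondCountableTopology X] [MeasurableSpace X]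
    [BorelSpace X] (m : Measure X) [SFinite m] {v : X → K} (hv : Continuous v) {c : ℝ≥0∞}
    (h : ∀ k ∈ N, ∫⁻ x, ‖cj π k a (v x)‖ₑ ^ 2 ∂m ≤ c) : ∫⁻ x, ‖av π N a (v x)‖ₑ ^ 2 ∂m ≤ c := by
  haveI := (hp_spec hN).1
  have hc : Continuous fun z : X × N => cj π z.2.1 a (v z.1) :=
    continuous_iff_continuousAt.2 fun z => tendsto_ap (fun w : X × N => hπ.cj_le w.2.1 a)
      (((hπ.ccj a _).comp (continuous_subtype_val.comp continuous_snd)).tendsto z)
      ((hv.comp continuous_fst).tendsto z)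
  calc _ ≤ ∫⁻ x, ∫⁻ k, ‖cj π k.1 a (v x)‖ₑ ^ 2 ∂hp N ∂m := lintegral_mono fun x => by
        rw [av_ap hπ hN]
        refine (pow_le_pow_left' (enorm_integral_le_lintegral_enorm _) 2).trans ?_
        have := ENNReal.lintegral_mul_le_Lp_mul_Lq (hp N) Real.HolderConjugate.two_two
          ((sf_cj hπ a).meas (v x)).enorm (g := fun _ => 1) aemeasurable_const
        simp only [Pi.mul_apply, mul_one, ENNReal.one_rpow, lintegral_const, measure_univ,
          ENNReal.rpow_ofNat, one_pow] at this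
        refine (pow_le_pow_left' this 2).trans_eq ?_
        rw [← ENNReal.rpow_natCast, ← ENNReal.rpow_mul]
        simp
    _ = ∫⁻ k, ∫⁻ x, ‖cj π k.1 a (v x)‖ₑ ^ 2 ∂m ∂hp N :=
        lintegral_lintegral_swap (hc.enorm.measurable.pow_const 2).aemeasurable
    _ ≤ c := by simpa using lintegral_mono (μ := hp N) fun k => h k k.2

end av

variable {I L J Q : Subgroup G} {E : Set G → K →L[ℂ] K}

theorem Sm.lim {F : ℕ → K →L[ℂ] K} (h : ∀ n, Sm π I J Q E N (F n))
    (hF : ∀ ξ, Tendsto (fun n => F n ξ) atTop (𝓝 (a ξ))) : Sm π I J Q E N a :=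
  ⟨fun A hA => ContinuousLinearMap.ext fun ξ => tendsto_nhds_unique (hF _)
    ((((E A).continuous.tendsto _).comp (hF ξ)).congr fun n => ap_eq ((h n).cme A hA).symm ξ),
  fun g => ContinuousLinearMap.ext fun ξ => tendsto_nhds_unique
    (((π g).continuous.tendsto _).comp (hF _)) ((hF _).congr fun n => ap_eq ((h n).eq g).symm ξ)⟩

theorem OpIn.cg (h : OpIn N L) {l : G} (hl : l ∈ L) : OpIn (cg l N) L := by
  obtain ⟨a, T, b, c⟩ := h
  exact ⟨fun k hk => by simpa [mul_assoc] using L.mul_mem (L.mul_mem hl (a hk)) (L.inv_mem hl),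
    (fun r => l⁻¹ * r * l) ⁻¹' T, b.preimage (by fun_prop),
    fun r d => c _ (L.mul_mem (L.mul_mem (L.inv_mem hl) d) hl)⟩

/-- bounded strong limits of smooth operators -/
def WS (π : G →* (K →L[ℂ] K)) (I L J Q : Subgroup G) (E : Set G → K →L[ℂ] K) (a : K →L[ℂ] K) :
    Prop := ∃ (c : ℝ) (F : ℕ → K →L[ℂ] K), (∀ n, ∃ N, OpIn N L ∧ Sm π I J Q E N (F n)) ∧
      (∀ n, ‖F n‖ ≤ c) ∧ ∀ ξ, Tendsto (fun n => F n ξ) atTop (𝓝 (a ξ))

section other

variable {G' : Type} [Group G'] [TopologicalSpace G'] [IsTopologicalGroup G']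
  [SecondCountableTopology G'] [T2Space G'] [MeasurableSpace G'] [BorelSpace G']
  {ρ : G' →* (K →L[ℂ] K)} {N' : Subgroup G'} (hρ : UR ρ) (hc : ∀ g k, π g * ρ k = ρ k * π g)
  (h : Cell I L J Q)
include hρ hc h

theorem WS.other (ha : WS π I L J Q E a) {k : G'} (hk : ∀ A, RI Q A → cj ρ k (E A) = E A) :
    WS π I L J Q E (cj ρ k a) := by
  obtain ⟨c, F, h1, h2, h3⟩ := ha
  exact ⟨c, _, fun n => (h1 n).imp fun N d => ⟨d.1, d.2.other (h.ri_Wh d.1) hc hk⟩,
    fun n => (hρ.cj_le _ _).trans (h2 n), fun ξ => ((ρ k).continuous.tendsto _).comp (h3 _)⟩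

variable (hN' : IsCompact (N' : Set G')) (hk : ∀ k ∈ N', ∀ A, RI Q A → cj ρ k (E A) = E A)
include hN' hk

theorem Sm.av_other (hN : OpIn N L) (ha : Sm π I J Q E N a) : Sm π I J Q E N (av ρ N' a) :=
  have o := fun k m => ha.other (h.ri_Wh hN) hc (hk k m)
  ⟨fun A hA => av_comm hρ hN' fun k m => (o k m).cme A hA, fun g => by
    simpa [cj, mul_assoc] using av_eq hρ hN' (x := π g) (x' := 1) (y := π g⁻¹ * E (Wh I N J Q g))
      fun k m => by simpa [cj, mul_assoc] using (o k m).eq g⟩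

theorem WS.av_other (ha : WS π I L J Q E a) : WS π I L J Q E (av ρ N' a) := by
  obtain ⟨c, F, h1, h2, h3⟩ := ha
  exact ⟨c, _, fun n => (h1 n).imp fun N d => ⟨d.1, d.2.av_other hρ hc h hN' hk d.1⟩,
    fun n => (av_le hρ hN').trans (h2 n), av_lim hρ hN' h2 h3⟩

end other

namespace Ow

variable (h : Ow π I L J Q E)
include h

theorem ws_mul (ha : WS π I L J Q E a) (hb : WS π I L J Q E b) : WS π I L J Q E (a * b) := by
  obtain ⟨c, F, h1, h2, h3⟩ := ha
  obtain ⟨c', F', h1', h2', h3'⟩ := hb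
  refine ⟨c * c', fun n => F n * F' n, fun n => ?_, fun n => (norm_mul_le _ _).trans
    (mul_le_mul (h2 n) (h2' n) (norm_nonneg _) ((norm_nonneg _).trans (h2 n))),
    fun ξ => (tendsto_ap h2 (h3 _) (h3' ξ) :)⟩
  obtain ⟨N, i, j⟩ := h1 n
  obtain ⟨N', i', j'⟩ := h1' n
  exact ⟨_, i.inf i', h.sm_mul (i.inf i') (h.sm_mono i (i.inf i') inf_le_left j)
    (h.sm_mono i' (i.inf i') inf_le_right j')⟩

theorem ws_cj (ha : WS π I L J Q E a) {l : G} (hl : l ∈ L) : WS π I L J Q E (cj π l a) := by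
  obtain ⟨c, F, h1, h2, h3⟩ := ha
  refine ⟨c, _, fun n => ?_, fun n => (h.ur.cj_le _ _).trans (h2 n),
    fun ξ => ((π l).continuous.tendsto _).comp (h3 _)⟩
  obtain ⟨N, i, j⟩ := h1 n
  exact ⟨_, i.cg hl, h.sm_cj i (i.cg hl) hl (fun k hk => hk) j⟩

theorem sm_av {M : Subgroup G} (hM : OpIn M L) (cM : IsCompact (M : Set G)) (hN : OpIn N L)
    (hle : N ≤ M) (nm : ∀ c ∈ M, ∀ x ∈ N, c * x * c⁻¹ ∈ N) (ha : Sm π I J Q E N a) :
    Sm π I J Q E M (av π M a) := by
  have hc : Cme Q E (av π M a) := fun A hA => av_comm h.ur cM fun k _ => ha.cme.cj h k A hA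
  refine ⟨hc, fun g => ?_⟩
  have hW := h.cell.ri_Wh hM g
  rw [hc.cj h g _ hW, hc _ hW]
  ext ξ
  rw [mul_ap, mul_ap, ← sub_eq_zero, ← map_sub]
  refine h.op.loc_zero hW fun x hx => ?_
  have hx' : x ∈ lt 1 (Wh I M J Q (1⁻¹ * g * 1)) := by simpa [lt_one] using hx
  obtain ⟨m, hm, e⟩ := h.cell.exists_m (h.cell.W_sub hM.1 L.one_mem L.one_mem hx')
  have hmM : m ∈ M := by simpa using (e M hM.1 1 L.one_mem 1 L.one_mem).1 hx'
  have hA := (h.cell.ri_Wh hN (1⁻¹ * g * m)).lt 1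
  refine ⟨_, hA, (e N hN.1 m hm 1 L.one_mem).2 (by simp), ?_⟩
  have := av_eq h.ur cM (a := a) (b := a) (x := π g) (x' := π m⁻¹)
    (y := π g⁻¹ * E (lt 1 (Wh I N J Q (1⁻¹ * g * m))))
    (y' := π m⁻¹⁻¹ * E (lt 1 (Wh I N J Q (1⁻¹ * g * m)))) fun k hk => by
      have hl := L.mul_mem (L.inv_mem hm) (hM.1 hk)
      have := h.sm_sub hN ha hA (g := g * k) (l := m⁻¹ * k) fun y hy => by
        obtain ⟨m', hm', e'⟩ := h.cell.exists_m (h.cell.W_sub hN.1 hm L.one_mem hy)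
        rw [← mul_assoc, e' N hN.1 k (hM.1 hk) _ hl]
        convert nm _ (M.mul_mem (M.inv_mem hk) hmM) _ ((e' N hN.1 m hm 1 L.one_mem).1 hy) using 1
        group
      rw [← cj_cj, ← cj_cj] at this
      simpa only [cj, mul_assoc] using this
  rw [← mul_assoc, ← mul_assoc] at this
  change cj π g _ * _ = cj π m⁻¹ _ * _ at this
  rw [av_cj h.ur cM (M.inv_mem hmM), hc.cj h g _ hA, hc _ hA] at this
  rw [map_sub, sub_eq_zero]
  exact ap_eq this ξ

theorem sm_av_ws {D : MnD G} (hD : Mn D) {M : Subgroup G} (hM : OpIn M L)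
    (cM : IsCompact (M : Set G)) (ha : WS π I L J Q E a) : Sm π I J Q E M (av π M a) := by
  obtain ⟨c, F, h1, h2, h3⟩ := ha
  refine Sm.lim (fun n => ?_) (av_lim h.ur cM h2 h3)
  obtain ⟨N, i, j⟩ := h1 n
  obtain ⟨-, T, t1, t2⟩ := id i
  obtain ⟨U, u1, -, u2⟩ := hD.td T (t1.mem_nhds ((t2 1 L.one_mem).1 N.one_mem))
  obtain ⟨V, v1, v2, v3⟩ := exists_core cM u1
  have o := (opIn_inf v1).inf hM
  exact h.sm_av hM cM o inf_le_right (fun c hc x hx => ⟨⟨v3 c hc x hx.1.1, L.mul_mem (L.mul_mem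
    (hM.1 hc) hx.1.2) (L.inv_mem (hM.1 hc))⟩, M.mul_mem (M.mul_mem hc hx.2) (M.inv_mem hc)⟩)
    (h.sm_mono i o (fun x hx => (t2 x hx.1.2).2 (u2 (v2 hx.1.1))) j)

end Ow

theorem ws_set {D : MnD G} (hD : Mn D) {H : Subgroup G} {θ : Set G → K →L[ℂ] K}
    (hc : Cell I L J Q) (hθ : OP H θ) (hH : H ≤ Q)
    (cov : ∀ g A, RI H A → cj π g (θ A) = θ (lt g A)) {A : Set G} (hA : RI H A)
    (hI : ∀ u ∈ I, ∀ x ∈ A, u * x ∈ A) (hJ : J ≤ H) : WS π I L J Q θ (θ A) := by
  obtain ⟨U, u1, u2, u3, u4⟩ := hD.exists_seq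
  let B : ℕ → Set G := fun n => {x | ∀ k ∈ U n ⊓ L, k * x ∈ A}
  have hB : ∀ n, RI H (B n) := fun n => ⟨isOpen_iff_mem_nhds.2 fun x hx =>
    ((u3 n).inter_right hc.clL).eventually_forall_of_forall_eventually
      (P := fun y k => k * y ∈ A) fun k hk =>
        (continuous_snd.mul continuous_fst).continuousAt.preimage_mem_nhds
          (hA.1.mem_nhds (hx k hk)),
    fun x hx g hg k hk => mul_assoc k x g ▸ hA.2 _ (hx k hk) g hg⟩
  refine ⟨1, fun n => θ (B n), fun n => ⟨_, opIn_inf (u2 n), sm_of_set hc hθ hH cov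
    (opIn_inf (u2 n)) (hB n) (fun u hu x hx k hk => ?_) (fun l hl x hx k hk => ?_) hJ⟩,
    fun n => (hθ.pj (hB n)).opNorm_le, fun ξ => ?_⟩
  · convert hI _ (hc.nI k hk.2 u hu) _ (hx k hk) using 1; group
  · rw [← mul_assoc]; exact hx _ (Subgroup.mul_mem _ hk hl)
  · convert hθ.lim B hB (fun n m hnm x hx k hk => hx k ⟨u1 hnm hk.1, hk.2⟩) ξ
    refine Set.Subset.antisymm (fun x hx => ?_) (Set.iUnion_subset fun n x hx => ?_)
    · obtain ⟨n, hn⟩ := (u4 _ ((hA.1.preimage (continuous_mul_const x)).mem_nhds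
        (by simpa using hx))).exists
      exact Set.mem_iUnion.2 ⟨n, fun k hk => hn hk.1⟩
    · simpa using hx 1 (Subgroup.one_mem _)

end Vale.Agent.P092MG
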