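import Vale.Agent.P092MG.Side
import Vale.Agent.P092MG.Avg

/-!
P092, E4: operators which are smooth for both groups.
-/

set_option linter.all false

open scoped InnerProductSpace ENNReal NNReal
open MeasureTheory Filter Topology ContinuousLinearMap

namespace Vale.Agent.P092MG

open Vale.Agent.P092.RC (Cm)
open Vale.Agent.P092CP

variable {G G' K : Type} [Group G] [TopologicalSpace G] [IsTopologicalGroup G]
  [LocallyCompactSpace G] [SecondCountableTopology G] [T2Space G] [MeasurableSpace G] [BorelSpace G]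
  [Group G'] [TopologicalSpace G'] [IsTopologicalGroup G'] [LocallyCompactSpace G']
  [SecondCountableTopology G'] [T2Space G'] [MeasurableSpace G'] [BorelSpace G']
  [NormedAddCommGroup K] [InnerProductSpace ℂ K] [CompleteSpace K] {μ : Measure G}
  [μ.IsHaarMeasure] {μ' : Measure G'} [μ'.IsHaarMeasure] {W : Set (K →L[ℂ] K)}
  {C : Cpl μ μ' W} {D : MnD G} {D' : MnD G'} {E : PnD G} {E' : PnD G'}
  {θ : Set G' → K →L[ℂ] K} {Θ : Set G → K →L[ℂ] K} {a b x y z : K →L[ℂ] K}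

theorem WS.cme {I L J Q : Subgroup G} {π : G →* (K →L[ℂ] K)} (h : WS π I L J Q Θ a) :
    Cme Q Θ a := by
  obtain ⟨c, F, h1, -, h3⟩ := h
  exact fun A hA => ContinuousLinearMap.ext fun ξ => tendsto_nhds_unique (h3 _)
    ((((Θ A).continuous.tendsto _).comp (h3 ξ)).congr fun n =>
      ap_eq ((h1 n).choose_spec.2.cme A hA).symm ξ)

/-- two matched panels -/
structure Ctx (C : Cpl μ μ' W) (D : MnD G) (D' : MnD G') (E : PnD G) (E' : PnD G')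
    (θ : Set G' → K →L[ℂ] K) (Θ : Set G → K →L[ℂ] K) (z : K →L[ℂ] K) : Prop where
  h : Mn D
  h' : Mn D'
  m : Mag C D D' θ Θ
  p : Pn D E
  p' : Pn D' E'
  erg : Erg C E.I
  erg' : Erg C.swap E'.I
  agS : ∀ l ∈ E.L₁, ∀ A, RI E'.Q A → cj C.s.π l (θ A) = θ A
  agT : ∀ l ∈ E'.L₁, ∀ A, RI E.Q A → cj C.t.π l (Θ A) = Θ A
  zt : z = θ (cK E'.I E'.L₁ E'.J)
  zs : z = Θ (cK E.I E.L₁ E.J)

/-- smooth for both groups -/
structure Bs (C : Cpl μ μ' W) (E : PnD G) (E' : PnD G') (θ : Set G' → K →L[ℂ] K)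
    (Θ : Set G → K →L[ℂ] K) (z a : K →L[ℂ] K) : Prop where
  cm : Cm W a
  t : ∃ N, OpIn N E'.L ∧ Sm C.t.π E'.I E'.J E'.Q θ N a
  s : ∃ N, OpIn N E.L ∧ Sm C.s.π E.I E.J E.Q Θ N a
  z1 : a * z = a
  z2 : z * a = a

/-- weakly smooth for both groups -/
structure Bw (C : Cpl μ μ' W) (E : PnD G) (E' : PnD G') (θ : Set G' → K →L[ℂ] K)
    (Θ : Set G → K →L[ℂ] K) (z a : K →L[ℂ] K) : Prop where
  cm : Cm W a
  t : WS C.t.π E'.I E'.L E'.J E'.Q θ a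
  s : WS C.s.π E.I E.L E.J E.Q Θ a
  z1 : a * z = a
  z2 : z * a = a

/-- the largest normal subgroup of `L₁` in `M` -/
def Ko (D : MnD G) (E : PnD G) : Subgroup E.L₁ := (D.M.subgroupOf E.L₁).normalCore

instance (D : MnD G) (E : PnD G) : (Ko D E).Normal := Subgroup.normalCore_normal _

/-- fixed by the kernel -/
def Fk (C : Cpl μ μ' W) (D : MnD G) (E : PnD G) (a : K →L[ℂ] K) : Prop :=
  ∀ k ∈ Ko D E, cj C.s.π k.1 a = a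

theorem Bs.swap (h : Bs C E E' θ Θ z a) : Bs C.swap E' E Θ θ z a := ⟨h.cm, h.s, h.t, h.z1, h.z2⟩

theorem Bs.swap' (h : Bs C.swap E' E Θ θ z a) : Bs C E E' θ Θ z a := ⟨h.cm, h.s, h.t, h.z1, h.z2⟩

theorem Bw.swap (h : Bw C E E' θ Θ z a) : Bw C.swap E' E Θ θ z a := ⟨h.cm, h.s, h.t, h.z1, h.z2⟩

theorem Bw.swap' (h : Bw C.swap E' E Θ θ z a) : Bw C E E' θ Θ z a := ⟨h.cm, h.s, h.t, h.z1, h.z2⟩

theorem Fk.mul (ha : Fk C D E a) (hb : Fk C D E b) : Fk C D E (a * b) := fun k hk => by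
  rw [cj_mul, ha k hk, hb k hk]

theorem Fk.cjT (ha : Fk C D E a) (l : G') : Fk C D E (cj C.t.π l a) := fun k hk => by
  rw [cj_st, ha k hk]

theorem Fk.cjS (ha : Fk C D E a) {l : G} (hl : l ∈ E.L₁) : Fk C D E (cj C.s.π l a) :=
  fun k hk => by
    have := ha _ (Subgroup.Normal.conj_mem inferInstance k hk (⟨l, hl⟩ : E.L₁)⁻¹)
    conv_rhs => rw [← this]
    rw [cj_cj, cj_cj]
    simp [mul_assoc]

theorem Ow.sm2 {I L J Q : Subgroup G} {π : G →* (K →L[ℂ] K)} (o : Ow π I L J Q Θ)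
    (ha : ∃ N, OpIn N L ∧ Sm π I J Q Θ N a) (hb : ∃ N, OpIn N L ∧ Sm π I J Q Θ N b) :
    ∃ N, OpIn N L ∧ Sm π I J Q Θ N a ∧ Sm π I J Q Θ N b := by
  obtain ⟨N, i, j⟩ := ha
  obtain ⟨N', i', j'⟩ := hb
  exact ⟨_, i.inf i', o.sm_mono i (i.inf i') inf_le_left j, o.sm_mono i' (i.inf i') inf_le_right j'⟩

namespace Ctx

variable (X : Ctx C D D' E E' θ Θ z)
include X

theorem swap : Ctx C.swap D' D E' E Θ θ z :=
  ⟨X.h', X.h, X.m.swap, X.p', X.p, X.erg', X.erg, X.agT, X.agS, X.zs, X.zt⟩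

theorem cov : Cov C D' E.I θ := X.m.t.cov' X.p.II

theorem ot : Ow C.t.π E'.I E'.L E'.J E'.Q θ := X.cov.owP X.h' X.p'

theorem os : Ow C.s.π E.I E.L E.J E.Q Θ := X.swap.ot

theorem pz : Pj z := X.zt ▸ X.m.t.op.pj (X.p'.ri₁ X.h')

theorem zT {l : G'} (hl : l ∈ E'.L₁) : cj C.t.π l z = z := by
  rw [X.zt, X.m.t.cov _ _ (X.p'.ri₁ X.h'), X.p'.lt₁ hl]

theorem zS {l : G} (hl : l ∈ E.L₁) : cj C.s.π l z = z := X.swap.zT hl

theorem smz : Sm C.t.π E'.I E'.J E'.Q θ E'.L₁ z :=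
  X.zt ▸ sm_of_set X.p'.cell X.m.t.op (X.p'.HQ X.h') X.m.t.cov X.p'.op₁ (X.p'.ri₁ X.h')
    (fun u hu x hx => by simpa using X.p'.cell.left_cK X.p'.L₁L hu E'.L₁.one_mem hx)
    (fun u hu x hx => by simpa using X.p'.cell.left_cK X.p'.L₁L E'.I.one_mem hu hx) (X.p'.JH X.h')

theorem bs_z : Bs C E E' θ Θ z z :=
  ⟨X.zt ▸ X.m.t.cm _ (X.p'.ri₁ X.h'), ⟨_, X.p'.op₁, X.smz⟩, ⟨_, X.p.op₁, X.swap.smz⟩, X.pz.idem,
    X.pz.idem⟩

theorem bs_zero : Bs C E E' θ Θ z 0 :=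
  ⟨cm_zero, ⟨_, opIn_self, sm_zero⟩, ⟨_, opIn_self, sm_zero⟩, zero_mul _, mul_zero _⟩

theorem bs_add (ha : Bs C E E' θ Θ z a) (hb : Bs C E E' θ Θ z b) : Bs C E E' θ Θ z (a + b) :=
  ⟨cm_add ha.cm hb.cm, (X.ot.sm2 ha.t hb.t).imp fun _ h => ⟨h.1, h.2.1.add h.2.2⟩,
    (X.os.sm2 ha.s hb.s).imp fun _ h => ⟨h.1, h.2.1.add h.2.2⟩, by rw [add_mul, ha.z1, hb.z1],
    by rw [mul_add, ha.z2, hb.z2]⟩

theorem bs_mul (ha : Bs C E E' θ Θ z a) (hb : Bs C E E' θ Θ z b) : Bs C E E' θ Θ z (a * b) :=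
  ⟨cm_mul ha.cm hb.cm, (X.ot.sm2 ha.t hb.t).imp fun _ h => ⟨h.1, X.ot.sm_mul h.1 h.2.1 h.2.2⟩,
    (X.os.sm2 ha.s hb.s).imp fun _ h => ⟨h.1, X.os.sm_mul h.1 h.2.1 h.2.2⟩,
    by rw [mul_assoc, hb.z1], by rw [← mul_assoc, ha.z2]⟩

theorem bs_smul (c : ℂ) (ha : Bs C E E' θ Θ z a) : Bs C E E' θ Θ z (c • a) :=
  ⟨cm_smul c ha.cm, ha.t.imp fun _ h => ⟨h.1, h.2.smul c⟩, ha.s.imp fun _ h => ⟨h.1, h.2.smul c⟩,
    by rw [smul_mul_assoc, ha.z1], by rw [mul_smul_comm, ha.z2]⟩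

theorem bs_star (ha : Bs C E E' θ Θ z a) : Bs C E E' θ Θ z (star a) :=
  ⟨C.adj_cm ha.cm, ha.t.imp fun _ h => ⟨h.1, X.ot.sm_star h.1 h.2⟩,
    ha.s.imp fun _ h => ⟨h.1, X.os.sm_star h.1 h.2⟩, by rw [← X.pz.sa, ← star_mul, ha.z2],
    by rw [← X.pz.sa, ← star_mul, ha.z1]⟩

theorem bs_cjT (ha : Bs C E E' θ Θ z a) {l : G'} (hl : l ∈ E'.L₁) :
    Bs C E E' θ Θ z (cj C.t.π l a) := by
  obtain ⟨N, i, j⟩ := ha.t
  have hL := X.p'.L₁L hl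
  exact ⟨C.t.conj a ha.cm l, ⟨_, i.cg hL, X.ot.sm_cj i (i.cg hL) hL (fun k hk => hk) j⟩,
    ha.s.imp fun _ h => ⟨h.1, h.2.other (X.p.cell.ri_Wh h.1) C.comm (X.agT l hl)⟩,
    by rw [← X.zT hl, ← cj_mul, ha.z1], by rw [← X.zT hl, ← cj_mul, ha.z2]⟩

theorem bs_cjS (ha : Bs C E E' θ Θ z a) {l : G} (hl : l ∈ E.L₁) :
    Bs C E E' θ Θ z (cj C.s.π l a) := (X.swap.bs_cjT ha.swap hl).swap'

theorem bw_mul (ha : Bw C E E' θ Θ z a) (hb : Bw C E E' θ Θ z b) : Bw C E E' θ Θ z (a * b) :=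
  ⟨cm_mul ha.cm hb.cm, X.ot.ws_mul ha.t hb.t, X.os.ws_mul ha.s hb.s, by rw [mul_assoc, hb.z1],
    by rw [← mul_assoc, ha.z2]⟩

theorem bw_cjT (ha : Bw C E E' θ Θ z a) {l : G'} (hl : l ∈ E'.L₁) :
    Bw C E E' θ Θ z (cj C.t.π l a) :=
  ⟨C.t.conj a ha.cm l, X.ot.ws_cj ha.t (X.p'.L₁L hl),
    ha.s.other (ur C.t) C.comm X.p.cell (X.agT l hl),
    by rw [← X.zT hl, ← cj_mul, ha.z1], by rw [← X.zT hl, ← cj_mul, ha.z2]⟩

theorem bw_cjS (ha : Bw C E E' θ Θ z a) {l : G} (hl : l ∈ E.L₁) :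
    Bw C E E' θ Θ z (cj C.s.π l a) := (X.swap.bw_cjT ha.swap hl).swap'

theorem clM_sub : D'.cl D'.M ⊆ cK E'.I E'.L₁ E'.J := fun x hx =>
  (X.p'.cl₁.1 (cK_mono (le_inf X.h'.MZ X.p'.M₁) hx)).2

theorem ws_p : WS C.t.π E'.I E'.L E'.J E'.Q θ (θ (D'.cl D'.M)) :=
  ws_set X.h' X.p'.cell X.m.t.op (X.p'.HQ X.h') X.m.t.cov X.h'.ri_M
    (fun u hu x hx => (X.h'.left_I X.h'.MZ (X.p'.II hu)).2 hx) (X.p'.JH X.h')

theorem bw_p : Bw C E E' θ Θ z (θ (D'.cl D'.M)) :=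
  ⟨X.m.t.cm _ X.h'.ri_M, X.ws_p, X.m.mag ▸ X.swap.ws_p,
    X.zt ▸ X.m.t.op.mul_of_subset X.h'.ri_M (X.p'.ri₁ X.h') X.clM_sub,
    X.zt ▸ X.m.t.op.mul_of_subset' X.h'.ri_M (X.p'.ri₁ X.h') X.clM_sub⟩

theorem fk_p : Fk C D E (θ (D'.cl D'.M)) := fun k hk =>
  X.m.t.invM _ ((D.M.subgroupOf E.L₁).normalCore_le hk) _ X.h'.ri_M

theorem av_z {N : Subgroup G'} (cN : IsCompact (N : Set G')) (hN : N ≤ E'.L₁) (hc : Cm W a)
    (h1 : a * z = a) (h2 : z * a = a) : Cm W (av C.t.π N a) ∧ av C.t.π N a * z = av C.t.π N a ∧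
      z * av C.t.π N a = av C.t.π N a :=
  ⟨fun w hw => av_comm (ur C.t) cN fun k _ => C.t.conj a hc k w hw, by
    simpa using av_eq (ur C.t) cN (a := a) (b := a) (x := 1) (x' := 1) (y := z) (y' := 1)
      fun k hk => by rw [one_mul, mul_one, ← X.zT (hN hk), ← cj_mul, h1], by
    simpa using av_eq (ur C.t) cN (a := a) (b := a) (x := z) (x' := 1) (y := 1) (y' := 1)
      fun k hk => by rw [one_mul, mul_one, mul_one, ← X.zT (hN hk), ← cj_mul, h2]⟩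

theorem bs_av (hx : Bw C E E' θ Θ z x) {U : Subgroup G} {U' : Subgroup G'}
    (u1 : IsOpen (U : Set G)) (u2 : IsCompact (U : Set G)) (u1' : IsOpen (U' : Set G'))
    (u2' : IsCompact (U' : Set G')) :
    Bs C E E' θ Θ z (av C.t.π (U' ⊓ E'.L₁) (av C.s.π (U ⊓ E.L₁) x)) := by
  have c := u2.inter_right X.p.closed₁
  have c' := u2'.inter_right X.p'.closed₁
  have o : OpIn (U ⊓ E.L₁) E.L := (opIn_inf u1).trans X.p.op₁
  have o' : OpIn (U' ⊓ E'.L₁) E'.L := (opIn_inf u1').trans X.p'.op₁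
  obtain ⟨a1, a2, a3⟩ := X.swap.av_z (N := U ⊓ E.L₁) c inf_le_right hx.cm hx.z1 hx.z2
  obtain ⟨b1, b2, b3⟩ := X.av_z (N := U' ⊓ E'.L₁) c' inf_le_right a1 a2 a3
  exact ⟨b1, ⟨_, o', X.ot.sm_av_ws X.h' o' c' (hx.t.av_other (ur C.s) C.swap.comm X.p'.cell c
    fun k hk => X.agS k hk.2)⟩, ⟨_, o, (X.os.sm_av_ws X.h o c hx.s).av_other (ur C.t) C.comm
      X.p.cell c' (fun k hk => X.agT k hk.2) o⟩, b2, b3⟩

theorem fk_av (hx : Fk C D E x) {U : Subgroup G} {U' : Subgroup G'} (u2 : IsCompact (U : Set G))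
    (u2' : IsCompact (U' : Set G')) :
    Fk C D E (av C.t.π (U' ⊓ E'.L₁) (av C.s.π (U ⊓ E.L₁) x)) := fun k hk =>
  cj_eq_iff.2 (av_comm (ur C.t) (u2'.inter_right X.p'.closed₁) fun l _ => cj_eq_iff.1 (by
    rw [cj_st, cj_eq_iff.2 (av_comm (N := U ⊓ E.L₁) (ur C.s) (u2.inter_right X.p.closed₁)
      fun l' hl => cj_eq_iff.1 (hx.cjS hl.2 k hk))]))

theorem approx : ∃ (U : ℕ → Subgroup G) (U' : ℕ → Subgroup G'),
    (∀ n, IsOpen (U n : Set G) ∧ IsCompact (U n : Set G)) ∧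
    (∀ n, IsOpen (U' n : Set G') ∧ IsCompact (U' n : Set G')) ∧
    (∀ O ∈ 𝓝 (1 : G), ∀ᶠ n in atTop, (U n : Set G) ⊆ O) ∧
    (∀ O ∈ 𝓝 (1 : G'), ∀ᶠ n in atTop, (U' n : Set G') ⊆ O) ∧ ∀ x ξ, Tendsto
      (fun n => av C.t.π (U' n ⊓ E'.L₁) (av C.s.π (U n ⊓ E.L₁) x) ξ) atTop (𝓝 (x ξ)) := by
  obtain ⟨U, -, a, b, c⟩ := X.h.exists_seq
  obtain ⟨U', -, a', b', c'⟩ := X.h'.exists_seq
  refine ⟨U, U', fun n => ⟨a n, b n⟩, fun n => ⟨a' n, b' n⟩, c, c', fun x ξ =>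
    Metric.tendsto_nhds.2 fun ε hε => ?_⟩
  have t1 : Tendsto (fun w : G' × G => C.t.π w.1⁻¹ ξ) (𝓝 (1, 1)) (𝓝 ξ) := by
    simpa [Function.comp_def] using ((C.t.cont ξ).comp (continuous_inv.comp continuous_fst)).tendsto
      ((1, 1) : G' × G)
  have t2 : Tendsto (fun w : G' × G => C.t.π w.1⁻¹ (x ξ)) (𝓝 (1, 1)) (𝓝 (x ξ)) := by
    simpa [Function.comp_def] using ((C.t.cont (x ξ)).comp
      (continuous_inv.comp continuous_fst)).tendsto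
      ((1, 1) : G' × G)
  have t3 : Tendsto (fun w : G' × G => cj C.s.π w.2 x ξ) (𝓝 (1, 1)) (𝓝 (x ξ)) := by
    simpa [one_cj, Function.comp_def] using
      (((ur C.s).ccj x ξ).comp continuous_snd).tendsto ((1, 1) : G' × G)
  have t4 := ((tendsto_ap (fun w : G' × G => (ur C.s).cj_le w.2 x) t3 t1).sub t2).norm
  rw [sub_self, norm_zero] at t4
  obtain ⟨O', o', O, o, e⟩ := mem_nhds_prod_iff.1 (t4.eventually_le_const (half_pos hε))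
  filter_upwards [c O o, c' O' o'] with n h1 h2
  rw [dist_eq_norm]
  refine (av_norm (ur C.t) ((b' n).inter_right X.p'.closed₁) fun k hk => ?_).trans_lt
    (half_lt_self hε)
  rw [← C.t.norm_π k⁻¹, map_sub, cj_ap, pi_inv_ap]
  exact av_norm (ur C.s) ((b n).inter_right X.p.closed₁) fun l hl =>
    e (Set.mk_mem_prod (h2 hk.1) (h1 hl.1))

theorem exists_B {Φ : (K →L[ℂ] K) → Prop} (h0 : Φ (θ (D'.cl D'.M)))
    (h1 : ∀ x, Φ x → ∀ l ∈ E'.L₁, Φ (cj C.t.π l x)) (h2 : ∀ x y, Φ x → Φ y → Φ (x * y)) :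
    ∃ (B V : Set G') (U : Subgroup G'), RI D'.H B ∧ 1 ∈ B ∧ B ⊆ D'.cl D'.M ∧ Φ (θ B) ∧
      IsCompact V ∧ V ⊆ D'.Ω ∧ IsOpen (U : Set G') ∧ IsCompact (U : Set G') ∧
      ∀ x ∈ B ∩ cs E'.I E'.L E'.J U Set.univ, ∃ c ∈ V, c⁻¹ * x ∈ D'.H := by
  classical
  have hM := X.h'.ri_M
  obtain ⟨V, v1, v2, v3⟩ := X.h'.td _ (X.h'.ri_Ω.1.mem_nhds one_Ω)
  obtain ⟨F, A, a, b, c, d⟩ := X.p'.gen_loc X.h' v1 V.one_mem
  obtain ⟨U, u1, u2, u3⟩ := X.h'.td _ (b.1.mem_nhds c)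
  have key : ∀ s : Finset G', (∀ k ∈ s, k ∈ E'.L ∧ k ∈ D'.cl D'.M) →
      Φ (θ (D'.cl D'.M ∩ ⋂ k ∈ s, lt k⁻¹ (D'.cl D'.M))) := fun s => by
    induction s using Finset.induction_on with
    | empty => intro _; simpa using h0
    | insert k s _ ih =>
      intro hs
      obtain ⟨i, j⟩ := hs k (Finset.mem_insert_self _ _)
      rw [Finset.set_biInter_insert, Set.inter_left_comm, X.m.t.op.inter _ _ (hM.lt _)
        (hM.inter (ri_biInter s fun k _ => hM.lt _)), ← X.m.t.cov _ _ hM]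
      exact h2 _ _ (h1 _ h0 _ (E'.L₁.inv_mem ((X.p'.cell.mem_cK X.p'.L₁L E'.I.one_mem i
        E'.J.one_mem).1 (by simpa using X.clM_sub j))))
        (ih fun k hk => hs k (Finset.mem_insert_of_mem hk))
  refine ⟨_, V, U, hM.inter (ri_biInter F fun k _ => hM.lt _),
    ⟨one_cl, Set.mem_iInter₂.2 fun k hk => by simpa using (a k hk).2⟩, Set.inter_subset_left,
    key F a, v2, v3, u1, u2, ?_⟩
  rintro _ ⟨⟨i, j⟩, u, -, m, l, n, -, v, o, rfl⟩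
  obtain ⟨q, hq, e⟩ := d _ (by
    rw [mul_assoc]; exact b.2 _ (u3 m) _ ((X.p'.cell.memQ _).2 ⟨l, n, v, o, rfl⟩))
    (fun k hk => by simpa using Set.mem_iInter₂.1 j k hk) i
  exact ⟨_, e, by simpa [mul_assoc] using D'.H.inv_mem hq⟩

/-- a nonzero element of finite trace -/
theorem exists_b : ∃ (U : Subgroup G) (U' : Subgroup G') (b : K →L[ℂ] K), IsOpen (U : Set G) ∧
    IsCompact (U : Set G) ∧ IsOpen (U' : Set G') ∧ IsCompact (U' : Set G') ∧ Bs C E E' θ Θ z b ∧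
    Fk C D E b ∧ b ≠ 0 ∧ C.t.Tr (b * θ (cs E'.I E'.L E'.J U' Set.univ) *
      Θ (cs E.I E.L E.J U Set.univ)) ≠ ∞ := by
  obtain ⟨B', V', U', a1, a2, a3, a4, a5, a6, a7, a8, a9⟩ := X.exists_B
    (Φ := fun x => Bw C E E' θ Θ z x ∧ Fk C D E x) ⟨X.bw_p, X.fk_p⟩
    (fun x h l hl => ⟨X.bw_cjT h.1 hl, h.2.cjT l⟩) fun x y h g => ⟨X.bw_mul h.1 g.1, h.2.mul g.2⟩
  obtain ⟨B, V, U, b1, b2, b3, b4, b5, b6, b7, b8, b9⟩ := X.swap.exists_B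
    (Φ := fun x => Bw C E E' θ Θ z x ∧ Fk C D E x) (X.m.mag ▸ ⟨X.bw_p, X.fk_p⟩)
    (fun x h l hl => ⟨X.bw_cjS h.1 hl, h.2.cjS hl⟩) fun x y h g => ⟨X.bw_mul h.1 g.1, h.2.mul g.2⟩
  have hb := X.bw_mul a4.1 b4.1
  have hE' := X.p'.cell.ri_cs a7
  have hE := X.p.cell.ri_cs b7
  have h0 : θ B' * Θ B ≠ 0 := fun e => X.swap.cov.ne b1 b2 (ContinuousLinearMap.ext fun ξ => by
    rw [← X.m.s.op.mul_of_subset' b1 X.h.ri_M b3, ← X.m.mag, mul_ap]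
    refine X.m.t.op.loc_zero X.h'.ri_M fun x hx => ?_
    obtain ⟨u, i, k, j, rfl⟩ := X.h'.mem_clM.1 hx
    refine ⟨_, a1.lt u, by simpa using a1.2 1 a2 k j, ?_⟩
    have := congrArg (cj C.t.π u) e
    rw [cj_mul, X.m.t.cov _ _ a1, cj_zero, (show cj C.t.π u (Θ B) = Θ B from X.m.s.invI u i B b1)]
      at this
    exact ap_eq this ξ)
  have h1 : C.t.Tr (θ B' * Θ B * θ (cs E'.I E'.L E'.J U' Set.univ) *
      Θ (cs E.I E.L E.J U Set.univ)) ≠ ∞ := by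
    have := X.m.fin V' V a5 a6 b5 b6 _ _ (a1.inter (hE'.mono (X.p'.HQ X.h')))
      (b1.inter (hE.mono (X.p.HQ X.h))) a9 b9
    rwa [X.m.t.op.inter _ _ a1 (hE'.mono (X.p'.HQ X.h')), X.m.s.op.inter _ _ b1
      (hE.mono (X.p.HQ X.h)), ← mul_assoc, mul_assoc (θ B'), ← b4.1.t.cme _ hE', ← mul_assoc]
      at this
  obtain ⟨T, T', t1, t2, t3, t4, t5⟩ := X.approx
  obtain ⟨ξ, hξ⟩ : ∃ ξ, (θ B' * Θ B) ξ ≠ 0 := by
    by_contra! hn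
    exact h0 (ContinuousLinearMap.ext hn)
  obtain ⟨n, n1, n2, n3⟩ := (((t5 _ ξ).eventually_ne hξ).and ((t3 _ (b7.mem_nhds U.one_mem)).and
    (t4 _ (a7.mem_nhds U'.one_mem)))).exists
  have c := (t1 n).2.inter_right X.p.closed₁
  have c' := (t2 n).2.inter_right X.p'.closed₁
  refine ⟨U, U', _, b7, b8, a7, a8, X.bs_av hb (t1 n).1 (t1 n).2 (t2 n).1 (t2 n).2,
    X.fk_av (a4.2.mul b4.2) (t1 n).2 (t2 n).2, fun e => n1 (by rw [e, zero_apply]),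
    ne_top_of_le_ne_top h1 ?_⟩
  generalize θ B' * Θ B = b at hb
  rw [mul_assoc, mul_assoc b]
  have hq := cm_mul (X.m.t.cm _ (hE'.mono (X.p'.HQ X.h'))) (X.m.s.cm _ (hE.mono (X.p.HQ X.h)))
  have q1 : ∀ k ∈ T' n ⊓ E'.L₁, cj C.t.π k (θ (cs E'.I E'.L E'.J U' Set.univ) *
      Θ (cs E.I E.L E.J U Set.univ)) = _ * _ := fun k hk => by
    rw [cj_mul, X.agT k hk.2 _ hE, X.ot.cov _ _ hE', ← one_mul k,
      X.p'.cell.fix_cs (Subgroup.one_mem _) ⟨n3 hk.1, X.p'.L₁L hk.2⟩]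
  have q2 : ∀ k ∈ T n ⊓ E.L₁, cj C.s.π k (θ (cs E'.I E'.L E'.J U' Set.univ) *
      Θ (cs E.I E.L E.J U Set.univ)) = _ * _ := fun k hk => by
    rw [cj_mul, X.agS k hk.2 _ hE', X.os.cov _ _ hE, ← one_mul k,
      X.p.cell.fix_cs (Subgroup.one_mem _) ⟨n2 hk.1, X.p.L₁L hk.2⟩]
  generalize θ (cs E'.I E'.L E'.J U' Set.univ) * Θ (cs E.I E.L E.J U Set.univ) = q at hq q1 q2
  have hv := q.continuous.comp (C.t.cont C.t.Ω)
  refine av_lint (ur C.t) c' μ' hv fun k hk => ?_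
  change C.t.Tr (cj C.t.π k _ * q) ≤ _
  rw [← q1 k hk, ← cj_mul, cj, C.t.Tr_conj, q1 k hk]
  refine av_lint (ur C.s) c μ' hv fun l hl => ?_
  change C.t.Tr (cj C.s.π l _ * q) ≤ _
  rw [← q2 l hl, ← cj_mul, cj, C.Tr_σ (cm_mul hb.cm hq), q2 l hl]

end Ctx

end Vale.Agent.P092MG
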