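import Vale.Agent.P092MG.Pair

/-!
P092, E5: the induction along a gallery.
-/

set_option linter.all false

open scoped InnerProductSpace ENNReal NNReal
open MeasureTheory Filter Topology ContinuousLinearMap

namespace Vale.Agent.P092MG

open Vale.Agent.P092.RC (Cm)
open Vale.Agent.P092CP

variable {G G' K : Type} [Group G] [TopologicalSpace G] [IsTopologicalGroup G]
  [LocallyCompactSpace G] [SecondCountableTopology G] [T2Space G] [MeasurableSpace G] [BorelSpace G]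
  [Group G'] [TopologicalSpace G'] [IsTopologicalGroup G'] [LocallyCompactSpace G']
  [SecondCountableTopology G'] [T2Space G'] [MeasurableSpace G'] [BorelSpace G']
  [NormedAddCommGroup K] [InnerProductSpace ℂ K] [CompleteSpace K] {μ : Measure G}
  [μ.IsHaarMeasure] {μ' : Measure G'} [μ'.IsHaarMeasure] {W : Set (K →L[ℂ] K)}
  {C : Cpl μ μ' W} {D : MnD G} {D' : MnD G'} {E E₁ E₂ : PnD G} {E' E₁' E₂' : PnD G'}
  {θ : Set G' → K →L[ℂ] K} {Θ : Set G → K →L[ℂ] K} {σ σ' : Type} {Es : σ → PnD G}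
  {Es' : σ' → PnD G'} {g a : G}

theorem cc_iff {x y : G} : Cc D'.H (fun A => cj C.s.π x (θ A)) (fun A => cj C.s.π y (θ A)) ↔
    Cmg C D' θ (y⁻¹ * x) := by
  refine forall₄_congr fun A B _ _ => ⟨fun e => ?_, fun e => ?_⟩
  · have := congrArg (cj C.s.π y⁻¹) e
    rwa [cj_mul, cj_mul, cj_inv_cj, cj_cj] at this
  · have := congrArg (cj C.s.π y) e
    rwa [cj_mul, cj_mul, cj_cj, mul_inv_cancel_left] at this

theorem Cmg.inv (c : Cmg C D' θ g) : Cmg C D' θ g⁻¹ := by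
  simpa using cc_iff.1 (cc_iff.2 (show Cmg C D' θ (1⁻¹ * g) by simpa using c)).symm

theorem Cmg.right (c : Cmg C D' θ g)
    (ha : ∀ A, RI D'.H A → ∃ A', RI D'.H A' ∧ cj C.s.π a (θ A) = θ A') : Cmg C D' θ (g * a) :=
  fun A B hA hB => by
    obtain ⟨A', b, e⟩ := ha A hA
    rw [← cj_cj, e, c A' B b hB]

theorem Sd.nrmZ (d : Sd C D D' θ) (h' : Mn D') (ha : a ∈ D.Z) (A : Set G') (hA : RI D'.H A) :
    ∃ A', RI D'.H A' ∧ cj C.s.π a (θ A) = θ A' := by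
  obtain ⟨z, b, c⟩ := d.ht a ha
  exact ⟨_, hA.rt (h'.nH b), c A hA⟩

theorem Cmg.rZ (c : Cmg C D' θ g) (d : Sd C D D' θ) (h' : Mn D') (ha : a ∈ D.Z) :
    Cmg C D' θ (g * a) := c.right (d.nrmZ h' ha)

theorem Cmg.lZ (c : Cmg C D' θ g) (d : Sd C D D' θ) (h' : Mn D') (ha : a ∈ D.Z) :
    Cmg C D' θ (a * g) := by simpa using (c.inv.rZ d h' (D.Z.inv_mem ha)).inv

theorem Cmg.rI (c : Cmg C D' θ g) (d : Sd C D D' θ) (ha : a ∈ D.I) : Cmg C D' θ (g * a) :=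
  c.right fun A hA => ⟨A, hA, d.invI a ha A hA⟩

theorem Cmg.lI (c : Cmg C D' θ g) (d : Sd C D D' θ) (ha : a ∈ D.I) : Cmg C D' θ (a * g) := by
  simpa using (c.inv.rI d (D.I.inv_mem ha)).inv

theorem cmg_one (d : Sd C D D' θ) : Cmg C D' θ 1 := fun A B hA hB => by
  rw [one_cj, d.op.comm hA hB]

theorem cmg_closed : IsClosed {g | Cmg C D' θ g} := by
  simp only [Cmg, Set.setOf_forall, ContinuousLinearMap.ext_iff]
  exact isClosed_iInter fun A => isClosed_iInter fun B => isClosed_iInter fun _ =>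
    isClosed_iInter fun _ => isClosed_iInter fun ξ => isClosed_eq ((ur C.s).ccj _ _)
      ((θ B).continuous.comp ((ur C.s).ccj _ _))

theorem erg_cg {S : Subgroup G} (e : Erg C S) (g : G) : Erg C (cg g S) := fun T hT h0 => by
  obtain ⟨z, hz⟩ := e (cj C.s.π g⁻¹ T) (C.M_σ hT _) fun s hs => cj_eq_iff.1 (by
    have := cj_eq_iff.2 (h0 (g * s * g⁻¹) (show _ ∈ S by simpa [mul_assoc] using hs))
    rw [cj_cj, ← inv_mul_cancel_left g (s * g⁻¹), ← mul_assoc g, ← cj_cj, this])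
  exact ⟨z, by rw [← cj_cj_inv (π := C.s.π) g T, hz, cj_smul, cj_one]⟩

theorem Rl.cj {z : G'} (r : Rl C D D' θ (g⁻¹ * a * g) z) (ha : a ∈ D.Z) :
    Rl C D D' (fun A => cj C.s.π g (θ A)) a z :=
  ⟨ha, r.2.1, fun A hA => by
    beta_reduce
    rw [← r.2.2 A hA, cj_cj, cj_cj]; congr 1; group⟩

/-- the panel `E` of the source is matched with the panel `E'` of the target -/
structure Mt (C : Cpl μ μ' W) (D : MnD G) (D' : MnD G') (θ : Set G' → K →L[ℂ] K) (E : PnD G)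
    (E' : PnD G') : Prop where
  p : Pn D E
  p' : Pn D' E'
  erg : Erg C E.I
  agr : ∀ A, RI E'.Q A → cj C.s.π E.n (θ A) = θ A
  cmg : Cmg C D' θ E.n

variable (h : Mn D) (h' : Mn D') (m : Mag C D D' θ Θ)
include h h' m

theorem Mt.pr (t : Mt C D D' θ E E') (g : G) : Pr C D' E' (cg g E.I)
    (fun A => cj C.s.π g (θ A)) fun A => cj C.s.π (g * E.n) (θ A) where
  h := h'
  p := t.p'
  erg := erg_cg t.erg g
  c₁ := (m.t.cov' t.p.II).cj g fun s hs => hs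
  c₂ := (m.t.cov' t.p.II).cj _ fun s hs => by
    convert t.p.cell.nI' t.p.nL hs using 1; group
  comm := cc_iff.2 (by simpa using t.cmg.inv)
  agr A hA := by rw [← cj_cj, t.agr A hA]
  dif e := diff h h' m t.p t.erg fun A hA => (cj_inj g ((e A hA).trans (cj_cj _ _ _).symm)).symm

theorem Mt.chi (t : Mt C D D' θ E E') {z : G'} (r : Rl C D D' θ a z) : E.χ a = 0 ↔ E'.χ z = 0 := by
  obtain ⟨y, r'⟩ := m.t.rl (t.p.nZ' r.1)
  obtain ⟨s, hs, k⟩ := (t.pr h h' m 1).exists_label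
  have e := (t.pr h h' m 1).label_rel hs k (b := a) (Rl.cj (z := z) (by simpa using r) r.1)
    (Rl.cj (z := y) (by simpa using r') r.1)
  have hn := t.p'.nZ' r.2.1
  have e1 : y⁻¹ * (E'.n⁻¹ * z * E'.n) ∈ D'.M := by
    convert h'.conj' le_rfl h'.MZ r'.2.1 (D'.M.mul_mem (h'.ab _ hn _ (D'.Z.inv_mem hs)) e) using 1
    group
  rw [t.p.χzero a r.1, t.p'.χzero z r.2.1, (r'.mul h' (r.inv h')).memM h h' m,
    ← D'.M.mul_mem_cancel_left (h'.conj le_rfl h'.MZ r'.2.1 e1)]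
  congr! 1
  group

theorem Mt.step (t₁ : Mt C D D' θ E₁ E₁') (t₂ : Mt C D D' θ E₂ E₂')
    (hg : ∀ z ∈ D.Z, g⁻¹ * z * g ∈ D.Z) (c₁ : Cmg C D' θ g) (c₂ : Cmg C D' θ (g * E₂.n))
    (c₃ : Cmg C D' θ (E₁.n * g)) {b₁ b₂ : G} (h₁ : b₁ ∈ D.Z) (h₂ : b₂ ∈ D.Z) (x₁ : E₁.χ b₁ ≠ 0)
    (y₁ : E₂.χ (g⁻¹ * b₁ * g) = 0) (x₂ : E₁.χ b₂ = 0) (y₂ : E₂.χ (g⁻¹ * b₂ * g) ≠ 0) :
    Cmg C D' θ (E₁.n * g * E₂.n) := by
  obtain ⟨T, hT⟩ : ∃ T : G → G' → G' → Prop, ∀ b y y', T b y y' ↔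
    Rl C D D' θ b y ∧ Rl C D D' θ (g⁻¹ * b * g) y' := ⟨_, fun _ _ _ => Iff.rfl⟩
  have inv : ∀ b y y', T b y y' → T b⁻¹ y⁻¹ y'⁻¹ := fun b y y' a => (hT _ _ _).2
    ⟨((hT _ _ _).1 a).1.inv h', by convert ((hT _ _ _).1 a).2.inv h' using 1; group⟩
  obtain ⟨b, y, y', a, i, j⟩ : ∃ b y y', T b y y' ∧ E₁'.χ y < 0 ∧ E₂'.χ y' = 0 := by
    obtain ⟨y, r⟩ := m.t.rl h₁
    obtain ⟨y', r'⟩ := m.t.rl (hg _ h₁)
    have j := (t₂.chi h h' m r').1 y₁
    rcases lt_or_gt_of_ne fun i => x₁ ((t₁.chi h h' m r).2 i) with i | i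
    · exact ⟨_, y, y', (hT _ _ _).2 ⟨r, r'⟩, i, j⟩
    · exact ⟨_, _, _, inv _ _ _ ((hT _ _ _).2 ⟨r, r'⟩), by rw [t₁.p'.χinv r.2.1]; linarith,
        by rw [t₂.p'.χinv r'.2.1, j, neg_zero]⟩
  obtain ⟨b', w, w', a', i', j'⟩ : ∃ b y y', T b y y' ∧ E₁'.χ y = 0 ∧ E₂'.χ y' < 0 := by
    obtain ⟨y, r⟩ := m.t.rl h₂
    obtain ⟨y', r'⟩ := m.t.rl (hg _ h₂)
    have j := (t₁.chi h h' m r).1 x₂
    rcases lt_or_gt_of_ne fun i => y₂ ((t₂.chi h h' m r').2 i) with i | i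
    · exact ⟨_, y, y', (hT _ _ _).2 ⟨r, r'⟩, j, i⟩
    · exact ⟨_, _, _, inv _ _ _ ((hT _ _ _).2 ⟨r, r'⟩), by rw [t₁.p'.χinv r.2.1, j, neg_zero],
        by rw [t₂.p'.χinv r'.2.1]; linarith⟩
  rw [hT] at a a'
  have r₁ := a.1.mul h' a'.1
  have r₃ : Rl C D D' θ (g⁻¹ * (b * b') * g) (y' * w') := by
    convert a.2.mul h' a'.2 using 1; group
  obtain ⟨z₂, r₂⟩ := m.t.rl (t₁.p.nZ' r₁.1)
  obtain ⟨z₄, r₄⟩ := m.t.rl (t₂.p.nZ' r₃.1)
  have c₄ : Cmg C D' θ (E₁.n⁻¹ * g) := by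
    convert c₃.lZ m.t h' (D.Z.inv_mem t₁.p.nn) using 1; group
  have := cc_iff.1 (Vale.Agent.P092MG.step (t₁.pr h h' m 1) (t₂.pr h h' m g)
    (cc_iff.2 (by simpa using c₁.inv)) (cc_iff.2 (by simpa using c₂.inv))
    (cc_iff.2 (by simpa using c₄.inv)) (Rl.cj (z := y * w) (by simpa using r₁) r₁.1)
    (Rl.cj (z := z₂) (by simpa using r₂) r₁.1) (r₃.cj r₁.1)
    (Rl.cj (z := z₄) (by convert r₄ using 1; group) r₁.1)
    (by rw [t₁.p'.χinv r₁.2.1, t₁.p'.χmul _ a.1.2.1 _ a'.1.2.1]; linarith)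
    (by rw [t₂.p'.χinv r₃.2.1, t₂.p'.χmul _ a.2.2.1 _ a'.2.2.1]; linarith))
  convert this.inv.lZ m.t h' t₁.p.nn using 1
  group

/-- **E5.** -/
theorem gallery {N : ℕ} {τ : ℕ → σ} {w : ℕ → G} (ga : Gal D Es N τ w)
    (t : ∀ i, ∃ E', Mt C D D' θ (Es i) E') (g : G) : Cmg C D' θ g := by
  choose E' t using t
  have hw : ∀ i z, z ∈ D.Z ↔ (w i)⁻¹ * z * w i ∈ D.Z := fun i => by
    induction i with
    | zero => simp [ga.zero]
    | succ i ih =>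
      intro z
      rw [ih, ((t (τ i)).p.nZ (_ * w (i + 1))), ga.step]
      congr! 1; group
  have χn : ∀ i, ∀ b ∈ D.Z, (Es (τ i)).χ ((w (i + 1))⁻¹ * b * w (i + 1)) = 0 ↔
      (Es (τ i)).χ ((w i)⁻¹ * b * w i) = 0 := fun i b hb => by
    rw [(t _).p.χzero _ ((hw _ b).1 hb), (t _).p.χzero _ ((hw _ b).1 hb), (t (τ i)).p.nM,
      ga.step]
    congr! 1; group
  have key : ∀ d i, (i + d ≤ N → Cmg C D' θ ((w i)⁻¹ * w (i + d))) ∧
      (i + (d + 1) ≤ N → Cmg C D' θ ((w i)⁻¹ * w (i + (d + 1)))) := fun d => by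
    induction d with
    | zero => exact fun i => ⟨fun _ => by simpa using cmg_one m.t, fun _ => by
        simpa [ga.step] using (t (τ i)).cmg⟩
    | succ d ih =>
      refine fun i => ⟨(ih i).2, fun hi => ?_⟩
      have e : i + 1 + d = i + (d + 1) := by omega
      obtain ⟨b₁, h₁, x₁, y₁⟩ := ga.wall i (by omega) (i + (d + 1)) (by omega) (by omega)
      obtain ⟨b₂, h₂, y₂, x₂⟩ := ga.wall (i + (d + 1)) (by omega) i (by omega) (by omega)
      have := (t (τ i)).step h h' m (t (τ (i + (d + 1)))) (g := (w (i + 1))⁻¹ * w (i + (d + 1)))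
        (fun z hz => by
          convert (hw (i + (d + 1)) _).1 ((hw (i + 1) (w (i + 1) * z * (w (i + 1))⁻¹)).2
            (by simpa [mul_assoc] using hz)) using 1
          group) (e ▸ (ih (i + 1)).1 (by omega))
        (by
          convert (ih (i + 1)).2 (by omega) using 1
          rw [show i + 1 + (d + 1) = i + (d + 1) + 1 by omega, ga.step (i + (d + 1)), mul_assoc])
        (by convert (ih i).2 (by omega) using 1; rw [ga.step i]; group)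
        ((hw (i + 1) _).1 h₁) ((hw (i + 1) _).1 h₂) (fun a => x₁ ((χn i _ h₁).1 a))
        (by convert y₁ using 2; group) ((χn i _ h₂).2 x₂) (by convert y₂ using 2; group)
      convert this using 1
      rw [show i + (d + 1 + 1) = i + (d + 1) + 1 by omega, ga.step (i + (d + 1)), ga.step i]
      group
  have c : Cmg C D' θ (w N) := by simpa [ga.zero] using (key N 0).1 (by omega)
  refine ga.dense.induction ?_ cmg_closed g
  rintro _ ⟨u, hu, z, hz, v, hv, rfl⟩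
  rw [mul_assoc u]
  exact ((c.lZ m.t h' hz).lI m.t hu).rI m.t hv

end Vale.Agent.P092MG
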