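import Vale.Agent.P092MG.Cel

/-!
P092, E4/E5: group theoretic consequences of the cell axioms.
-/

set_option linter.all false

open Filter Topology

namespace Vale.Agent.P092MG

variable {G : Type} [Group G] [TopologicalSpace G] {D : MnD G} {E : PnD G} {Λ : Subgroup G}

theorem OpIn.up [IsTopologicalGroup G] {K K' L : Subgroup G} (h : OpIn K L) (h1 : K ≤ K')
    (h2 : K' ≤ L) : OpIn K' L := by
  obtain ⟨-, T, hT, b⟩ := h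
  refine ⟨h2, ⋃ s ∈ K', lt s T, isOpen_biUnion fun s _ => hT.preimage (continuous_const_mul _),
    fun l hl => ⟨fun a => Set.mem_biUnion a ?_, fun a => ?_⟩⟩
  · rw [mem_lt, inv_mul_cancel]; exact (b 1 L.one_mem).1 K.one_mem
  · obtain ⟨s, hs, c⟩ := Set.mem_iUnion₂.1 a
    simpa using K'.mul_mem hs (h1 ((b _ (L.mul_mem (L.inv_mem (h2 hs)) hl)).2 c))

theorem exists_core [IsTopologicalGroup G] {C K : Subgroup G} (hC : IsCompact (C : Set G))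
    (hK : IsOpen (K : Set G)) : ∃ N : Subgroup G, IsOpen (N : Set G) ∧ N ≤ K ∧
      ∀ c ∈ C, ∀ x ∈ N, c * x * c⁻¹ ∈ N := by
  let N : Subgroup G :=
    { carrier := {x | ∀ c ∈ C, c * x * c⁻¹ ∈ K}
      one_mem' := fun c _ => by simpa using K.one_mem
      mul_mem' := fun {x y} a b c hc => by
        convert K.mul_mem (a c hc) (b c hc) using 1; group
      inv_mem' := fun {x} a c hc => by convert K.inv_mem (a c hc) using 1; group }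
  refine ⟨N, N.isOpen_of_mem_nhds (g := 1) ?_, fun x hx => by simpa using hx 1 C.one_mem,
    fun c hc x hx c' hc' => by convert hx _ (C.mul_mem hc' hc) using 1; group⟩
  refine hC.eventually_forall_of_forall_eventually (P := fun x c => c * x * c⁻¹ ∈ K) fun c _ => ?_
  have : Continuous fun z : G × G => z.2 * z.1 * z.2⁻¹ := by fun_prop
  exact this.continuousAt.preimage_mem_nhds (hK.mem_nhds (by simpa using K.one_mem))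

theorem cl_eq : D.cl Λ = cK D.I Λ D.J := rfl

theorem Ω_eq : D.Ω = D.cl D.Z := cs_univ

theorem one_cl : (1 : G) ∈ D.cl Λ := one_cK

theorem one_Ω : (1 : G) ∈ D.Ω := by rw [Ω_eq]; exact one_cl

/-- the part `(I ∩ S) z H` of the big cell -/
def bx (D : MnD G) (S : Set G) (z : G) : Set G :=
  {x | ∃ w ∈ D.I, w ∈ S ∧ ∃ h ∈ D.H, x = w * z * h}

namespace Mn

variable (h : Mn D)
include h

theorem MZ : D.M ≤ D.Z := h.opM.1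

theorem ZP : D.Z ≤ D.P := h.cell.LQ

theorem JP : D.J ≤ D.P := h.cell.JQ

theorem MH : D.M ≤ D.H := fun m hm => (h.memH m).2 ⟨m, hm, 1, D.J.one_mem, by simp⟩

theorem JH : D.J ≤ D.H := fun v hv => (h.memH v).2 ⟨1, D.M.one_mem, v, hv, by simp⟩

theorem HP : D.H ≤ D.P := fun g hg => by
  obtain ⟨m, a, v, b, rfl⟩ := (h.memH g).1 hg
  exact D.P.mul_mem (h.ZP (h.MZ a)) (h.JP b)

theorem conj (h1 : D.M ≤ Λ) (h2 : Λ ≤ D.Z) {z x : G} (hz : z ∈ D.Z) (hx : x ∈ Λ) :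
    z * x * z⁻¹ ∈ Λ := by
  simpa using Λ.mul_mem (h1 (h.ab z hz x (h2 hx))) hx

theorem conj' (h1 : D.M ≤ Λ) (h2 : Λ ≤ D.Z) {z x : G} (hz : z ∈ D.Z) (hx : x ∈ Λ) :
    z⁻¹ * x * z ∈ Λ := by
  simpa using h.conj h1 h2 (D.Z.inv_mem hz) hx

theorem nH {z : G} (hz : z ∈ D.Z) : ∀ k ∈ D.H, z⁻¹ * k * z ∈ D.H := fun k hk => by
  obtain ⟨m, a, v, b, rfl⟩ := (h.memH k).1 hk
  convert D.H.mul_mem (h.MH (h.conj' le_rfl h.MZ hz a)) (h.JH (h.cell.nJ' hz b)) using 1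
  group

theorem IP {u : G} (hu : u ∈ D.I) (hp : u ∈ D.P) : u = 1 := by
  obtain ⟨z, a, v, b, e⟩ := (h.cell.memQ u).1 hp
  exact (h.cell.eq hu D.Z.one_mem D.J.one_mem D.I.one_mem a b (by simpa using e)).1

theorem lt_sub (h2 : Λ ≤ D.Z) {t x : G} (ht : t ∈ D.Z) (hx : x ∈ lt t (D.cl Λ)) : x ∈ D.Ω := by
  have := h.cell.left_cK le_rfl D.I.one_mem ht (cK_mono h2 hx)
  rw [Ω_eq]
  simpa [cl_eq] using this

theorem cover {x : G} (hx : x ∈ D.Ω) : ∃ t ∈ D.Z, ∀ Λ ≤ D.Z, x ∈ lt t (D.cl Λ) := by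
  rw [Ω_eq] at hx
  obtain ⟨u, a, z, b, v, c, rfl⟩ := hx
  exact ⟨z, b, fun Λ h2 => (h.cell.lt_cK h2 a b c b).2 (by simp)⟩

theorem lt_uniq (h2 : Λ ≤ D.Z) {s t x : G} (hs : s ∈ D.Z) (ht : t ∈ D.Z)
    (a : x ∈ lt s (D.cl Λ)) (b : x ∈ lt t (D.cl Λ)) : s⁻¹ * t ∈ Λ := by
  have hx := h.lt_sub h2 hs a
  rw [Ω_eq] at hx
  obtain ⟨u, c, z, d, v, e, rfl⟩ := hx
  convert Λ.mul_mem ((h.cell.lt_cK h2 c d e hs).1 a) (Λ.inv_mem ((h.cell.lt_cK h2 c d e ht).1 b))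
    using 1
  group

theorem lt_cl (h2 : Λ ≤ D.Z) {s : G} (hs : s ∈ Λ) : lt s (D.cl Λ) = D.cl Λ := by
  ext x
  exact ⟨fun a => by simpa [cl_eq] using h.cell.left_cK h2 D.I.one_mem hs a,
    fun a => by simpa [cl_eq] using h.cell.left_cK h2 D.I.one_mem (Λ.inv_mem hs) a⟩

theorem left_I (h2 : Λ ≤ D.Z) {u x : G} (hu : u ∈ D.I) : u * x ∈ D.cl Λ ↔ x ∈ D.cl Λ :=
  ⟨fun a => by simpa [cl_eq] using h.cell.left_cK h2 (D.I.inv_mem hu) Λ.one_mem a,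
    fun a => by simpa [cl_eq] using h.cell.left_cK h2 hu Λ.one_mem a⟩

theorem rt_cl (h1 : D.M ≤ Λ) (h2 : Λ ≤ D.Z) {z : G} (hz : z ∈ D.Z) :
    rt z (D.cl Λ) = lt z⁻¹ (D.cl Λ) := by
  ext x
  rw [mem_rt, mem_lt, inv_inv]
  constructor
  · rintro ⟨u, a, l, b, v, c, e⟩
    refine ⟨_, h.cell.nI z hz u a, _, h.conj h1 h2 hz b, _, h.cell.nJ z hz v c, ?_⟩
    rw [← mul_inv_cancel_right x z, e]; group
  · rintro ⟨u, a, l, b, v, c, e⟩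
    refine ⟨_, h.cell.nI' hz a, _, h.conj' h1 h2 hz b, _, h.cell.nJ' hz c, ?_⟩
    rw [← inv_mul_cancel_left z x, e]; group

theorem conj_cl (h1 : D.M ≤ Λ) (h2 : Λ ≤ D.Z) {z x : G} (hz : z ∈ D.Z) (hx : x ∈ D.cl Λ) :
    z * x * z⁻¹ ∈ D.cl Λ := by
  obtain ⟨u, a, l, b, v, c, rfl⟩ := hx
  exact ⟨_, h.cell.nI z hz u a, _, h.conj h1 h2 hz b, _, h.cell.nJ z hz v c, by group⟩

theorem mem_H {o p : G} (ho : o ∈ D.cl D.M) (hp : p ∈ D.P) (hop : o * p ∈ D.cl D.M) :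
    p ∈ D.H := by
  obtain ⟨u, a, m, b, v, c, rfl⟩ := ho
  obtain ⟨z, d, w, e, rfl⟩ := (h.cell.memQ p).1 hp
  have e1 : u * m * v * (z * w) = u * (m * z) * (z⁻¹ * v * z * w) := by group
  rw [e1, cl_eq, h.cell.mem_cK h.MZ a (D.Z.mul_mem (h.MZ b) d)
    (D.J.mul_mem (h.cell.nJ' d c) e)] at hop
  exact (h.memH _).2 ⟨z, by simpa using D.M.mul_mem (D.M.inv_mem b) hop, w, e, rfl⟩

theorem mem_clM {x : G} : x ∈ D.cl D.M ↔ ∃ u ∈ D.I, ∃ k ∈ D.H, x = u * k :=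
  ⟨fun ⟨u, a, m, b, v, c, e⟩ => ⟨u, a, m * v, (h.memH _).2 ⟨m, b, v, c, rfl⟩, by rw [e, mul_assoc]⟩,
    fun ⟨u, a, k, b, e⟩ => by
      obtain ⟨m, c, v, d, rfl⟩ := (h.memH k).1 b
      exact ⟨u, a, m, c, v, d, by rw [e, mul_assoc]⟩⟩

theorem ri_Ω : RI D.P D.Ω := by rw [Ω_eq]; exact h.cell.ri_big

variable [IsTopologicalGroup G]

theorem opIn (h1 : D.M ≤ Λ) (h2 : Λ ≤ D.Z) : OpIn Λ D.Z := h.opM.up h1 h2

theorem ri_cl (h1 : D.M ≤ Λ) (h2 : Λ ≤ D.Z) : RI D.H (D.cl Λ) :=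
  h.cell.ri_cK (h.opIn h1 h2) fun g hg => by
    obtain ⟨m, a, v, b, e⟩ := (h.memH g).1 hg
    exact ⟨m, h1 a, v, b, e⟩

theorem ri_M : RI D.H (D.cl D.M) := h.ri_cl le_rfl h.MZ

theorem ri_bx {S : Set G} (hS : IsOpen S) {z : G} (hz : z ∈ D.Z) : RI D.H (bx D S z) := by
  have e : bx D S z = cs D.I D.Z D.J S Set.univ ∩ lt z (D.cl D.M) := by
    ext x
    constructor
    · rintro ⟨w, a, b, k, c, rfl⟩
      obtain ⟨m, d, v, e, rfl⟩ := (h.memH k).1 c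
      have hm := D.Z.mul_mem hz (h.MZ d)
      rw [← mul_assoc, mul_assoc w]
      exact ⟨(h.cell.mem_cs a hm e).2 ⟨b, trivial⟩, (h.cell.lt_cK h.MZ a hm e hz).2 (by simpa)⟩
    · rintro ⟨⟨w, a, b, l, c, -, v, d, rfl⟩, e⟩
      exact ⟨w, a, b, z⁻¹ * l * v, (h.memH _).2 ⟨_, (h.cell.lt_cK h.MZ a c d hz).1 e, v, d, rfl⟩,
        by group⟩
  rw [e]
  exact ((h.cell.ri_cs hS).mono h.HP).inter (h.ri_M.lt z)

/-- a basis of compact open subgroups -/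
theorem exists_seq [FirstCountableTopology G] : ∃ K : ℕ → Subgroup G, Antitone K ∧
    (∀ n, IsOpen (K n : Set G)) ∧ (∀ n, IsCompact (K n : Set G)) ∧
    ∀ O ∈ 𝓝 (1 : G), ∀ᶠ n in atTop, (K n : Set G) ⊆ O := by
  obtain ⟨U, hU⟩ := (𝓝 (1 : G)).exists_antitone_basis
  choose K a b c using fun n => h.td _ (hU.mem n)
  obtain ⟨K', e0, e1⟩ : ∃ K' : ℕ → Subgroup G, K' 0 = K 0 ∧ ∀ m, K' (m + 1) = K' m ⊓ K (m + 1) :=
    ⟨fun n => Nat.rec (K 0) (fun m T => T ⊓ K (m + 1)) n, rfl, fun _ => rfl⟩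
  have ho : ∀ n : ℕ, IsOpen ((K' n : Subgroup G) : Set G) := by
    intro n
    induction n with
    | zero => rw [e0]; exact a 0
    | succ m ih => rw [e1]; exact ih.inter (a _)
  have hl : ∀ n : ℕ, K' n ≤ K n := by
    intro n
    cases n with
    | zero => rw [e0]
    | succ m => rw [e1]; exact inf_le_right
  refine ⟨K', antitone_nat_of_succ_le fun n => (e1 n).trans_le inf_le_left, ho, fun n =>
    (b n).of_isClosed_subset ((K' n).isClosed_of_isOpen (ho n)) (hl n), fun O hO => ?_⟩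
  exact (hU.eventually_subset hO).mono fun n hn x hx => hn (c n (hl n hx))

end Mn

namespace Pn

variable (h : Mn D) (p : Pn D E)
include p

theorem L₁L : E.L₁ ≤ E.L := p.op₁.1

theorem nL : E.n ∈ E.L := p.L₁L p.n₁

theorem conj₁ {l x : G} (hl : l ∈ E.L) (hx : x ∈ E.L₁) : l * x * l⁻¹ ∈ E.L₁ := by
  simpa using E.L₁.mul_mem (p.ab₁ l hl x (p.L₁L hx)) hx

theorem nZ' {z : G} (hz : z ∈ D.Z) : E.n⁻¹ * z * E.n ∈ D.Z := (p.nZ _).2 (by simpa [mul_assoc])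

theorem nM' {z : G} (hz : z ∈ D.M) : E.n⁻¹ * z * E.n ∈ D.M := (p.nM _).2 (by simpa [mul_assoc])

theorem nI {u : G} (hu : u ∈ D.I) (hl : u ∈ E.L) : E.n * u * E.n⁻¹ ∈ D.J := (p.nR u hl).1 hu

theorem nc {l : G} (hl : l ∈ E.L) : E.n * l * E.n⁻¹ ∈ E.L :=
  E.L.mul_mem (E.L.mul_mem p.nL hl) (E.L.inv_mem p.nL)

theorem nc' {l : G} (hl : l ∈ E.L) : E.n⁻¹ * l * E.n ∈ E.L :=
  E.L.mul_mem (E.L.mul_mem (E.L.inv_mem p.nL) hl) p.nL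

theorem nJ' {v : G} (hv : v ∈ D.J) (hl : v ∈ E.L) : E.n⁻¹ * v * E.n ∈ D.I :=
  (p.nR _ (p.nc' hl)).2 (by simpa [mul_assoc])

theorem J₁ {v : G} (hv : v ∈ D.J) (hl : v ∈ E.L) : v ∈ E.L₁ := by
  simpa [mul_assoc] using p.conj₁ p.nL (p.I₁ _ (p.nJ' hv hl) (p.nc' hl))

theorem dI {u : G} (hu : u ∈ D.I) : ∃ v ∈ E.I, ∃ r ∈ D.I, r ∈ E.L ∧ u = v * r := by
  obtain ⟨v, a, b⟩ := p.decI u hu
  exact ⟨v, a, v⁻¹ * u, D.I.mul_mem (D.I.inv_mem (p.II a)) hu, b, by simp⟩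

theorem dJ {v : G} (hv : v ∈ D.J) : ∃ r ∈ D.J, r ∈ E.L ∧ ∃ w ∈ E.J, v = r * w := by
  obtain ⟨r, a, w, b, e⟩ := (p.cell.memQ v).1 (p.decJ v hv)
  exact ⟨r, by simpa [e] using D.J.mul_mem hv (D.J.inv_mem (p.JJ b)), a, w, b, e⟩

theorem IQ {u : G} (hu : u ∈ E.I) (hq : u ∈ E.Q) : u = 1 := by
  obtain ⟨z, a, v, b, e⟩ := (p.cell.memQ u).1 hq
  exact (p.cell.eq hu E.L.one_mem E.J.one_mem E.I.one_mem a b (by simpa using e)).1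

theorem IQL {u : G} (hu : u ∈ D.I) (hq : u ∈ E.Q) : u ∈ E.L := by
  obtain ⟨v, a, r, -, b, rfl⟩ := p.dI hu
  rwa [p.IQ a (by simpa using E.Q.mul_mem hq (E.Q.inv_mem (p.cell.LQ b))), one_mul]

/-- the three components with respect to the panel -/
theorem dec {u z v : G} (hu : u ∈ D.I) (hz : z ∈ D.Z) (hv : v ∈ D.J) :
    ∃ u' ∈ E.I, ∃ r ∈ D.I, r ∈ E.L ∧ ∃ r' ∈ D.J, r' ∈ E.L ∧ ∃ w ∈ E.J, u = u' * r ∧ v = r' * w ∧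
      r * z * r' ∈ E.L ∧ u * z * v = u' * (r * z * r') * w := by
  obtain ⟨u', a, r, b, c, rfl⟩ := p.dI hu
  obtain ⟨r', d, e, w, f, rfl⟩ := p.dJ hv
  exact ⟨u', a, r, b, c, r', d, e, w, f, rfl, rfl, E.L.mul_mem (E.L.mul_mem c (p.ZL hz)) e,
    by group⟩

theorem comp {u z v : G} (hu : u ∈ D.I) (hz : z ∈ D.Z) (hv : v ∈ D.J) (hl : u * z * v ∈ E.L) :
    u ∈ E.L ∧ v ∈ E.L := by
  obtain ⟨u', a, r, -, c, r', -, e, w, f, e1, e2, g, e3⟩ := p.dec hu hz hv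
  obtain ⟨rfl, -, rfl⟩ := p.cell.eq a g f E.I.one_mem hl E.J.one_mem (by simpa using e3.symm)
  exact ⟨by simpa [e1] using c, by simpa [e2] using e⟩

theorem cl₁ {x : G} : x ∈ D.cl (D.Z ⊓ E.L₁) ↔ x ∈ D.Ω ∧ x ∈ cK E.I E.L₁ E.J := by
  rw [Ω_eq]
  have key : ∀ u ∈ D.I, ∀ z ∈ D.Z, ∀ v ∈ D.J, u * z * v ∈ cK E.I E.L₁ E.J ↔ z ∈ E.L₁ := by
    intro u hu z hz v hv
    obtain ⟨u', a, r, b, c, r', d, e, w, f, -, -, g, e3⟩ := p.dec hu hz hv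
    rw [e3, p.cell.mem_cK p.L₁L a g f, E.L₁.mul_mem_cancel_right (p.J₁ d e),
      E.L₁.mul_mem_cancel_left (p.I₁ r b c)]
  exact ⟨fun ⟨u, a, z, b, v, c, e⟩ => ⟨⟨u, a, z, b.1, v, c, e⟩, e ▸ (key u a z b.1 v c).2 b.2⟩,
    fun ⟨⟨u, a, z, b, v, c, e⟩, d⟩ => ⟨u, a, z, ⟨b, (key u a z b v c).1 (e ▸ d)⟩, v, c, e⟩⟩

theorem Ω_sub {x : G} (hx : x ∈ D.Ω) : x ∈ cK E.I E.L E.J := by
  rw [Ω_eq] at hx
  obtain ⟨u, hu, z, hz, v, hv, rfl⟩ := hx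
  obtain ⟨u', a, r, -, -, r', -, -, w, f, -, -, g, e3⟩ := p.dec hu hz hv
  exact ⟨u', a, _, g, w, f, e3⟩

theorem χ1 : E.χ 1 = 0 := by
  have := p.χmul 1 D.Z.one_mem 1 D.Z.one_mem
  rw [mul_one] at this
  linarith

theorem χinv {z : G} (hz : z ∈ D.Z) : E.χ z⁻¹ = -E.χ z := by
  have := p.χmul z hz _ (D.Z.inv_mem hz)
  rw [mul_inv_cancel, p.χ1] at this
  linarith

theorem χpow {z : G} (hz : z ∈ D.Z) (k : ℕ) : E.χ (z ^ k) = k * E.χ z := by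
  induction k with
  | zero => simpa using p.χ1
  | succ k ih => rw [pow_succ, p.χmul _ (D.Z.pow_mem hz k) z hz, ih]; push_cast; ring

include h

theorem PQ : D.P ≤ E.Q := fun g hg => by
  obtain ⟨z, a, v, b, rfl⟩ := (h.cell.memQ g).1 hg
  exact E.Q.mul_mem (p.cell.LQ (p.ZL a)) (p.decJ v b)

theorem HQ : D.H ≤ E.Q := h.HP.trans (p.PQ h)

theorem JH : E.J ≤ D.H := p.JJ.trans h.JH

theorem dH {k : G} (hk : k ∈ D.H) :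
    ∃ m ∈ D.M, ∃ r ∈ D.J, r ∈ E.L ∧ ∃ w ∈ E.J, k = m * r * w := by
  obtain ⟨m, a, v, b, rfl⟩ := (h.memH k).1 hk
  obtain ⟨r, c, d, w, e, rfl⟩ := p.dJ b
  exact ⟨m, a, r, c, d, w, e, by group⟩

theorem ri₁ : RI D.H (cK E.I E.L₁ E.J) := p.cell.ri_cK p.op₁ fun g hg => by
  obtain ⟨m, a, r, b, c, w, d, e⟩ := p.dH h hg
  exact ⟨_, E.L₁.mul_mem (p.M₁ a) (p.J₁ b c), w, d, e⟩

theorem χM {m : G} (hm : m ∈ D.M) : E.χ m = 0 :=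
  (p.χzero m (h.MZ hm)).2 (D.M.mul_mem (p.nM' hm) (D.M.inv_mem hm))

theorem χeq {a b : G} (ha : a ∈ D.Z) (hb : b ∈ D.Z) (e : a⁻¹ * b ∈ D.M) : E.χ a = E.χ b := by
  have := p.χM h e
  rw [p.χmul _ (D.Z.inv_mem ha) b hb, p.χinv ha] at this
  linarith

theorem χn {z : G} (hz : z ∈ D.Z) (h1 : z ∈ E.L₁) : E.χ (E.n * z * E.n⁻¹) = -E.χ z := by
  have := p.χM h (p.neg z hz h1)
  rw [p.χmul _ ((p.nZ z).1 hz) z hz] at this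
  linarith

theorem χn' {z : G} (hz : z ∈ D.Z) (h1 : z ∈ E.L₁) : E.χ (E.n⁻¹ * z * E.n) = -E.χ z := by
  have := p.χn h (p.nZ' hz) (E.L₁.mul_mem (E.L₁.mul_mem (E.L₁.inv_mem p.n₁) h1) p.n₁)
  rw [show E.n * (E.n⁻¹ * z * E.n) * E.n⁻¹ = z by group] at this
  linarith

theorem χinj {z : G} (hz : z ∈ D.Z) (h1 : z ∈ E.L₁) (h0 : E.χ z = 0) : z ∈ D.M := by
  have a := (p.χzero z hz).1 h0
  have b := p.nM' (p.neg z hz h1)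
  refine h.tf z hz 2 two_ne_zero ?_
  convert D.M.mul_mem b (h.conj' le_rfl h.MZ hz (D.M.inv_mem a)) using 1
  rw [pow_two]; group

theorem exists_a : ∃ a ∈ D.Z, a ∈ E.L₁ ∧ E.χ a ≠ 0 := by
  obtain ⟨b, hb, h0⟩ := p.χne
  have hZ := D.Z.mul_mem (p.nZ' hb) (D.Z.inv_mem hb)
  have h1 : E.n⁻¹ * b * E.n * b⁻¹ ∈ E.L₁ := by
    simpa using p.ab₁ _ (E.L.inv_mem p.nL) b (p.ZL hb)
  exact ⟨_, hZ, h1, fun a => h0 ((p.χzero b hb).2 (p.χinj h hZ h1 a))⟩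

theorem bru' {l : G} (hl : l ∈ E.L) : (∃ z ∈ D.Z, ∃ v ∈ D.J, v ∈ E.L ∧ l = z * v) ∨
    ∃ r ∈ D.J, r ∈ E.L ∧ ∃ z ∈ D.Z, ∃ v ∈ D.J, v ∈ E.L ∧ l = r * E.n * (z * v) := by
  rcases p.bru l hl with a | a
  · obtain ⟨z, b, v, c, rfl⟩ := (h.cell.memQ l).1 a
    exact Or.inl ⟨z, b, v, c, (E.L.mul_mem_cancel_left (p.ZL b)).1 hl, rfl⟩
  · rw [Ω_eq] at a
    obtain ⟨u, b, z, c, v, d, e⟩ := a
    obtain ⟨f, g⟩ := p.comp b c d (e ▸ E.L.mul_mem (E.L.inv_mem p.nL) hl)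
    refine Or.inr ⟨_, p.nI b f, p.nc f, z, c, v, d, g, ?_⟩
    rw [← mul_inv_cancel_left E.n l, e]; group

/-- generators of `L₁` -/
theorem gen₁ {S : Subgroup G} (hn : E.n ∈ S) (hJ : ∀ v ∈ D.J, v ∈ E.L → v ∈ S)
    (hZ : ∀ z ∈ D.Z, z ∈ E.L₁ → z ∈ S) : E.L₁ ≤ S := fun l hl => by
  rcases p.bru' h (p.L₁L hl) with ⟨z, a, v, b, c, rfl⟩ | ⟨r, a, b, z, c, v, d, e, rfl⟩
  · exact S.mul_mem (hZ z a ((E.L₁.mul_mem_cancel_right (p.J₁ b c)).1 hl)) (hJ v b c)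
  · rw [E.L₁.mul_mem_cancel_left (E.L₁.mul_mem (p.J₁ a b) p.n₁),
      E.L₁.mul_mem_cancel_right (p.J₁ d e)] at hl
    exact S.mul_mem (S.mul_mem (hJ r a b) hn) (S.mul_mem (hZ z c hl) (hJ v d e))

theorem denseL {U : Set G} (hU : IsOpen U) {x : G} (hx : x ∈ E.L) (hxU : x ∈ U) :
    ∃ l ∈ E.L, l ∈ U ∧ l ∈ D.Ω := by
  obtain ⟨_, ⟨u, a, -, l, b, c, v, d, rfl⟩, e⟩ := h.dense.inter_open_nonempty _
    (p.cell.opn Set.univ U isOpen_univ hU)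
    ⟨x, 1, E.I.one_mem, trivial, x, hx, hxU, 1, E.J.one_mem, by simp⟩
  refine ⟨l, b, c, ?_⟩
  rw [h.ri_Ω.iff (h.JP (p.JJ d)), Ω_eq, h.left_I le_rfl (p.II a), ← Ω_eq] at e
  exact e

variable [IsTopologicalGroup G]

theorem exists_nr : ∃ r ∈ D.I, r ∈ E.L ∧ E.n * r ∈ D.Ω := by
  obtain ⟨l, a, b, c⟩ := p.denseL h (h.ri_M.lt E.n).1 p.nL (by simpa using one_cl)
  obtain ⟨u, d, m, e, v, f, g⟩ := b
  refine ⟨u, d, (p.comp d (h.MZ e) f (g ▸ E.L.mul_mem (E.L.inv_mem p.nL) a)).1, ?_⟩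
  rw [← h.ri_Ω.iff (D.P.mul_mem (h.ZP (h.MZ e)) (h.JP f)), mul_assoc, ← mul_assoc u, ← g]
  simpa using c

/-- the reflection does not act on the heights as a translation -/
theorem na {t : G} (ht : t ∈ D.Z)
    (hh : ∀ x ∈ D.cl D.M, E.n * x ∈ D.Ω → E.n * x ∈ lt t (D.cl D.M)) : False := by
  obtain ⟨r, a, -, c⟩ := p.exists_nr h
  obtain ⟨b, hb, h1, h0⟩ := p.exists_a h
  have hr : r ∈ D.cl D.M := ⟨r, a, 1, D.M.one_mem, 1, D.J.one_mem, by simp⟩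
  have hn := (p.nZ b).1 hb
  have e : E.n * (b * r * b⁻¹) ∈ lt (E.n * b * E.n⁻¹ * t * b⁻¹) (D.cl D.M) := by
    have := h.conj_cl le_rfl h.MZ hb (hh r hr c)
    rw [mem_lt]
    convert this using 1
    group
  have hz := D.Z.mul_mem (D.Z.mul_mem hn ht) (D.Z.inv_mem hb)
  have := p.χeq h hz ht (h.lt_uniq h.MZ hz ht e
    (hh _ (h.conj_cl le_rfl h.MZ hb hr) (h.lt_sub h.MZ hz e)))
  rw [p.χmul _ (D.Z.mul_mem hn ht) _ (D.Z.inv_mem hb), p.χmul _ hn t ht, p.χn h hb h1,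
    p.χinv hb] at this
  exact h0 (by linarith)

theorem C1 {N : Subgroup G} (h1 : N ≤ E.L₁) (hN : ∀ l ∈ E.L₁, ∀ x ∈ N, l * x * l⁻¹ ∈ N)
    (hP : N ≤ D.P) : N ≤ D.M := by
  have hZ : N ≤ D.Z := fun x hx => by
    obtain ⟨z, a, v, b, rfl⟩ := (h.cell.memQ x).1 (hP hx)
    have hv := (E.L.mul_mem_cancel_left (p.ZL a)).1 (p.L₁L (h1 hx))
    have c := hP (hN _ (E.L₁.inv_mem p.n₁) _ hx)
    rw [show E.n⁻¹ * (z * v) * E.n⁻¹⁻¹ = E.n⁻¹ * z * E.n * (E.n⁻¹ * v * E.n) by group,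
      D.P.mul_mem_cancel_left (h.ZP (p.nZ' a))] at c
    have d := h.IP (p.nJ' b hv) c
    rw [mul_assoc, inv_mul_eq_one, eq_comm, mul_eq_right] at d
    simpa [d] using a
  intro x hx
  obtain ⟨r, a, b, c⟩ := p.exists_nr h
  have hxZ := hZ hx
  have d : x * r * x⁻¹ * r⁻¹ = 1 := h.IP
    (D.I.mul_mem (h.cell.nI x hxZ r a) (D.I.inv_mem a)) (by
      convert hP (N.mul_mem hx (hN r (p.I₁ r a b) _ (N.inv_mem hx))) using 1; group)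
  rw [Ω_eq] at c
  obtain ⟨u, hu, z, hz, v, hv, e⟩ := c
  have hn := (p.nZ _).1 (D.Z.inv_mem hxZ)
  have hc := D.Z.mul_mem hxZ hn
  have := (h.cell.eq (h.cell.nI x hxZ u hu) (D.Z.mul_mem (D.Z.mul_mem hxZ hz) (D.Z.inv_mem hxZ))
    (h.cell.nJ x hxZ v hv) (h.cell.nI _ hc u hu) (D.Z.mul_mem hc hz) hv (by
      calc _ = x * (u * z * v) * x⁻¹ := by group
        _ = x * E.n * x⁻¹ * (x * r * x⁻¹ * r⁻¹) * r := by rw [← e]; group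
        _ = x * (E.n * x⁻¹ * E.n⁻¹) * (E.n * r) := by rw [d]; group
        _ = _ := by rw [e]; group)).2.1
  have e2 := congrArg E.χ this
  rw [p.χmul _ (D.Z.mul_mem hxZ hz) _ (D.Z.inv_mem hxZ), p.χmul _ hxZ z hz, p.χmul _ hc z hz,
    p.χmul _ hxZ _ hn, p.χn h (D.Z.inv_mem hxZ) (E.L₁.inv_mem (h1 hx)), p.χinv hxZ] at e2
  exact p.χinj h hxZ (h1 hx) (by linarith)

omit [IsTopologicalGroup G] in
theorem C2 {N : Subgroup G} (h1 : N ≤ E.L₁) (hN : ∀ l ∈ E.L₁, ∀ x ∈ N, l * x * l⁻¹ ∈ N)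
    (hP : ¬N ≤ D.P) : ∃ z ∈ D.Z, ∃ v ∈ D.J, E.n * (z * v) ∈ N := by
  obtain ⟨x, hx, hx'⟩ := SetLike.not_le_iff_exists.1 hP
  rcases p.bru' h (p.L₁L (h1 hx)) with ⟨z, a, v, b, -, rfl⟩ | ⟨r, a, b, z, c, v, d, -, rfl⟩
  · exact absurd (D.P.mul_mem (h.ZP a) (h.JP b)) hx'
  · refine ⟨z, c, v * r, D.J.mul_mem d a, ?_⟩
    convert hN _ (E.L₁.inv_mem (p.J₁ a b)) _ hx using 1
    group

/-- compact normal subgroups of `L₁` -/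
theorem P1 {N : Subgroup G} (h1 : N ≤ E.L₁) (hN : ∀ l ∈ E.L₁, ∀ x ∈ N, l * x * l⁻¹ ∈ N)
    (hc : IsCompact (N : Set G)) : N ≤ D.M := by
  refine p.C1 h h1 hN (by_contra fun hP => ?_)
  obtain ⟨z, hz, v, hv, hν⟩ := p.C2 h h1 hN hP
  obtain ⟨a, ha, ha1, h0⟩ := p.exists_a h
  have hC := (hc.image (continuous_const_mul E.n⁻¹)).inter_right h.cell.clQ
  obtain ⟨s, hs⟩ := hC.elim_finite_subcover (fun t : D.Z => lt t.1 (D.cl D.M))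
    (fun t => (h.ri_M.lt _).1) fun x hx => by
      obtain ⟨t, ht, b⟩ := h.cover (h.ri_Ω.2 1 one_Ω x hx.2)
      exact Set.mem_iUnion.2 ⟨⟨t, ht⟩, by simpa using b _ h.MZ⟩
  have hk : ∀ k : ℕ, E.n⁻¹ * a ^ k * E.n * z * (a ^ k)⁻¹ ∈ D.Z := fun k =>
    D.Z.mul_mem (D.Z.mul_mem (p.nZ' (D.Z.pow_mem ha k)) hz) (D.Z.inv_mem (D.Z.pow_mem ha k))
  have key : ∀ k : ℕ, ∃ t : s, E.χ t.1.1 = E.χ z - 2 * k * E.χ a := fun k => by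
    have hj := h.cell.nJ _ (D.Z.pow_mem ha k) v hv
    obtain ⟨t, ht, b⟩ := Set.mem_iUnion₂.1 (hs (a := E.n⁻¹ * a ^ k * E.n * z * (a ^ k)⁻¹ *
      (a ^ k * v * (a ^ k)⁻¹)) ⟨⟨_, hN _ (E.L₁.pow_mem ha1 k) _ hν, by group⟩,
        D.P.mul_mem (h.ZP (hk k)) (h.JP hj)⟩)
    refine ⟨⟨t, ht⟩, ?_⟩
    rw [p.χeq h t.2 (hk k) ((h.cell.lt_cK h.MZ D.I.one_mem (hk k) hj t.2).1 (by simpa [cl_eq] using b)),
      p.χmul _ (D.Z.mul_mem (p.nZ' (D.Z.pow_mem ha k)) hz) _ (D.Z.inv_mem (D.Z.pow_mem ha k)),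
      p.χmul _ (p.nZ' (D.Z.pow_mem ha k)) z hz, p.χn' h (D.Z.pow_mem ha k) (E.L₁.pow_mem ha1 k),
      p.χinv (D.Z.pow_mem ha k), p.χpow ha]
    ring
  choose t ht using key
  obtain ⟨k, k', hne, e⟩ := Finite.exists_ne_map_eq_of_infinite t
  have := (ht k).symm.trans (e ▸ ht k')
  exact hne (Nat.cast_injective (R := ℝ) (mul_right_cancel₀ h0 (by linarith)))

/-- normal subgroups of `L₁` which are abelian modulo `M` -/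
theorem P2 {N : Subgroup G} (h1 : N ≤ E.L₁) (hN : ∀ l ∈ E.L₁, ∀ x ∈ N, l * x * l⁻¹ ∈ N)
    (hc : ∀ x ∈ N, ∀ y ∈ N, x * y * x⁻¹ * y⁻¹ ∈ D.M) : N ≤ D.M := by
  refine p.C1 h h1 hN (by_contra fun hP => ?_)
  obtain ⟨z, hz, v, hv, hν⟩ := p.C2 h h1 hN hP
  obtain ⟨a, ha, ha1, h0⟩ := p.exists_a h
  have hvL : v ∈ E.L := by
    have := p.L₁L (h1 hν)
    rwa [E.L.mul_mem_cancel_left p.nL, E.L.mul_mem_cancel_left (p.ZL hz)] at this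
  have hm := hc _ hν _ (N.mul_mem (N.inv_mem hν) (hN a ha1 _ hν))
  have h2 := D.Z.mul_mem (D.Z.mul_mem hz (D.Z.inv_mem ha)) (D.Z.inv_mem hz)
  obtain ⟨b, hb⟩ : ∃ b, b = E.n⁻¹ * a * E.n * (z * a⁻¹ * z⁻¹) := ⟨_, rfl⟩
  obtain ⟨r, hr⟩ : ∃ r, r = z * (a * v * a⁻¹ * v⁻¹) * z⁻¹ := ⟨_, rfl⟩
  have hbZ : b ∈ D.Z := hb ▸ D.Z.mul_mem (p.nZ' ha) h2
  have hb1 : b ∈ E.L₁ := hb ▸ E.L₁.mul_mem (E.L₁.mul_mem (E.L₁.mul_mem (E.L₁.inv_mem p.n₁) ha1)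
    p.n₁) (p.conj₁ (p.ZL hz) (E.L₁.inv_mem ha1))
  have hrJ : r ∈ D.J := hr ▸ h.cell.nJ z hz _ (D.J.mul_mem (h.cell.nJ a ha v hv) (D.J.inv_mem hv))
  have hrL : r ∈ E.L := hr ▸ E.L.mul_mem (E.L.mul_mem (p.ZL hz) (p.L₁L (p.ab₁ a (p.ZL ha) v hvL)))
    (E.L.inv_mem (p.ZL hz))
  have hc' := (p.nZ b).1 hbZ
  have hw : E.n * r * E.n⁻¹ ∈ D.I := by
    convert h.cell.nI _ p.nn _ (p.nJ' hrJ hrL) using 1; group
  have hy := D.Z.mul_mem (D.Z.mul_mem (D.Z.inv_mem hz) hbZ) hz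
  have := (h.cell.eq (h.cell.nI _ hc' _ hw) hc' D.J.one_mem D.I.one_mem
    (D.Z.mul_mem (h.MZ hm) hy) (D.J.mul_mem (D.J.mul_mem (h.cell.nJ' hy (D.J.inv_mem hv))
      (h.cell.nJ' hz hrJ)) hv) (by rw [hb, hr]; group)).2.1
  have e2 := congrArg E.χ this
  rw [p.χn h hbZ hb1, p.χmul _ (h.MZ hm) _ hy, p.χM h hm,
    p.χmul _ (D.Z.mul_mem (D.Z.inv_mem hz) hbZ) z hz, p.χmul _ (D.Z.inv_mem hz) b hbZ,
    p.χinv hz, hb, p.χmul _ (p.nZ' ha) _ h2, p.χn' h ha ha1,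
    p.χmul _ (D.Z.mul_mem hz (D.Z.inv_mem ha)) _ (D.Z.inv_mem hz),
    p.χmul _ hz _ (D.Z.inv_mem ha), p.χinv ha, p.χinv hz] at e2
  exact h0 (by linarith)

end Pn

end Vale.Agent.P092MG
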