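import Vale.Agent.P092MG.Alg
import Vale.Agent.P092MG.Gall

/-!
P092, E4 and E5: all translates of the boundary measure commute.
-/

set_option linter.all false

open scoped InnerProductSpace ENNReal NNReal
open MeasureTheory Filter Topology ContinuousLinearMap

namespace Vale.Agent.P092MG

open Vale.Agent.P092.RC (Cm)
open Vale.Agent.P092CP

variable {G G' K : Type} [Group G] [TopologicalSpace G] [IsTopologicalGroup G]
  [LocallyCompactSpace G] [SecondCountableTopology G] [T2Space G] [MeasurableSpace G] [BorelSpace G]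
  [Group G'] [TopologicalSpace G'] [IsTopologicalGroup G'] [LocallyCompactSpace G']
  [SecondCountableTopology G'] [T2Space G'] [MeasurableSpace G'] [BorelSpace G']
  [NormedAddCommGroup K] [InnerProductSpace ℂ K] [CompleteSpace K] {μ : Measure G}
  [μ.IsHaarMeasure] {μ' : Measure G'} [μ'.IsHaarMeasure] {W : Set (K →L[ℂ] K)}
  {C : Cpl μ μ' W} {D : MnD G} {D' : MnD G'} {E : PnD G} {E' : PnD G'}
  {θ : Set G' → K →L[ℂ] K} {Θ : Set G → K →L[ℂ] K} {c q x y z : K →L[ℂ] K}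

namespace Ctx

variable (X : Ctx C D D' E E' θ Θ z)
include X

theorem af_kill {ν : Measure E.L₁} {ν' : Measure E'.L₁} [ν.IsMulRightInvariant]
    (n : Nm C D E E' θ Θ z q ν ν') (hc : c * z = c)
    (h : ∀ f, Af C D E E' θ Θ z q f → c * f = 0) : c = 0 := by
  obtain ⟨b, a1, a2, a3, a4⟩ := n.ex
  rw [← hc, ← star_eq_zero, star_mul, X.pz.sa]
  refine ContinuousLinearMap.ext fun ξ => ?_
  have e : ∀ l : E.L₁, cj C.s.π l.1 b (star c ξ) = 0 := fun l => by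
    have := congrArg star (h _ ((X.alg n).star_mem' (X.af_cjS n l.2 ⟨a1, a2, a4⟩)))
    rw [star_mul, star_star, star_zero] at this
    exact ap_eq this ξ
  have h0 : C.t.Tr (b * q) ≠ 0 := fun e => a3 (n.inj b a1 e)
  simpa [e, h0] using (n.s b a1 (star c ξ)).symm

theorem bs_comm (hx : Bs C E E' θ Θ z x) (fx : Fk C D E x) (hy : Bs C E E' θ Θ z y)
    (fy : Fk C D E y) : x * y = y * x := by
  obtain ⟨q, ν, ν', _, _, _, _, _, n⟩ := X.exists_nm
  refine sub_eq_zero.1 (X.af_kill n (by rw [sub_mul, mul_assoc, mul_assoc, hx.z1, hy.z1])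
    fun g hg => X.af_kill n (by rw [mul_assoc, hg.1.z1]) fun f hf => ?_)
  rw [sub_mul, sub_mul, sub_eq_zero]
  calc x * y * g * f = x * (y * g * f) := by simp only [mul_assoc]
    _ = x * f * (y * g) := by rw [← X.af_comm n hf (X.af_left hy fy hg), mul_assoc]
    _ = y * (g * (x * f)) := by
      rw [X.af_comm n (X.af_left hx fx hf) (X.af_left hy fy hg), mul_assoc]
    _ = _ := by
      rw [X.af_comm n hg (X.af_left hx fx hf), mul_assoc x, X.af_comm n hf hg]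
      simp only [mul_assoc]

theorem bw_comm (hx : Bw C E E' θ Θ z x) (fx : Fk C D E x) (hy : Bw C E E' θ Θ z y)
    (fy : Fk C D E y) : x * y = y * x := by
  obtain ⟨T, T', t1, t2, -, -, t5⟩ := X.approx
  have le : ∀ x n, ‖av C.t.π (T' n ⊓ E'.L₁) (av C.s.π (T n ⊓ E.L₁) x)‖ ≤ ‖x‖ := fun x n =>
    (av_le (ur C.t) ((t2 n).2.inter_right X.p'.closed₁)).trans
      (av_le (ur C.s) ((t1 n).2.inter_right X.p.closed₁))
  refine ContinuousLinearMap.ext fun ξ => ?_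
  have a1 := tendsto_ap (le x) (t5 x (y ξ)) (t5 y ξ)
  have a2 := tendsto_ap (le y) (t5 y (x ξ)) (t5 x ξ)
  exact tendsto_nhds_unique a1 (a2.congr fun n => ap_eq (X.bs_comm
      (X.bs_av hy (t1 n).1 (t1 n).2 (t2 n).1 (t2 n).2) (X.fk_av fy (t1 n).2 (t2 n).2)
      (X.bs_av hx (t1 n).1 (t1 n).2 (t2 n).1 (t2 n).2) (X.fk_av fx (t1 n).2 (t2 n).2)) ξ)

theorem core (hx : Bw C E E' θ Θ z x) (fx : Fk C D E x) (hy : Bw C E E' θ Θ z y)
    (fy : Fk C D E y) {w : G'} (hw : w ∈ E'.L) : cj C.t.π w x * y = y * cj C.t.π w x := by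
  by_cases h : w ∈ E'.L₁
  · exact X.bw_comm (X.bw_cjT hx h) (fx.cjT w) hy fy
  have hz := X.p'.ri₁ X.h'
  have d : ∀ x ∈ lt w (cK E'.I E'.L₁ E'.J), x ∉ cK E'.I E'.L₁ E'.J :=
    fun x b ⟨v, d, l, f, w', g, j⟩ => h (by
      simpa using E'.L₁.mul_mem f (E'.L₁.inv_mem ((X.p'.cell.lt_cK X.p'.L₁L d (X.p'.L₁L f) g
        hw).1 (j ▸ b))))
  have e1 : cj C.t.π w z * z = 0 := by
    rw [X.zt, X.m.t.cov _ _ hz]; exact X.m.t.op.disj (hz.lt _) hz d
  have e2 : z * cj C.t.π w z = 0 := by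
    rw [X.zt, X.m.t.cov _ _ hz]; exact X.m.t.op.disj hz (hz.lt _) fun x a b => d x b a
  calc _ = cj C.t.π w (x * z) * (z * y) := by rw [hx.z1, hy.z2]
    _ = y * z * cj C.t.π w (z * x) := by
      rw [cj_mul, cj_mul, mul_assoc, ← mul_assoc _ z, e1, mul_assoc, ← mul_assoc z, e2]
      simp
    _ = _ := by rw [hx.z2, hy.z1]

/-- **E4: commutation across a panel.** -/
theorem cmg {l : G} (hl : l ∈ E.L₁) : Cmg C D' θ l := fun A B hA hB => by
  have q : ∀ l ∈ E.L₁, ∀ A, RI D'.H A → ∀ B, RI E'.Q B →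
      cj C.s.π l (θ A) * θ B = θ B * cj C.s.π l (θ A) := fun l hl A hA B hB => by
    rw [← X.agS l hl B hB, ← cj_mul, ← cj_mul, X.m.t.op.comm hA (hB.mono (X.p'.HQ X.h'))]
  have hM := X.h'.ri_M
  refine X.p'.gen2 X.h' X.m.t.op X.m.t.full (fun s hs => cj_inj (π := C.s.π) l⁻¹ ?_)
    (q l hl A hA) hB
  rw [cj_mul, cj_mul, cj_inv_cj]
  refine (X.p'.gen2 X.h' X.m.t.op X.m.t.full (fun t ht => cj_inj (π := C.t.π) t⁻¹ ?_)
    (q _ (E.L₁.inv_mem hl) _ (hM.lt s)) hA).symm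
  rw [cj_mul, cj_mul, ← X.m.t.cov _ _ hM, ← X.m.t.cov _ _ hM, cj_inv_cj, cj_st, cj_cj]
  exact X.core (X.bw_cjS X.bw_p (E.L₁.inv_mem hl)) (X.fk_p.cjS (E.L₁.inv_mem hl)) X.bw_p X.fk_p
    (E'.L.mul_mem (E'.L.inv_mem ht) hs)

end Ctx

/-- **E4 and E5: all translates of the boundary measure commute.** -/
theorem all_comm {σ σ' : Type} {Es : σ → PnD G} {Es' : σ' → PnD G'} {N : ℕ} {τ : ℕ → σ}
    {w : ℕ → G} (b : Bld D Es) (b' : Bld D' Es') (ga : Gal D Es N τ w) (m : Mag C D D' θ Θ)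
    (e : ∀ i, Erg C (Es i).I) (e' : ∀ j, Erg C.swap (Es' j).I) (g : G) : Cmg C D' θ g :=
  gallery b.mn b'.mn m ga (fun i => by
    obtain ⟨j, t⟩ := typ b.mn m (b.pn i) b' (e i)
    have X : Ctx C D D' (Es i) (Es' j) θ Θ _ := ⟨b.mn, b'.mn, m, b.pn i, b'.pn j, e i, e' j,
      fun l hl A hA => agr b.mn m (b.pn i) b' t hl hA,
      fun l hl A hA => agr b'.mn m.swap (b'.pn j) b (t.swap b.mn b'.mn m) hl hA, rfl,
      ht₁ b.mn b'.mn m (b.pn i) (b'.pn j) t⟩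
    exact ⟨_, b.pn i, b'.pn j, e i, X.agS _ (b.pn i).n₁, X.cmg (b.pn i).n₁⟩) g

end Vale.Agent.P092MG
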