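import Vale.Agent.P092MG.Bi

/-!
P092, E4: the normalised trace (interface).
-/

set_option linter.all false

open scoped InnerProductSpace ENNReal NNReal
open MeasureTheory Filter Topology ContinuousLinearMap

namespace Vale.Agent.P092MG

open Vale.Agent.P092.RC (Cm)
open Vale.Agent.P092CP

variable {G G' K : Type} [Group G] [TopologicalSpace G] [MeasurableSpace G] [Group G']
  [TopologicalSpace G'] [MeasurableSpace G'] [NormedAddCommGroup K] [InnerProductSpace ℂ K]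
  [CompleteSpace K] {μ : Measure G} {μ' : Measure G'} {W : Set (K →L[ℂ] K)}

/-- the integrals over both Levi groups are the trace `a ↦ Tr (a q)` -/
structure Nm (C : Cpl μ μ' W) (D : MnD G) (E : PnD G) (E' : PnD G') (θ : Set G' → K →L[ℂ] K)
    (Θ : Set G → K →L[ℂ] K) (z q : K →L[ℂ] K) (ν : Measure E.L₁) (ν' : Measure E'.L₁) : Prop where
  cm : Cm W q
  s : ∀ a, Bs C E E' θ Θ z a → ∀ ξ,
    ∫⁻ l, ‖cj C.s.π l.1 a ξ‖ₑ ^ 2 ∂ν = C.t.Tr (a * q) * ‖z ξ‖ₑ ^ 2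
  t : ∀ a, Bs C E E' θ Θ z a → ∀ ξ,
    ∫⁻ l, ‖cj C.t.π l.1 a ξ‖ₑ ^ 2 ∂ν' = C.t.Tr (a * q) * ‖z ξ‖ₑ ^ 2
  st : ∀ a, Bs C E E' θ Θ z a → C.t.Tr (star a * q) = C.t.Tr (a * q)
  inj : ∀ a, Bs C E E' θ Θ z a → C.t.Tr (a * q) = 0 → a = 0
  ex : ∃ b, Bs C E E' θ Θ z b ∧ Fk C D E b ∧ b ≠ 0 ∧ C.t.Tr (b * q) ≠ ∞

/-- the elements of finite trace -/
def Af (C : Cpl μ μ' W) (D : MnD G) (E : PnD G) (E' : PnD G') (θ : Set G' → K →L[ℂ] K)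
    (Θ : Set G → K →L[ℂ] K) (z q a : K →L[ℂ] K) : Prop :=
  Bs C E E' θ Θ z a ∧ Fk C D E a ∧ C.t.Tr (a * q) ≠ ∞

end Vale.Agent.P092MG
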