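import Vale.Agent.P092MG.Nm

/-!
P092, E4: normalisation of the trace.
-/

set_option linter.all false

open scoped InnerProductSpace ENNReal NNReal
open MeasureTheory Filter Topology ContinuousLinearMap

namespace Vale.Agent.P092MG

open Vale.Agent.P092.RC (Cm)
open Vale.Agent.P092CP

variable {G G' K : Type} [Group G] [TopologicalSpace G] [IsTopologicalGroup G]
  [LocallyCompactSpace G] [SecondCountableTopology G] [T2Space G] [MeasurableSpace G] [BorelSpace G]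
  [Group G'] [TopologicalSpace G'] [IsTopologicalGroup G'] [LocallyCompactSpace G']
  [SecondCountableTopology G'] [T2Space G'] [MeasurableSpace G'] [BorelSpace G']
  [NormedAddCommGroup K] [InnerProductSpace ℂ K] [CompleteSpace K] {μ : Measure G}
  [μ.IsHaarMeasure] {μ' : Measure G'} [μ'.IsHaarMeasure] {W : Set (K →L[ℂ] K)}
  {C : Cpl μ μ' W} {D : MnD G} {D' : MnD G'} {E : PnD G} {E' : PnD G'}
  {θ : Set G' → K →L[ℂ] K} {Θ : Set G → K →L[ℂ] K} {a b p r x y z : K →L[ℂ] K}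
  {U : Subgroup G} {U' : Subgroup G'}

theorem tr_flip (ha : Cm W a) (hp : Cm W p) (hr : Cm W r) (sp : star p = p) (sr : star r = r)
    (h1 : a * p = p * a) (h2 : a * r = r * a) : C.t.Tr (a * (p * r)) = C.t.Tr (a * (r * p)) ∧
    C.t.Tr (star a * (p * r)) = C.t.Tr (a * (p * r)) := by
  have key : ∀ a, Cm W a → a * p = p * a → a * r = r * a →
      C.t.Tr (star a * (p * r)) = C.t.Tr (a * (r * p)) := fun a ha h1 h2 => by
    rw [← C.tr_adj (star a * (p * r)) (cm_mul (C.adj_cm ha) (cm_mul hp hr)), ← star_eq_adjoint,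
      star_mul, star_mul, star_star, sp, sr, mul_assoc, ← h1, ← mul_assoc, ← h2, mul_assoc]
  have sa : star (CFC.abs a) = CFC.abs a := (CFC.abs_nonneg a).isSelfAdjoint
  have nm : ∀ x, C.t.Tr (a * x) = C.t.Tr (CFC.abs a * x) := fun x => C.t.Tr_congr fun ξ => by
    rw [mul_ap, mul_ap, apply_norm_eq_sqrt_inner_adjoint_left,
      apply_norm_eq_sqrt_inner_adjoint_left, ← star_eq_adjoint, ← star_eq_adjoint, sa, ← mul_def,
      ← mul_def, CFC.abs_mul_abs]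
  have e : C.t.Tr (a * (p * r)) = C.t.Tr (a * (r * p)) := by
    rw [nm, nm, ← key _ (fun w hw => (Commute.cfcAbs_left (ha w hw) (ha _ (C.Wadj w hw))).eq)
      (Commute.cfcAbs_left h1 (sp.symm ▸ h1)).eq (Commute.cfcAbs_left h2 (sr.symm ▸ h2)).eq, sa]
  exact ⟨e, (key a ha h1 h2).trans e.symm⟩

theorem Ow.kill {I L J Q : Subgroup G'} {π : G' →* (K →L[ℂ] K)} (o : Ow π I L J Q θ)
    (u1 : IsOpen (U' : Set G')) (ξ : K)
    (h : ∀ u ∈ I, θ (lt u (cs I L J U' Set.univ)) ξ = 0) : ξ = 0 := by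
  obtain ⟨κ, _, u, hu⟩ := exists_rp (opIn_inf u1 : OpIn (U' ⊓ I) I)
  simpa [h _ (hu.1 _)] using o.part_cs u1 hu ξ

namespace Ctx

variable (X : Ctx C D D' E E' θ Θ z)
include X

theorem kill (ha : Bs C E E' θ Θ z a) (u1 : IsOpen (U' : Set G'))
    (hx : ∀ u ∈ E'.I, cj C.t.π u x = x)
    (h0 : a * (θ (cs E'.I E'.L E'.J U' Set.univ) * x) = 0) : a * x = 0 := by
  obtain ⟨N, i, j⟩ := ha.t
  have hE := X.p'.cell.ri_cs u1
  refine ContinuousLinearMap.ext fun ξ => X.ot.kill u1 _ fun u hu => ?_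
  have := congrArg (cj C.t.π u) h0
  rw [cj_mul, cj_mul, X.ot.sm_fixI i j hu, X.ot.cov _ _ hE, hx u hu, cj_zero, ← mul_assoc,
    j.cme _ (hE.lt u), mul_assoc] at this
  exact ap_eq this ξ

theorem nrm (u1 : IsOpen (U : Set G)) (u1' : IsOpen (U' : Set G')) (u2' : IsCompact (U' : Set G'))
    {τ : (K →L[ℂ] K) → ℝ≥0∞} {c : ℝ≥0∞} (c0 : c ≠ 0) (c1 : c ≠ ∞)
    (hτ : ∀ a, Bs C E E' θ Θ z a → C.t.Tr (a * (θ (cs E'.I E'.L E'.J U' Set.univ) *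
      Θ (cs E.I E.L E.J U Set.univ))) = c * τ a) (hb : Bs C E E' θ Θ z b) (b0 : τ b ≠ 0)
    (b1 : τ b ≠ ∞) : ∃ ν : Measure E'.L₁, ν.IsHaarMeasure ∧ ν.IsMulRightInvariant ∧
      ν.IsInvInvariant ∧ ∀ a, Bs C E E' θ Θ z a → ∀ ξ,
        ∫⁻ l, ‖cj C.t.π l.1 a ξ‖ₑ ^ 2 ∂ν = τ a * ‖z ξ‖ₑ ^ 2 := by
  have hE := X.p.cell.ri_cs u1
  haveI : LocallyCompactSpace E'.L₁ := X.p'.closed₁.locallyCompactSpace
  obtain ⟨ν, _, _, _⟩ := X.p'.exists_haar X.h' X.p'.closed₁ le_rfl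
    fun g hg => ⟨1, D'.I.one_mem, g, hg, by simp⟩
  obtain ⟨κ, hκ⟩ := side X.h' X.p' X.cov X.erg u1' u2' (e := Θ (cs E.I E.L E.J U Set.univ))
    (fun u hu => X.m.s.invI u (X.p'.II hu) _ (hE.mono (X.p.HQ X.h)))
    (fun l hl => X.agT l hl _ hE) ν
  have key : ∀ a, Bs C E E' θ Θ z a → ∃ φ, (∀ ξ, ∫⁻ l, ‖cj C.t.π l.1 a ξ‖ₑ ^ 2 ∂ν =
      φ * ‖z ξ‖ₑ ^ 2) ∧ c * τ a = φ * κ := fun a ha => by
    obtain ⟨N, i, j⟩ := ha.t
    obtain ⟨N₁, i₁, j₁⟩ := ha.s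
    rw [← hτ a ha, ← mul_assoc, X.zt]
    exact hκ a N i j ha.cm (fun s hs => X.os.sm_fixI i₁ j₁ hs) (X.zt ▸ ha.z1)
  obtain ⟨φ, -, e⟩ := key b hb
  have e0 : φ * κ ≠ 0 := e ▸ mul_ne_zero c0 b0
  have e1 : φ * κ ≠ ∞ := e ▸ ENNReal.mul_ne_top c1 b1
  haveI := Measure.IsHaarMeasure.smul ν (c := c⁻¹ * κ)
    (mul_ne_zero (ENNReal.inv_ne_zero.2 c1) (right_ne_zero_of_mul e0))
    (ENNReal.mul_ne_top (ENNReal.inv_ne_top.2 c0) fun h =>
      e1 (by rw [h, ENNReal.mul_top (left_ne_zero_of_mul e0)]))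
  refine ⟨(c⁻¹ * κ) • ν, this, inferInstance, invInv _, fun a ha ξ => ?_⟩
  obtain ⟨φ, h1, h2⟩ := key a ha
  rw [lintegral_smul_measure, h1, smul_eq_mul, ← mul_assoc, mul_assoc _ κ, mul_comm κ, ← h2,
    ← mul_assoc, ENNReal.inv_mul_cancel c0 c1, one_mul]

/-- **The normalised trace.** -/
theorem exists_nm : ∃ (q : K →L[ℂ] K) (ν : Measure E.L₁) (ν' : Measure E'.L₁),
    ν.IsHaarMeasure ∧ ν.IsMulRightInvariant ∧ ν'.IsHaarMeasure ∧ ν'.IsMulRightInvariant ∧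
    ν'.IsInvInvariant ∧ Nm C D E E' θ Θ z q ν ν' := by
  obtain ⟨U, U', b, u1, u2, u1', u2', hb, fb, b0, b1⟩ := X.exists_b
  have hE := X.p.cell.ri_cs u1
  have hE' := X.p'.cell.ri_cs u1'
  have c := X.m.s.cm _ (hE.mono (X.p.HQ X.h))
  have c' := X.m.t.cm _ (hE'.mono (X.p'.HQ X.h'))
  have fl := fun a (ha : Bs C E E' θ Θ z a) => tr_flip (C := C) ha.cm c' c (X.ot.op.sa _ hE')
    (X.os.op.sa _ hE) (ha.t.choose_spec.2.cme _ hE') (ha.s.choose_spec.2.cme _ hE)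
  have inj : ∀ a, Bs C E E' θ Θ z a → C.t.Tr (a * (θ (cs E'.I E'.L E'.J U' Set.univ) *
      Θ (cs E.I E.L E.J U Set.univ))) = 0 → a = 0 := fun a ha h0 => by
    simpa using X.swap.kill ha.swap u1 (x := 1) (fun u _ => cj_one u) (by
      rw [mul_one]
      exact X.kill ha u1' (fun u hu => X.m.s.invI u (X.p'.II hu) _ (hE.mono (X.p.HQ X.h)))
        (C.tr_zero _ (cm_mul ha.cm (cm_mul c' c)) h0))
  rw [mul_assoc] at b1
  obtain ⟨ν', a1, a2, a3, a4⟩ := X.nrm u1 u1' u2' one_ne_zero ENNReal.one_ne_top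
    (fun a _ => (one_mul _).symm) hb (fun e => b0 (inj b hb e)) b1
  obtain ⟨ν, d1, d2, -, d4⟩ := X.swap.nrm u1' u1 u2 C.κ_ne' ENNReal.coe_ne_top
    (τ := fun a => C.t.Tr (a * (θ (cs E'.I E'.L E'.J U' Set.univ) *
      Θ (cs E.I E.L E.J U Set.univ)))) (fun a ha => by
        rw [(fl a ha.swap').1]
        exact C.tr_eq _ (cm_mul ha.cm (cm_mul c c'))) hb.swap (fun e => b0 (inj b hb e)) b1
  exact ⟨_, ν, ν', d1, d2, a1, a2, a3, cm_mul c' c, fun a ha => d4 a ha.swap, a4,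
    fun a ha => (fl a ha).2, inj, b, hb, fb, b0, b1⟩

end Ctx

end Vale.Agent.P092MG
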