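import Vale.Agent.P092MG.Rel
import Vale.Agent.P092MG.Atom
import Vale.Agent.P092MG.Sheet

/-!
P092, E5: two adjacent measures, their atoms, and the commutation across two distinct walls.
-/

set_option linter.all false

open scoped InnerProductSpace ENNReal NNReal
open MeasureTheory Filter Topology ContinuousLinearMap

namespace Vale.Agent.P092MG

open Vale.Agent.P092.RC (Cm)
open Vale.Agent.P092CP

variable {G G' K : Type} [Group G] [TopologicalSpace G] [IsTopologicalGroup G]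
  [LocallyCompactSpace G] [SecondCountableTopology G] [T2Space G] [MeasurableSpace G] [BorelSpace G]
  [Group G'] [TopologicalSpace G'] [IsTopologicalGroup G'] [LocallyCompactSpace G']
  [SecondCountableTopology G'] [T2Space G'] [MeasurableSpace G'] [BorelSpace G']
  [NormedAddCommGroup K] [InnerProductSpace ℂ K] [CompleteSpace K] {μ : Measure G}
  [μ.IsHaarMeasure] {μ' : Measure G'} [μ'.IsHaarMeasure] {W : Set (K →L[ℂ] K)}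
  {C : Cpl μ μ' W} {S S' : Subgroup G} {D₀ : MnD G} {D : MnD G'} {E E' : PnD G'}
  {θ₁ θ₂ θ₃ θ₄ : Set G' → K →L[ℂ] K} {N N' : Subgroup G'} {t t' ν : G'} {F B F' B' : Set G'}

/-- the two measures commute -/
def Cc (H : Subgroup G') (θ₁ θ₂ : Set G' → K →L[ℂ] K) : Prop :=
  ∀ A B, RI H A → RI H B → θ₁ A * θ₂ B = θ₂ B * θ₁ A

theorem Cc.symm {H : Subgroup G'} (h : Cc H θ₁ θ₂) : Cc H θ₂ θ₁ :=
  fun A B a b => (h B A b a).symm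

/-- two adjacent measures -/
structure Pr (C : Cpl μ μ' W) (D : MnD G') (E : PnD G') (S : Subgroup G)
    (θ₁ θ₂ : Set G' → K →L[ℂ] K) : Prop where
  h : Mn D
  p : Pn D E
  erg : Erg C S
  c₁ : Cov C D S θ₁
  c₂ : Cov C D S θ₂
  comm : Cc D.H θ₁ θ₂
  agr : ∀ A, RI E.Q A → θ₁ A = θ₂ A
  dif : ¬∀ A, RI D.P A → θ₁ A = θ₂ A

/-- the pair of measures is carried by the label `ν` -/
def Ker (D : MnD G') (E : PnD G') (θ₁ θ₂ : Set G' → K →L[ℂ] K) (ν : G') : Prop :=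
  ∀ ξ, (∀ F B, Lb D E ν F B → θ₁ F (θ₂ B ξ) = 0) → ξ = 0

/-- atoms -/
def At (D : MnD G') (E : PnD G') (θ₁ θ₂ : Set G' → K →L[ℂ] K) (N : Subgroup G') (ν : G')
    (x : K →L[ℂ] K) : Prop := ∃ F B, Sh D E N ν F B ∧ x = θ₁ F * θ₂ B

namespace Pr

variable (r : Pr C D E S θ₁ θ₂)
include r

theorem pj (a : RI D.H F) (b : RI D.H B) : Pj (θ₁ F * θ₂ B) :=
  (r.c₁.op.pj a).mul (r.c₂.op.pj b) (r.comm F B a b)

theorem mul (a : RI D.H F) (b : RI D.H B) (a' : RI D.H F') (b' : RI D.H B') :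
    θ₁ F * θ₂ B * (θ₁ F' * θ₂ B') = θ₁ (F ∩ F') * θ₂ (B ∩ B') := by
  rw [r.c₁.op.inter _ _ a a', r.c₂.op.inter _ _ b b', mul_assoc, ← mul_assoc (θ₂ B),
    ← r.comm F' B a' b]
  simp only [mul_assoc]

theorem null {x y : G'} (hq : x⁻¹ * y ∉ E.Q) :
    ∃ F B, RI D.H F ∧ RI D.H B ∧ x ∈ F ∧ y ∈ B ∧ θ₁ F * θ₂ B = 0 := by
  have hc : Continuous fun z : G' × G' => z.1⁻¹ * z.2 := by fun_prop
  obtain ⟨U, V, a, b, c, d, e⟩ := isOpen_prod_iff.1 (r.p.cell.clQ.isOpen_compl.preimage hc) x y hq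
  have hU : RI E.Q (sat E.Q U) := ri_sat a
  have hV : RI E.Q (sat E.Q V) := ri_sat b
  refine ⟨_, _, hU.mono (r.p.HQ r.h), hV.mono (r.p.HQ r.h), subset_sat U c, subset_sat V d, ?_⟩
  rw [r.agr _ hU]
  refine r.c₂.op.disj (hU.mono (r.p.HQ r.h)) (hV.mono (r.p.HQ r.h))
    fun w ⟨q, i, j⟩ ⟨q', i', j'⟩ => e (Set.mk_mem_prod j j') ?_
  simpa [mul_assoc] using E.Q.mul_mem (E.Q.inv_mem i) i'

theorem loc (a : RI D.H F) (b : RI D.H B) {η : K}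
    (h0 : ∀ x ∈ F, x ∈ D.Ω → ∀ y ∈ B, x⁻¹ * y ∈ E.Q →
      ∃ F' B', RI D.H F' ∧ RI D.H B' ∧ x ∈ F' ∧ y ∈ B' ∧ θ₁ F' (θ₂ B' η) = 0) :
    θ₁ F (θ₂ B η) = 0 := by
  have hΩ := r.h.ri_Ω.mono r.h.HP
  rw [r.c₁.op.congr_full hΩ r.c₁.full a (a.inter hΩ) fun x hx => by simp [hx]]
  refine r.c₁.op.loc_zero2 r.c₂.op r.comm (a.inter hΩ) b fun x hx y hy => ?_
  by_cases hq : x⁻¹ * y ∈ E.Q
  · exact h0 x hx.1 hx.2 y hy hq
  · obtain ⟨F', B', c, d, e, f, g⟩ := r.null hq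
    exact ⟨F', B', c, d, e, f, ap_eq g η⟩

theorem cong (a : RI D.H F) (b : RI D.H B) (a' : RI D.H F') (b' : RI D.H B')
    (e : ∀ x ∈ F, ∀ y ∈ B, x⁻¹ * y ∈ E.Q → x ∈ F' ∧ y ∈ B') :
    θ₁ F * θ₂ B * (θ₁ F' * θ₂ B') = θ₁ F * θ₂ B := ContinuousLinearMap.ext fun ξ => by
  have := r.loc a b (η := ξ - (θ₁ F' * θ₂ B') ξ) fun x hx _ y hy hq =>
    ⟨F', B', a', b', (e x hx y hy hq).1, (e x hx y hy hq).2, by
      rw [← mul_ap, map_sub, (r.pj a' b').ap, sub_self]⟩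
  rw [← mul_ap, map_sub, sub_eq_zero] at this
  exact this.symm

theorem eq (a : RI D.H F) (b : RI D.H B) (a' : RI D.H F') (b' : RI D.H B')
    (e : ∀ x y, x⁻¹ * y ∈ E.Q → (x ∈ F ∧ y ∈ B ↔ x ∈ F' ∧ y ∈ B')) :
    θ₁ F * θ₂ B = θ₁ F' * θ₂ B' := by
  rw [← r.cong a b a' b' fun x hx y hy hq => (e x y hq).1 ⟨hx, hy⟩, r.mul a b a' b',
    Set.inter_comm F, Set.inter_comm B, ← r.mul a' b' a b,
    r.cong a' b' a b fun x hx y hy hq => (e x y hq).2 ⟨hx, hy⟩]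

theorem zero (a : RI D.H F) (b : RI D.H B) (e : ∀ x ∈ F, ∀ y ∈ B, x⁻¹ * y ∉ E.Q) :
    θ₁ F * θ₂ B = 0 :=
  ContinuousLinearMap.ext fun ξ => r.loc a b fun x hx _ y hy hq => absurd hq (e x hx y hy)

theorem exists_label : ∃ t ∈ D.Z, Ker D E θ₁ θ₂ (E.n * t) := by
  by_contra! hn
  have h0 : ∀ t ∈ D.Z, ∀ F B, Lb D E (E.n * t) F B → θ₁ F * θ₂ B = 0 := fun t ht F B a => by
    refine (ker_01 r.erg (Ps := {x | ∃ F B, Lb D E (E.n * t) F B ∧ x = θ₁ F * θ₂ B}) ?_ ?_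
      ?_).resolve_right (fun b => hn t ht fun ξ c => b ξ ?_) _ ⟨F, B, a, rfl⟩
    · rintro _ ⟨F, B, a, rfl⟩
      exact cm_mul (r.c₁.cm F a.rF) (r.c₂.cm B a.rB)
    · rintro g _ ⟨F, B, a, rfl⟩
      exact ⟨_, _, a.lt g, by rw [cj_mul, r.c₁.cov g F a.rF, r.c₂.cov g B a.rB]⟩
    · rintro s hs _ ⟨F, B, a, rfl⟩
      rw [cj_mul, r.c₁.fix s hs F a.rF, r.c₂.fix s hs B a.rB]
    · rintro _ ⟨F, B, a, rfl⟩
      exact c F B a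
  have h1 : ∀ A A', RI D.P A → RI D.P A' → (∀ x ∈ A, x ∉ A') → θ₁ A * θ₂ A' = 0 :=
    fun A A' a a' hd => ContinuousLinearMap.ext fun ξ =>
      r.loc (a.mono r.h.HP) (a'.mono r.h.HP) fun x hx _ y hy hq => by
        obtain ⟨l, b, v, c, e⟩ := (r.p.cell.memQ _).1 hq
        have hv := r.h.JP (r.p.JJ c)
        rcases r.p.bru l b with d | d
        · refine absurd ((a'.iff (D.P.mul_mem d hv)).1 ?_) (hd x hx)
          rwa [← e, mul_inv_cancel_left]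
        obtain ⟨t, ht, f⟩ := r.h.cover (r.h.ri_Ω.2 _ d v hv)
        obtain ⟨F, B, g, i, j⟩ := r.p.exists_lb r.h ht ((r.p.lab_iff r.h ht).2
          ⟨hq, by simpa [e, mul_assoc] using f _ r.h.MZ⟩)
        exact ⟨F, B, g.rF, g.rB, i, j, ap_eq (h0 t ht F B g) ξ⟩
  have h2 : ∀ A, RI D.P A → RI D.P Aᶜ → θ₁ A = θ₂ A := fun A a b => by
    have u : ∀ θ : Set G' → K →L[ℂ] K, OP D.H θ → θ A + θ Aᶜ = 1 := fun θ o => by
      have := o.union _ _ (a.mono r.h.HP) (b.mono r.h.HP)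
      rwa [Set.union_compl_self, o.univ, o.disj (a.mono r.h.HP) (b.mono r.h.HP) fun x hx c => c hx,
        sub_zero, eq_comm] at this
    rw [← mul_one (θ₁ A), ← u θ₂ r.c₂.op, mul_add, h1 A Aᶜ a b fun x hx c => c hx, add_zero]
    conv_rhs => rw [← one_mul (θ₂ A), ← u θ₁ r.c₁.op, add_mul, h1 Aᶜ A b a fun x hx => hx, add_zero]
  refine r.dif fun A hA => ?_
  have key : ∀ x : A, ∃ V, RI D.P V ∧ RI D.P Vᶜ ∧ x.1 ∈ V ∧ V ⊆ A := fun x => by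
    obtain ⟨T, a, -, b⟩ := r.h.td _ ((hA.1.preimage (continuous_mul_const x.1)).mem_nhds
      (by simp))
    have hT : IsOpen (rt x.1⁻¹ (T : Set G')) := a.preimage (continuous_mul_const _)
    refine ⟨sat D.P (rt x.1⁻¹ T), ri_sat hT, ⟨isOpen_iff_forall_mem_open.2 fun y hy =>
      ⟨rt y⁻¹ T, fun w hw ⟨q, c, d⟩ => hy ⟨q, c, ?_⟩, a.preimage (continuous_mul_const _),
        by simp⟩, fun y hy q hq c => hy (((ri_sat hT).iff hq).1 c)⟩, subset_sat _ (by simp),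
      sat_subset hA fun y hy => by simpa using b hy⟩
    convert T.mul_mem (T.inv_mem hw) d using 1
    simp [mul_assoc]
  choose V a b c d using key
  have := r.c₁.op.iUnion_eq r.c₂.op (fun x => (a x).mono r.h.HP) (fun x => (a x).mono r.h.HP)
    fun x => h2 _ (a x) (b x)
  rwa [Set.Subset.antisymm (Set.iUnion_subset d) fun x hx => Set.mem_iUnion.2 ⟨⟨x, hx⟩, c _⟩]
    at this

theorem label_uniq (ht : t ∈ D.Z) (ht' : t' ∈ D.Z) (k : Ker D E θ₁ θ₂ (E.n * t))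
    (k' : Ker D E θ₁ θ₂ (E.n * t')) : t⁻¹ * t' ∈ D.M := by_contra fun hn =>
  one_ne C.t (ContinuousLinearMap.ext fun ξ => k' ξ fun F' B' a' => k _ fun F B a => by
    rw [← mul_ap, ← mul_ap (θ₁ F'), ← mul_ap, r.mul a.rF a.rB a'.rF a'.rB,
      r.zero (a.rF.inter a'.rF) (a.rB.inter a'.rB) fun x hx y hy hq => hn (r.p.lab_uniq r.h ht ht'
        (a.lab x hx.1 y hy.1 hq) (a'.lab x hx.2 y hy.2 hq)), zero_apply])

theorem label_rel (ht : t ∈ D.Z) (k : Ker D E θ₁ θ₂ (E.n * t)) {a b : G} {z z' : G'}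
    (r₁ : Rl C D₀ D θ₁ a z) (r₂ : Rl C D₀ D θ₂ a z') :
    (E.n * t)⁻¹ * (z * (E.n * t) * z'⁻¹) ∈ D.M := by
  have hz := D.Z.mul_mem (D.Z.mul_mem (r.p.nZ' r₁.2.1) ht) (D.Z.inv_mem r₂.2.1)
  have s₁ := r₁.inv r.h
  have s₂ := r₂.inv r.h
  convert r.label_uniq ht hz k fun ξ h0 => ?_ using 1
  · group
  rw [← norm_eq_zero, ← C.s.norm_π a⁻¹, norm_eq_zero]
  refine k _ fun F B c => ?_
  have := h0 (rt z F) (rt z' B) ⟨c.rF.rt (r.h.nH r₁.2.1), c.rB.rt (r.h.nH r₂.2.1),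
    fun x hx y hy hq => by
      obtain ⟨u, i, v, j, e⟩ := c.lab _ hx _ hy (by
        convert E.Q.mul_mem (E.Q.mul_mem (E.Q.inv_mem (r.p.cell.LQ (r.p.ZL r₁.2.1))) hq)
          (r.p.cell.LQ (r.p.ZL r₂.2.1)) using 1
        group)
      refine ⟨_, r.h.nH s₁.2.1 u i, _, r.h.nH s₂.2.1 v j, ?_⟩
      calc _ = z * ((x * z)⁻¹ * (y * z')) * z'⁻¹ := by group
        _ = _ := by rw [e]; group⟩
  rw [← r₁.2.2 F c.rF, ← r₂.2.2 B c.rB, ← mul_ap, ← cj_mul, ← norm_eq_zero, (ur C.s).norm_cj,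
    norm_eq_zero] at this
  exact this

theorem at_pj {x : K →L[ℂ] K} (a : At D E θ₁ θ₂ N ν x) : Pj x := by
  obtain ⟨F, B, a, rfl⟩ := a
  exact r.pj a.rF a.rB

theorem at_cm {x : K →L[ℂ] K} (a : At D E θ₁ θ₂ N ν x) : Cm W x := by
  obtain ⟨F, B, a, rfl⟩ := a
  exact cm_mul (r.c₁.cm F a.rF) (r.c₂.cm B a.rB)

theorem at_t {x : K →L[ℂ] K} (a : At D E θ₁ θ₂ N ν x) (g : G') :
    At D E θ₁ θ₂ N ν (cj C.t.π g x) := by
  obtain ⟨F, B, a, rfl⟩ := a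
  exact ⟨_, _, a.lt g, by rw [cj_mul, r.c₁.cov g F a.rF, r.c₂.cov g B a.rB]⟩

omit r in
theorem at_comm {x T : K →L[ℂ] K} (a : At D E θ₁ θ₂ N ν x)
    (h₁ : ∀ A, RI D.H A → θ₁ A * T = T * θ₁ A) (h₂ : ∀ A, RI D.H A → θ₂ A * T = T * θ₂ A) :
    x * T = T * x := by
  obtain ⟨F, B, a, rfl⟩ := a
  rw [mul_assoc, h₂ B a.rB, ← mul_assoc, h₁ F a.rF, mul_assoc]

variable (ht : t ∈ D.Z) (k : Ker D E θ₁ θ₂ (E.n * t))
include ht k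

theorem at_s (s : Sc D E N) {x : K →L[ℂ] K} (c : At D E θ₁ θ₂ N (E.n * t) x) {a : G} {z z' : G'}
    (r₁ : Rl C D₀ D θ₁ a z) (r₂ : Rl C D₀ D θ₂ a z') :
    At D E θ₁ θ₂ (cg z N) (E.n * t) (cj C.s.π a x) := by
  obtain ⟨F, B, c, rfl⟩ := c
  exact ⟨_, _, r.p.sh_rt r.h ht s c r₁.2.1 r₂.2.1 (r.label_rel ht k (b := a) r₁ r₂),
    by rw [cj_mul, r₁.2.2 F c.rF, r₂.2.2 B c.rB]⟩

omit k in
theorem ra (s : Sc D E N) {x y T : K →L[ℂ] K} (a : At D E θ₁ θ₂ N (E.n * t) x)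
    (b : At D E θ₁ θ₂ N (E.n * t) y) (hT : ∀ A, RI D.H A → θ₁ A * T = T * θ₁ A) :
    Ra (fun e => e * T = T * e) x y := by
  obtain ⟨F, B, a, rfl⟩ := a
  obtain ⟨F', B', b, rfl⟩ := b
  have hF := a.rF.inter b.rF
  have hB := a.rB.inter b.rB
  have hA := hF.inter ((ri_sat (H := E.Q) hB.1).mono (r.p.HQ r.h))
  have key : ∀ x y, x⁻¹ * y ∈ E.Q → x ∈ F ∩ F' → y ∈ B ∩ B' → x ∈ sat E.Q (B ∩ B') :=
    fun x y hq _ hy => ⟨_, hq, by simpa using hy⟩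
  have key' : ∀ x w q, q ∈ E.Q → x * q = w → x⁻¹ * w ∈ E.Q := fun x w q hq e => by
    simpa [← e] using hq
  refine ⟨by rw [r.mul a.rF a.rB b.rF b.rB, r.mul b.rF b.rB a.rF a.rB, Set.inter_comm F,
    Set.inter_comm B], _, r.c₁.op.pj hA, hT _ hA, ?_, ?_⟩
  · rw [r.mul a.rF a.rB b.rF b.rB, ← mul_assoc, r.c₁.op.mul_of_subset hA a.rF fun x hx => hx.1.1]
    exact r.eq hF hB hA a.rB fun x y hq => ⟨fun c => ⟨⟨c.1, key x y hq c.1 c.2⟩, c.2.1⟩,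
      fun ⟨⟨c, q, d, e⟩, f⟩ => ⟨c, f, r.p.sh_sub r.h ht s a b c.1 c.2 e.1 e.2
        (key' x _ q d rfl) f hq⟩⟩
  · rw [r.mul a.rF a.rB b.rF b.rB, ← mul_assoc, r.c₁.op.mul_of_subset hA b.rF fun x hx => hx.1.2]
    exact r.eq hF hB hA b.rB fun x y hq => ⟨fun c => ⟨⟨c.1, key x y hq c.1 c.2⟩, c.2.2⟩,
      fun ⟨⟨c, q, d, e⟩, f⟩ => ⟨c, r.p.sh_sub r.h ht s b a c.2 c.1 e.2 e.1
        (key' x _ q d rfl) f hq, f⟩⟩

theorem part (s : Sc D E N) : ∃ (ι : Type) (x f : ι → K →L[ℂ] K), Pt x ∧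
    (∀ i, At D E θ₁ θ₂ N (E.n * t) (x i)) ∧ (∀ i, ∃ A, RI D.H A ∧ f i = θ₁ A) ∧
    (∀ η, qq (fun i => x i - f i) η ≤ 4 * ‖η‖ₑ ^ 2) ∧ ∀ F B, RI D.H F → RI D.H B →
      (∀ x ∈ F, ∀ y ∈ B, x⁻¹ * y ∈ E.Q → Co D (E.n * t) N x y) →
      ∀ i, (x i - f i) * (θ₁ F * θ₂ B) = 0 := by
  obtain ⟨ι, F, B, A, a, b, c, d, e, f⟩ := r.p.exists_can r.h ht s
  have hp : Pt fun i => θ₁ (F i) * θ₂ (B i) := ⟨fun i => r.pj (a i).rF (a i).rB, fun i j hij => by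
    rw [r.mul (a i).rF (a i).rB (a j).rF (a j).rB]
    exact r.zero ((a i).rF.inter (a j).rF) ((a i).rB.inter (a j).rB) fun x hx y hy hq =>
      hij (b i j x hx y hy hq), fun ξ h0 => k ξ fun F' B' g => r.loc g.rF g.rB
        fun x hx hΩ y hy hq => by
          obtain ⟨i, j1, j2⟩ := c x hΩ y (g.lab x hx y hy hq)
          exact ⟨_, _, (a i).rF, (a i).rB, j1, j2, h0 i⟩⟩
  refine ⟨ι, _, fun i => θ₁ (A i), hp, fun i => ⟨_, _, a i, rfl⟩, fun i => ⟨_, d i, rfl⟩,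
    qq_sub_le (qq_orth_le hp.pj hp.orth) (qq_orth_le (fun i => r.c₁.op.pj (d i))
      fun i j hij => r.c₁.op.disj (d i) (d j) (e i j hij)), fun F' B' g g' hc i => ?_⟩
  rw [sub_mul, sub_eq_zero, r.mul (a i).rF (a i).rB g g', ← mul_assoc, ← r.c₁.op.inter _ _ (d i) g]
  refine r.eq ((a i).rF.inter g) ((a i).rB.inter g') ((d i).inter g) g' fun x y hq =>
    ⟨fun j => ?_, fun j => ?_⟩
  · obtain ⟨o, m1, m2, m3⟩ := f x y (hc x j.1.2 y j.2.2 hq)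
    rw [b i o x ⟨j.1.1, m1⟩ y ⟨j.2.1, m2⟩ hq]
    exact ⟨⟨m3, j.1.2⟩, j.2.2⟩
  · obtain ⟨o, m1, m2, m3⟩ := f x y (hc x j.1.2 y j.2 hq)
    obtain rfl : i = o := by_contra fun hne => e i o hne x j.1.1 m3
    exact ⟨⟨m1, j.1.2⟩, ⟨m2, j.2⟩⟩

theorem decay (s : Sc D E N) {z : G'} (hz : z ∈ D.Z) (h0 : 0 < E.χ z⁻¹) :
    ∃ (ι : ℕ → Type) (x f : ∀ n, ι n → K →L[ℂ] K), (∀ n, Pt (x n)) ∧
    (∀ n i, At D E θ₁ θ₂ (cg (z ^ n) N) (E.n * t) (x n i)) ∧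
    (∀ n i, ∃ A, RI D.H A ∧ f n i = θ₁ A) ∧
    (∀ n η, qq (fun i => x n i - f n i) η ≤ 4 * ‖η‖ₑ ^ 2) ∧
    ∀ ξ, Tendsto (fun n => qq (fun i => x n i - f n i) ξ) atTop (𝓝 0) := by
  choose ι x f a b c d e using fun n : ℕ => r.part ht k (s.cg r.h r.p (D.Z.pow_mem hz n))
  refine ⟨ι, x, f, a, b, c, d, tendsto_qq d fun ξ h1 => k ξ fun F B g => r.loc g.rF g.rB
    fun u hu hΩ v hv hq => ?_⟩
  obtain ⟨F', B', i, j, m, n, S, o, o', q⟩ := r.p.exists_small r.h ht s hΩ (g.lab u hu v hv hq)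
  obtain ⟨T, t1, t2⟩ := s.op
  refine ⟨F', B', i, j, m, n, h1 _ (r.pj i j) ((r.p.con _ (D.Z.inv_mem hz) h0 S o o' T
    (t1.mem_nhds ((t2 1 D.J.one_mem E.L.one_mem).1 N.one_mem))).mono fun n hn =>
      e n F' B' i j fun u' hu' v' hv' hq' => ?_)⟩
  obtain ⟨w, a1, y, a2, l, a3, ρ, a4, a5⟩ := q u' hu' v' hv' hq'
  have hy := D.Z.pow_mem hz n
  refine ⟨w, a1, y, a2, l, a3, ρ, (t2 _ (r.h.cell.nJ' hy (o' ρ a4).1) (E.L.mul_mem (E.L.mul_mem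
    (E.L.inv_mem (r.p.ZL hy)) (o' ρ a4).2) (r.p.ZL hy))).2 ?_, a5⟩
  simpa using hn ρ a4

theorem comm_of_atoms {T : K →L[ℂ] K} (hT : star T = T)
    (h₁ : ∀ A, RI D.H A → θ₁ A * T = T * θ₁ A)
    (h₂ : ∀ N x, Sc D E N → At D E θ₁ θ₂ N (E.n * t) x → x * T = T * x) {A : Set G'}
    (hA : RI D.H A) : θ₂ A * T = T * θ₂ A := by
  refine ((r.c₂.op.pj hA).comm_of_ker hT fun ξ h0 => k _ fun F B g => ?_).symm
  rw [← mul_ap (θ₂ B), ← r.c₂.op.inter _ _ g.rB hA]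
  refine r.loc g.rF (g.rB.inter hA) fun x hx _ y hy hq => ?_
  obtain ⟨N, F', B', V, s, a, b, c, d, e⟩ := r.p.exists_loc r.h ht (g.lab x hx y hy.1 hq) hA hy.2
  have hV := b.mono (r.p.HQ r.h)
  have e1 : θ₁ F' * θ₂ (B' ∩ V) * T = T * (θ₁ F' * θ₂ (B' ∩ V)) := by
    rw [r.c₂.op.inter _ _ a.rB hV, ← r.agr V b, ← mul_assoc, mul_assoc _ _ T, h₁ V hV, ← mul_assoc,
      h₂ N _ s ⟨_, _, a, rfl⟩, mul_assoc]
  refine ⟨F', B' ∩ V, a.rF, a.rB.inter hV, c, d, ?_⟩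
  rw [← mul_ap, ← mul_ap, e1, ← r.c₂.op.mul_of_subset (a.rB.inter hV) hA e]
  simp only [mul_ap, h0, map_zero]

end Pr

/-- **Commutation across two distinct walls.** -/
theorem step (r : Pr C D E S θ₁ θ₂) (r' : Pr C D E' S' θ₃ θ₄) (c₁₃ : Cc D.H θ₁ θ₃)
    (c₁₄ : Cc D.H θ₁ θ₄) (c₂₃ : Cc D.H θ₂ θ₃) {a : G} {z₁ z₂ z₃ z₄ : G'} (r₁ : Rl C D₀ D θ₁ a z₁)
    (r₂ : Rl C D₀ D θ₂ a z₂) (r₃ : Rl C D₀ D θ₃ a z₃) (r₄ : Rl C D₀ D θ₄ a z₄)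
    (h₁ : 0 < E.χ z₁⁻¹) (h₃ : 0 < E'.χ z₃⁻¹) : Cc D.H θ₂ θ₄ := by
  obtain ⟨t, ht, k⟩ := r.exists_label
  obtain ⟨t', ht', k'⟩ := r'.exists_label
  have q1 : ∀ {N y}, At D E' θ₃ θ₄ N (E'.n * t') y → ∀ A, RI D.H A → θ₁ A * y = y * θ₁ A :=
    fun b A hA => (Pr.at_comm b (fun B hB => (c₁₃ A B hA hB).symm)
      fun B hB => (c₁₄ A B hA hB).symm).symm
  have q3 : ∀ {N x}, At D E θ₁ θ₂ N (E.n * t) x → ∀ A, RI D.H A → θ₃ A * x = x * θ₃ A :=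
    fun b A hA => (Pr.at_comm b (fun B hB => c₁₃ B A hB hA) fun B hB => c₂₃ B A hB hA).symm
  have ind : ∀ {N N' ι ι' κ κ'} {x : ι → K →L[ℂ] K} {x' : ι' → K →L[ℂ] K} {y : κ → K →L[ℂ] K}
      {y' : κ' → K →L[ℂ] K}, Sc D E N → Sc D E' N' → Pt x → Pt x' → Pt y → Pt y' →
      (∀ i, At D E θ₁ θ₂ N (E.n * t) (x i)) → (∀ i, At D E θ₁ θ₂ N (E.n * t) (x' i)) →
      (∀ i, At D E' θ₃ θ₄ N' (E'.n * t') (y i)) → (∀ i, At D E' θ₃ θ₄ N' (E'.n * t') (y' i)) →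
      ∀ ξ, nn x y ξ = nn x' y' ξ := fun s s' a1 a2 a3 a4 b1 b2 b3 b4 ξ => by
    rw [nn_ind1 a1 a2 fun i l j => r.ra ht s (b1 i) (b2 l) (q1 (b3 j)), nn_symm,
      nn_ind1 a3 a4 fun i l j => r'.ra ht' s' (b3 i) (b4 l) (q3 (b2 j)), nn_symm]
  have main : ∀ N N' x y, Sc D E N → Sc D E' N' → At D E θ₁ θ₂ N (E.n * t) x →
      At D E' θ₃ θ₄ N' (E'.n * t') y → x * y = y * x := by
    intro N N' x₀ y₀ s s' hx hy
    obtain ⟨ι₀, x, -, a1, a2, -⟩ := r.part ht k s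
    obtain ⟨κ₀, y, -, b1, b2, -⟩ := r'.part ht' k' s'
    obtain ⟨ι, u, f, c1, c2, c3, c4, c5⟩ := r.decay ht k s r₁.2.1 h₁
    obtain ⟨κ, v, g, d1, d2, d3, d4, d5⟩ := r'.decay ht' k' s' r₃.2.1 h₃
    have le : ∀ {ι} {x : ι → K →L[ℂ] K}, Pt x → ∀ η, qq x η ≤ 4 * ‖η‖ₑ ^ 2 := fun a η =>
      (qq_orth_le a.pj a.orth η).trans (le_mul_of_one_le_left' (by norm_num))
    obtain ⟨e1, e2⟩ := tau_form (C := C) (T := fun z : ι₀ × κ₀ => x z.1 * y z.2 - y z.2 * x z.1)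
      (fun z => cm_sub (cm_mul (r.at_cm (a2 _)) (r'.at_cm (b2 _)))
        (cm_mul (r'.at_cm (b2 _)) (r.at_cm (a2 _)))) (c := 8) (by norm_num)
      (fun ξ => (nn_le (le a1) (le b1) (fun _ _ => rfl) ξ).trans (by
        calc _ ≤ 8 * (4 * ‖ξ‖ₑ ^ 2 + 4 * ‖ξ‖ₑ ^ 2) := by gcongr; exacts [le a1 ξ, le b1 ξ]
          _ = _ := by rw [ENNReal.ofReal_ofNat]; ring))
      fun h ξ => by
        have := nn_cj (p := x) (q := y) (ur C.t) h⁻¹ ξ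
        rw [inv_inv] at this
        exact this.trans (ind s s' (a1.cj (ur C.t) _) a1 (b1.cj (ur C.t) _) b1
          (fun i => r.at_t (a2 i) _) a2 (fun i => r'.at_t (b2 i) _) b2 ξ)
    have e3 : nn x y C.t.Ω = 0 := by
      refine le_antisymm (ge_of_tendsto' (x := atTop) (by
        simpa using ENNReal.Tendsto.const_mul (a := 8) ((c5 C.t.Ω).add (d5 C.t.Ω))
          (Or.inr (by simp))) fun n => ?_) zero_le
      refine le_trans (le_of_eq ((e1 (a ^ n)⁻¹).symm.trans ((nn_cj (ur C.s) _ _).trans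
        (ind (s.cg r.h r.p (D.Z.pow_mem r₁.2.1 n)) (s'.cg r.h r'.p (D.Z.pow_mem r₃.2.1 n))
          (a1.cj (ur C.s) _) (c1 n) (b1.cj (ur C.s) _) (d1 n)
          (fun i => r.at_s ht k s (a2 i) (r₁.pow r.h n) (r₂.pow r.h n)) (c2 n)
          (fun i => r'.at_s ht' k' s' (b2 i) (r₃.pow r.h n) (r₄.pow r.h n)) (d2 n) _))))
        (nn_le (c4 n) (d4 n) (fun i j => ?_) _)
      obtain ⟨A, hA, eA⟩ := c3 n i
      obtain ⟨A', hA', eA'⟩ := d3 n j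
      rw [eA, eA']
      simp only [sub_mul, mul_sub]
      rw [q1 (d2 n j) A hA, q3 (c2 n i) A' hA', c₁₃ A A' hA hA']
      abel
    have e4 : ∀ i j, x i * y j = y j * x i := fun i j => sub_eq_zero.1 (e2 e3 (i, j))
    have e5 : ∀ j, x₀ * y j = y j * x₀ := fun j => comm_of_part a1 (r.at_pj hx)
      (fun i => r.ra ht s hx (a2 i) (q1 (b2 j))) fun i => e4 i j
    exact (comm_of_part b1 (r'.at_pj hy) (fun j => r'.ra ht' s' hy (b2 j) (q3 hx))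
      fun j => (e5 j).symm).symm
  intro A B hA hB
  exact (r'.comm_of_atoms ht' k' (r.c₂.op.sa A hA) (fun B hB => (c₂₃ A B hA hB).symm)
    (fun N' y s' hy => (r.comm_of_atoms ht k (r'.at_pj hy).sa (q1 hy)
      (fun N x s hx => main N N' x y s s' hx hy) hA).symm) hB).symm

end Vale.Agent.P092MG
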