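import Vale.Agent.P092MG.Sep

/-!
P092, E4/E5: matching of heights, of types, and agreement of the boundary measures on the panels.
-/

set_option linter.all false

open scoped InnerProductSpace ENNReal NNReal
open MeasureTheory Filter Topology ContinuousLinearMap

namespace Vale.Agent.P092MG

open Vale.Agent.P092.RC (Cm)
open Vale.Agent.P092CP

section pol

variable {K : Type} [NormedAddCommGroup K] [InnerProductSpace ℂ K] [CompleteSpace K] {ι : Type}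

theorem inner_of_norm2 {E F : Type*} [NormedAddCommGroup E] [InnerProductSpace ℂ E]
    [NormedAddCommGroup F] [InnerProductSpace ℂ F] {u v : E} {u' v' : F}
    (h : ∀ c : ℂ, ‖u' + c • v'‖ = ‖u + c • v‖) : ⟪u', v'⟫_ℂ = ⟪u, v⟫_ℂ := by
  have h1 := h 1
  have h2 := h (-1)
  have h3 := h Complex.I
  have h4 := h (-Complex.I)
  simp only [one_smul, neg_smul, ← sub_eq_add_neg] at h1 h2 h3 h4
  rw [inner_eq_sum_norm_sq_div_four, inner_eq_sum_norm_sq_div_four]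
  simp only [RCLike.I_to_complex, h1, h2, h3, h4]

theorem pol2 {a b : ι → K →L[ℂ] K} (ha : ∀ ξ, qq a ξ ≠ ∞) (hb : ∀ ξ, qq b ξ ≠ ∞)
    (h : ∀ c : ℂ, ∃ φ, ∀ ξ, qq (fun i => a i + c • b i) ξ = φ * ‖ξ‖ₑ ^ 2) :
    ∃ l : ℂ, ∀ ξ η, ∑' i, ⟪a i ξ, b i η⟫_ℂ = l * ⟪ξ, η⟫_ℂ := by
  let J : ∀ T : ι → K →L[ℂ] K, (∀ ξ, qq T ξ ≠ ∞) → K →ₗ[ℂ] lp (fun _ : ι => K) 2 := fun T fin =>
    { toFun := fun ξ => ⟨fun i => T i ξ, mem_lp (fin ξ)⟩
      map_add' := fun x y => lp.ext (funext fun i => map_add (T i) x y)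
      map_smul' := fun c x => lp.ext (funext fun i => map_smul (T i) c x) }
  have key : ∀ c : ℂ, ∃ φ : ℂ, ∀ ξ η,
      ⟪J a ha ξ + c • J b hb ξ, J a ha η + c • J b hb η⟫_ℂ = φ * ⟪ξ, η⟫_ℂ := fun c => by
    obtain ⟨φ, e⟩ := h c
    have e1 : ∀ ξ, ‖(J a ha + c • J b hb) ξ‖ = ‖(√φ.toReal : ℂ) • ξ‖ := fun ξ => by
      have e2 := congrArg ENNReal.toReal ((lp_enorm ((J a ha + c • J b hb) ξ)).trans (e ξ))
      rw [ENNReal.toReal_mul, ENNReal.toReal_pow, ENNReal.toReal_pow, toReal_enorm,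
        toReal_enorm] at e2
      rw [norm_smul, Complex.norm_real, Real.norm_of_nonneg (Real.sqrt_nonneg _),
        ← sq_eq_sq₀ (norm_nonneg _) (by positivity), e2, mul_pow,
        Real.sq_sqrt ENNReal.toReal_nonneg]
    refine ⟨(√φ.toReal : ℂ) * √φ.toReal, fun ξ η => ?_⟩
    refine (inner_of_norm2 (u := (√φ.toReal : ℂ) • ξ) (v := (√φ.toReal : ℂ) • η)
      (u' := (J a ha + c • J b hb) ξ) (v' := (J a ha + c • J b hb) η) fun d => ?_).trans ?_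
    · rw [← map_smul, ← map_add, e1, smul_add, smul_comm]
    · rw [inner_smul_left, inner_smul_right, Complex.conj_ofReal, mul_assoc]
  obtain ⟨φ₁, h1⟩ := key 1
  obtain ⟨φ₂, h2⟩ := key (-1)
  obtain ⟨φ₃, h3⟩ := key Complex.I
  obtain ⟨φ₄, h4⟩ := key (-Complex.I)
  refine ⟨(φ₁ - φ₂ - Complex.I * φ₃ + Complex.I * φ₄) / 4, fun ξ η => ?_⟩
  have e := lp.inner_eq_tsum (𝕜 := ℂ) (J a ha ξ) (J b hb η)
  refine e.symm.trans ?_
  have h1 := h1 ξ η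
  have h2 := h2 ξ η
  have h3 := h3 ξ η
  have h4 := h4 ξ η
  simp only [inner_add_left, inner_add_right, inner_smul_left, inner_smul_right, map_one, map_neg,
    Complex.conj_I] at h1 h2 h3 h4
  linear_combination (h1 - h2 - Complex.I * h3 + Complex.I * h4) / 4 +
    (⟪J a ha ξ, J b hb η⟫_ℂ - ⟪J b hb ξ, J a ha η⟫_ℂ) / 2 * Complex.I_mul_I

end pol

variable {G G' K : Type} [Group G] [TopologicalSpace G] [IsTopologicalGroup G]
  [LocallyCompactSpace G] [SecondCountableTopology G] [T2Space G] [MeasurableSpace G] [BorelSpace G]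
  [Group G'] [TopologicalSpace G'] [IsTopologicalGroup G'] [LocallyCompactSpace G']
  [SecondCountableTopology G'] [T2Space G'] [MeasurableSpace G'] [BorelSpace G']
  [NormedAddCommGroup K] [InnerProductSpace ℂ K] [CompleteSpace K] {μ : Measure G}
  [μ.IsHaarMeasure] {μ' : Measure G'} [μ'.IsHaarMeasure] {W : Set (K →L[ℂ] K)}
  {C : Cpl μ μ' W} {S : Subgroup G} {D : MnD G} {D' : MnD G'} {E : PnD G} {E' : PnD G'}
  {θ θ₁ θ₂ : Set G' → K →L[ℂ] K} {Θ : Set G → K →L[ℂ] K}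

theorem Sm.congr {I J Q N L : Subgroup G'} {π : G' →* (K →L[ℂ] K)} {a : K →L[ℂ] K}
    (ha : Sm π I J Q θ₁ N a) (hc : Cell I L J Q) (hN : OpIn N L)
    (e : ∀ A, RI Q A → θ₁ A = θ₂ A) : Sm π I J Q θ₂ N a :=
  ⟨fun A hA => e A hA ▸ ha.cme A hA, fun g => e _ (hc.ri_Wh hN g) ▸ ha.eq g⟩

theorem cj_st (g : G) (h : G') (x : K →L[ℂ] K) :
    cj C.s.π g (cj C.t.π h x) = cj C.t.π h (cj C.s.π g x) := cj_comm C.comm g h x

/-- the sum over the Levi group is scalar -/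
theorem scal_sm {I J Q N L : Subgroup G'} (h : Ow C.t.π I L J Q θ) (hS : Erg C S) (hN : OpIn N L)
    {ι : Type} [Countable ι] {ρ : ι → G'} (hρ : Rp N L ρ) {a : K →L[ℂ] K}
    (ha : Sm C.t.π I J Q θ N a) (hc : Cm W a) (hf : ∀ s ∈ S, cj C.s.π s a = a) :
    ∃ φ, ∀ ξ, qq (fun i => cj C.t.π (ρ i) a) ξ = φ * ‖ξ‖ₑ ^ 2 :=
  scal hS (fun i => C.t.conj a hc _) (h.sc hN hρ ha) fun s hs ξ => tsum_congr fun i => by
    rw [← mul_ap, cj_eq_iff.1 (by rw [cj_st, hf s hs]), mul_ap, C.s.enorm_π]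

/-- a covariant measure on the cone of the target which is fixed by `S` -/
structure Cov (C : Cpl μ μ' W) (D' : MnD G') (S : Subgroup G) (θ : Set G' → K →L[ℂ] K) :
    Prop where
  op : OP D'.H θ
  cm : ∀ A, RI D'.H A → Cm W (θ A)
  cov : ∀ h A, RI D'.H A → cj C.t.π h (θ A) = θ (lt h A)
  fix : ∀ s ∈ S, ∀ A, RI D'.H A → cj C.s.π s (θ A) = θ A
  full : θ D'.Ω = 1

theorem Sd.cov' (d : Sd C D D' θ) (hS : S ≤ D.I) : Cov C D' S θ :=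
  ⟨d.op, d.cm, d.cov, fun s hs => d.invI s (hS hs), d.full⟩

theorem Cov.cj {S' : Subgroup G} (c : Cov C D' S θ) (g : G) (hS : ∀ s ∈ S', g⁻¹ * s * g ∈ S) :
    Cov C D' S' fun A => cj C.s.π g (θ A) where
  op := c.op.cj (ur C.s) g
  cm A hA := C.s.conj _ (c.cm A hA) g
  cov h A hA := by rw [← cj_st, c.cov h A hA]
  fix s hs A hA := by
    rw [cj_cj, ← mul_inv_cancel_left g (s * g), ← mul_assoc g⁻¹, ← cj_cj, c.fix _ (hS s hs) A hA]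
  full := by rw [c.full, cj_one]

theorem Cov.ne (c : Cov C D' S θ) {A : Set G'} (hA : RI D'.H A) {x : G'} (hx : x ∈ A) : θ A ≠ 0 :=
  c.op.ne_zero c.cov (one_ne C.t) hA hx

theorem Cov.disj (c : Cov C D' S θ) (h : Mn D') {s t : G'} (hs : s ∈ D'.Z) (ht : t ∈ D'.Z)
    (e : s⁻¹ * t ∉ D'.M) : θ (lt s (D'.cl D'.M)) * θ (lt t (D'.cl D'.M)) = 0 :=
  c.op.disj (h.ri_M.lt _) (h.ri_M.lt _) fun _ a b => e (h.lt_uniq h.MZ hs ht a b)

theorem Cov.lt_inj (c : Cov C D' S θ) (h : Mn D') {s t : G'} (hs : s ∈ D'.Z) (ht : t ∈ D'.Z)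
    (e : θ (lt s (D'.cl D'.M)) = θ (lt t (D'.cl D'.M))) : s⁻¹ * t ∈ D'.M := by_contra fun a => by
  have := c.disj h hs ht a
  rw [e, (c.op.pj (h.ri_M.lt _)).idem] at this
  exact c.ne (h.ri_M.lt t) (x := t) (by simpa using one_cl) this

theorem Cov.ow (c : Cov C D' S θ) (h : Mn D') : Ow C.t.π D'.I D'.Z D'.J D'.P θ :=
  ⟨h.cell, ur C.t, c.op.restrict h.HP, fun g A hA => c.cov g A (hA.mono h.HP),
    by rw [← cl_eq, ← Ω_eq, c.full]⟩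

theorem Cov.sm (c : Cov C D' S θ) (h : Mn D') {t : G'} (ht : t ∈ D'.Z) :
    Sm C.t.π D'.I D'.J D'.P θ D'.M (θ (lt t (D'.cl D'.M))) :=
  sm_of_set h.cell c.op h.HP c.cov h.opM (h.ri_M.lt t)
    (fun u hu x hx => by
      rw [mem_lt, ← h.left_I h.MZ (h.cell.nI' ht hu)] at hx
      rw [mem_lt]; convert hx using 1; group)
    (fun m hm x hx => by
      have := h.cell.left_cK h.MZ D'.I.one_mem (h.conj' le_rfl h.MZ ht hm) hx
      rw [mem_lt, cl_eq]; convert this using 1; group) h.JH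

/-- **Two measures over the same boundary measure differ by a shift of the heights.** -/
theorem t2 (h : Mn D') (hS : Erg C S) (c₁ : Cov C D' S θ₁) (c₂ : Cov C D' S θ₂)
    (e : ∀ A, RI D'.P A → θ₁ A = θ₂ A) : ∃ t ∈ D'.Z, ∀ A, RI D'.H A → θ₂ A = θ₁ (rt t A) := by
  obtain ⟨ι, _, ρ, hρ⟩ := exists_rp h.opM
  have hM := h.ri_M
  have ne : ∀ i j, i ≠ j → ∀ t ∈ D'.Z, (ρ i * t)⁻¹ * (ρ j * t) ∉ D'.M := fun i j hij t ht a =>
    hij ((hρ.2 _ (hρ.1 j)).unique (by simpa [mul_assoc] using h.conj le_rfl h.MZ ht a) (by simp))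
  have fin : ∀ θ : Set G' → K →L[ℂ] K, OP D'.H θ → ∀ t ∈ D'.Z, ∀ ξ,
      qq (fun i => θ (lt (ρ i * t) (D'.cl D'.M))) ξ ≠ ∞ := fun θ hθ t ht ξ => by
    rw [qq, hθ.tsum (fun i => hM.lt _) fun i j hij x a b => ne i j hij t ht
      (h.lt_uniq h.MZ (D'.Z.mul_mem (hρ.1 i) ht) (D'.Z.mul_mem (hρ.1 j) ht) a b)]
    finiteness
  obtain ⟨o, ho, -⟩ := hρ.2 1 D'.Z.one_mem
  have eo : ∀ t ∈ D'.Z, lt (ρ o * t) (D'.cl D'.M) = lt t (D'.cl D'.M) := fun t ht =>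
    (h.lt_congr le_rfl h.MZ (by simpa [mul_assoc] using h.conj' le_rfl h.MZ ht ho)).symm
  have key : ∀ t ∈ D'.Z, θ₁ (lt 1 (D'.cl D'.M)) * θ₂ (lt t (D'.cl D'.M)) ≠ 0 →
      θ₁ (lt 1 (D'.cl D'.M)) = θ₂ (lt t (D'.cl D'.M)) := fun t ht h0 => by
    obtain ⟨l, hl⟩ := pol2 (fin θ₁ c₁.op 1 D'.Z.one_mem) (fin θ₂ c₂.op t ht) fun c => by
      have := scal_sm (c₁.ow h) hS h.opM hρ ((c₁.sm h D'.Z.one_mem).add
        (((c₂.sm h ht).congr h.cell h.opM fun A hA => (e A hA).symm).smul c))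
        (cm_add (c₁.cm _ (hM.lt _)) (cm_smul c (c₂.cm _ (hM.lt _)))) fun s hs => by
          rw [cj_add, cj_smul, c₁.fix s hs _ (hM.lt _), c₂.fix s hs _ (hM.lt _)]
      simpa only [cj_add, cj_smul, c₁.cov _ _ (hM.lt _), c₂.cov _ _ (hM.lt _), lt_lt] using this
    have p₁ := c₁.op.pj (hM.lt 1)
    have p₂ := c₂.op.pj (hM.lt t)
    have e1 : θ₁ (lt 1 (D'.cl D'.M)) * θ₂ (lt t (D'.cl D'.M)) = l • θ₁ (lt 1 (D'.cl D'.M)) :=
      ContinuousLinearMap.ext fun η => ext_inner_left ℂ fun ξ => by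
        have := hl (θ₁ (lt 1 (D'.cl D'.M)) ξ) η
        rw [tsum_eq_single o fun i hi => by
          rw [← eo 1 D'.Z.one_mem, ← mul_ap, c₁.disj h (D'.Z.mul_mem (hρ.1 i) D'.Z.one_mem)
            (D'.Z.mul_mem (hρ.1 o) D'.Z.one_mem) (ne i o hi 1 D'.Z.one_mem), zero_apply,
            inner_zero_left], eo 1 D'.Z.one_mem, eo t ht, p₁.ap, p₁.inner, p₁.inner] at this
        rw [mul_ap, this, smul_apply, inner_smul_right]
    have e2 : θ₁ (lt 1 (D'.cl D'.M)) * θ₂ (lt t (D'.cl D'.M)) = l • θ₂ (lt t (D'.cl D'.M)) :=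
      ContinuousLinearMap.ext fun η => ext_inner_left ℂ fun ξ => by
        have := hl ξ (θ₂ (lt t (D'.cl D'.M)) η)
        rw [tsum_eq_single o fun i hi => by
          rw [← eo t ht, ← mul_ap (θ₂ _), c₂.disj h (D'.Z.mul_mem (hρ.1 i) ht)
            (D'.Z.mul_mem (hρ.1 o) ht) (ne i o hi t ht), zero_apply,
            inner_zero_right], eo 1 D'.Z.one_mem, eo t ht, p₂.ap, p₁.inner] at this
        rw [mul_ap, this, smul_apply, inner_smul_right]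
    exact smul_right_injective _ (fun a : l = 0 => h0 (by rw [e1, a, zero_smul])) (e1.symm.trans e2)
  obtain ⟨t, ht, h0⟩ : ∃ t ∈ D'.Z, θ₁ (lt 1 (D'.cl D'.M)) * θ₂ (lt t (D'.cl D'.M)) ≠ 0 := by
    by_contra! hc
    refine c₁.ne (hM.lt 1) (x := 1) (by simpa using one_cl) (ContinuousLinearMap.ext fun ξ => ?_)
    have := c₂.op.loc_zero (h.ri_Ω.mono h.HP) (ξ := θ₁ (lt 1 (D'.cl D'.M)) ξ) fun x hx => by
      obtain ⟨t, ht, a⟩ := h.cover hx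
      have := congrArg star (hc t ht)
      rw [star_mul, c₁.op.sa _ (hM.lt _), c₂.op.sa _ (hM.lt _), star_zero] at this
      exact ⟨_, hM.lt t, a _ h.MZ, ap_eq this ξ⟩
    rwa [c₂.full] at this
  have e0 := key t ht h0
  have hn := h.nH (D'.Z.inv_mem ht)
  rw [lt_one, ← inv_inv t, ← h.rt_cl le_rfl h.MZ (D'.Z.inv_mem ht)] at e0
  refine ⟨t, ht, fun A hA => ?_⟩
  have hA' := hA.rt (h.nH ht)
  let O : G' → Set G' := fun x => lt x (sat D'.P (lt x⁻¹ (rt t A) ∩ D'.cl D'.M))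
  have hO : ∀ x, RI D'.P (O x) := fun x => (ri_sat ((hA'.lt _).inter hM).1).lt x
  have e1 : rt t A = ⋃ x : rt t A, O x ∩ lt x (D'.cl D'.M) := by
    refine Set.Subset.antisymm (fun x hx => Set.mem_iUnion.2 ⟨⟨x, hx⟩,
      subset_sat _ ⟨by simpa using hx, by simpa using one_cl⟩, by simpa using one_cl⟩)
      (Set.iUnion_subset fun x y ⟨⟨q, hq, a, b⟩, c⟩ => ?_)
    exact (hA'.iff (h.mem_H c hq b)).1 (by simpa [mul_assoc] using a)
  have hF := fun x : rt t A => ((hO x).mono h.HP).inter (hM.lt x)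
  have := c₁.op.iUnion_eq (c₂.op.rt hn) hF hF fun x => by
    rw [c₁.op.inter _ _ ((hO x).mono h.HP) (hM.lt _), rt_inter,
      (hO x).rt_eq (D'.P.inv_mem (h.ZP ht)), ← lt_rt,
      c₂.op.inter _ _ ((hO x).mono h.HP) ((hM.rt hn).lt _), ← c₂.cov _ _ (hM.rt hn), ← e0,
      c₁.cov _ _ hM, e _ (hO x)]
  rw [← e1, rt_rt, inv_mul_cancel, rt_one] at this
  exact this.symm

/-- the height shift `z` of the target belongs to the element `a` of the source -/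
def Rl (C : Cpl μ μ' W) (D : MnD G) (D' : MnD G') (θ : Set G' → K →L[ℂ] K) (a : G) (z : G') :
    Prop :=
  a ∈ D.Z ∧ z ∈ D'.Z ∧ ∀ A, RI D'.H A → cj C.s.π a (θ A) = θ (rt z A)

theorem Sd.rl (d : Sd C D D' θ) {a : G} (ha : a ∈ D.Z) : ∃ z, Rl C D D' θ a z :=
  (d.ht a ha).imp fun _ h => ⟨ha, h.1, h.2⟩

theorem rl_one : Rl C D D' θ 1 1 :=
  ⟨D.Z.one_mem, D'.Z.one_mem, fun A _ => by rw [one_cj, rt_one]⟩

section rl

variable {a b : G} {y z : G'} (h' : Mn D')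
include h'

theorem Rl.mul (r : Rl C D D' θ a y) (s : Rl C D D' θ b z) : Rl C D D' θ (a * b) (y * z) :=
  ⟨D.Z.mul_mem r.1 s.1, D'.Z.mul_mem r.2.1 s.2.1, fun A hA => by
    rw [← cj_cj, s.2.2 A hA, r.2.2 _ (hA.rt (h'.nH s.2.1)), rt_rt]⟩

theorem Rl.inv (r : Rl C D D' θ a y) : Rl C D D' θ a⁻¹ y⁻¹ :=
  ⟨D.Z.inv_mem r.1, D'.Z.inv_mem r.2.1, fun A hA => by
    have := r.2.2 _ (hA.rt (h'.nH (D'.Z.inv_mem r.2.1)))
    rw [rt_rt, mul_inv_cancel, rt_one] at this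
    rw [← this, cj_inv_cj]⟩

theorem Rl.pow (r : Rl C D D' θ a y) (k : ℕ) : Rl C D D' θ (a ^ k) (y ^ k) := by
  induction k with
  | zero => simpa using rl_one
  | succ k ih => rw [pow_succ, pow_succ]; exact ih.mul h' r

theorem Rl.zpow (r : Rl C D D' θ a y) (k : ℤ) : Rl C D D' θ (a ^ k) (y ^ k) := by
  cases k with
  | ofNat k => simpa using r.pow h' k
  | negSucc k => simpa only [zpow_negSucc] using (r.pow h' _).inv h'

end rl

theorem Mag.swap (m : Mag C D D' θ Θ) : Mag C.swap D' D Θ θ where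
  t := m.s
  s := ⟨m.t.op, m.t.cm, m.t.cov, m.t.invM, m.t.invI, m.t.ht, m.t.full⟩
  mag := m.mag.symm
  fin L L' a b c d A A' e f g i := by
    have h1 := cm_mul (m.t.cm _ f) (m.s.cm _ e)
    have h2 := m.fin L' L c d a b A' A f e i g
    rw [← C.tr_adj _ h1, ← star_eq_adjoint, star_mul, m.t.op.sa _ f, m.s.op.sa _ e] at h2
    exact (C.Tr_fin (cm_mul (m.s.cm _ e) (m.t.cm _ f))).2 h2

variable (h : Mn D) (h' : Mn D') (m : Mag C D D' θ Θ)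
include h h' m

theorem Rl.ht {a : G} {z : G'} (r : Rl C D D' θ a z) :
    θ (lt z⁻¹ (D'.cl D'.M)) = Θ (lt a (D.cl D.M)) := by
  rw [← h'.rt_cl le_rfl h'.MZ r.2.1, ← r.2.2 _ h'.ri_M, m.mag]
  exact m.s.cov a _ h.ri_M

theorem Rl.memM {a : G} {z : G'} (r : Rl C D D' θ a z) : a ∈ D.M ↔ z ∈ D'.M := by
  have e := r.ht h h' m
  constructor
  · intro ha
    rw [h.lt_cl h.MZ ha, ← m.mag, ← lt_one (D'.cl D'.M), lt_lt, mul_one] at e
    simpa using (m.t.cov' le_rfl).lt_inj h' (D'.Z.inv_mem r.2.1) D'.Z.one_mem e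
  · intro hz
    rw [h'.lt_cl h'.MZ (D'.M.inv_mem hz), m.mag, ← lt_one (D.cl D.M), lt_lt, mul_one] at e
    simpa using (m.s.cov' le_rfl).lt_inj h D.Z.one_mem r.1 e

theorem Rl.swap {a : G} {z : G'} (r : Rl C D D' θ a z) : Rl C.swap D' D Θ z a := by
  obtain ⟨b, s⟩ := m.s.rl r.2.1
  have e := (r.inv h').ht h h' m
  rw [inv_inv, ← s.ht h' h m.swap] at e
  have := (m.s.cov' le_rfl).lt_inj h (D.Z.inv_mem s.2.1) (D.Z.inv_mem r.1) e
  refine ⟨r.2.1, r.1, fun A hA => ?_⟩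
  rw [s.2.2 A hA, ← (hA.rt (h.nH r.1)).rt_eq (h.MH this), rt_rt]
  simp

theorem Rl.swap' {a : G} {z : G'} (r : Rl C.swap D' D Θ z a) : Rl C D D' θ a z :=
  r.swap h' h m.swap

theorem mag_cl {Λ : Subgroup G} {Λ' : Subgroup G'} (h1 : D.M ≤ Λ) (h2 : Λ ≤ D.Z)
    (h1' : D'.M ≤ Λ') (h2' : Λ' ≤ D'.Z) (e : ∀ a z, Rl C D D' θ a z → (a ∈ Λ ↔ z ∈ Λ')) :
    θ (D'.cl Λ') = Θ (D.cl Λ) := by
  have := m.t.op.iUnion_eq m.s.op (ι := {q : G × G' // Rl C D D' θ q.1 q.2 ∧ q.1 ∈ Λ})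
    (fun q => h'.ri_M.lt q.1.2⁻¹) (fun q => h.ri_M.lt q.1.1) fun q => q.2.1.ht h h' m
  convert this using 2
  · refine Set.Subset.antisymm (fun x ⟨u, a, z, b, v, c, d⟩ => ?_)
      (Set.iUnion_subset fun q x hx => ?_)
    · obtain ⟨w, r⟩ := m.s.rl (h2' (Λ'.inv_mem b))
      have r' := r.swap' h h' m
      refine Set.mem_iUnion.2 ⟨⟨(w, z⁻¹), r', (e _ _ r').2 (Λ'.inv_mem b)⟩, ?_⟩
      rw [d]
      exact (h'.cell.lt_cK h'.MZ a (h2' b) c (D'.Z.inv_mem r'.2.1)).2 (by simp)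
    · rw [← h'.lt_cl h2' (Λ'.inv_mem ((e _ _ q.2.1).1 q.2.2))]
      exact cK_mono h1' hx
  · refine Set.Subset.antisymm (fun x ⟨u, a, z, b, v, c, d⟩ => ?_)
      (Set.iUnion_subset fun q x hx => ?_)
    · obtain ⟨w, r⟩ := m.t.rl (h2 b)
      refine Set.mem_iUnion.2 ⟨⟨(z, w), r, b⟩, ?_⟩
      rw [d]
      exact (h.cell.lt_cK h.MZ a (h2 b) c (h2 b)).2 (by simp)
    · rw [← h.lt_cl h2 q.2.2]
      exact cK_mono h1 hx

variable (p : Pn D E)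
include p

/-- **The reflection moves the boundary measure.** -/
theorem diff (hE : Erg C E.I) : ¬∀ A, RI D'.P A → cj C.s.π E.n (θ A) = θ A := fun e => by
  obtain ⟨t, ht, f⟩ := t2 h' hE (m.t.cov' p.II) ((m.t.cov' p.II).cj E.n fun s hs =>
    p.cell.nI' p.nL hs) fun A hA => (e A hA).symm
  obtain ⟨a, r⟩ := m.s.rl ht
  have r' := r.swap' h h' m
  have e1 : Θ (lt E.n (D.cl D.M)) = Θ (lt a (D.cl D.M)) := by
    rw [← r'.ht h h' m, ← h'.rt_cl le_rfl h'.MZ ht, ← f _ h'.ri_M, m.mag]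
    exact (m.s.cov _ _ h.ri_M).symm
  refine p.na h r'.1 fun x hx hn => by_contra fun hc => ?_
  obtain ⟨s, hs, g⟩ := h.cover hn
  refine (m.s.cov' le_rfl).ne ((h.ri_M.lt E.n).inter (h.ri_M.lt s)) (x := E.n * x)
    ⟨by simpa using hx, g _ h.MZ⟩ ?_
  rw [m.s.op.inter _ _ (h.ri_M.lt _) (h.ri_M.lt _), e1]
  exact (m.s.cov' le_rfl).disj h r'.1 hs fun i => hc (h.lt_congr le_rfl h.MZ i ▸ g _ h.MZ)

omit h' in
theorem cl₁_eq : Θ (D.cl (D.Z ⊓ E.L₁)) = Θ (cK E.I E.L₁ E.J) :=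
  m.s.op.congr_full (h.ri_Ω.mono h.HP) m.s.full (h.ri_cl (le_inf h.MZ p.M₁) inf_le_left) (p.ri₁ h)
    fun x hx => by rw [p.cl₁]; simp [hx]

theorem inv_gen {Λ' Q' : Subgroup G'} (h1' : D'.M ≤ Λ') (h2' : Λ' ≤ D'.Z) (hQ : D'.P ≤ Q')
    (e : ∀ a z, Rl C D D' θ a z → (a ∈ E.L₁ ↔ z ∈ Λ')) (hs : ∀ x ∉ Q', ¬Good D' ⊤ Λ' x) {l : G}
    (hl : l ∈ E.L₁) {A : Set G'} (hA : RI Q' A) : cj C.s.π l (θ A) = θ A := by
  have e1 := mag_cl h h' m (le_inf h.MZ p.M₁) inf_le_left h1' h2' fun a z r => by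
    rw [← e a z r, Subgroup.mem_inf]; simp [r.1]
  rw [cl₁_eq h m p] at e1
  refine cj_eq_iff.2 (h'.gen1 h1' h2' m.t.op hQ hs (fun g => (cj_eq_iff.1 ?_).symm) hA).symm
  rw [← m.t.cov g _ (h'.ri_cl h1' h2'), cj_st, e1]
  congr 1
  refine (m.s.cov l _ (p.ri₁ h)).trans ?_
  congr 1
  ext x
  exact ⟨fun a => by simpa using p.cell.left_cK p.L₁L E.I.one_mem hl a,
    fun a => by simpa using p.cell.left_cK p.L₁L E.I.one_mem (E.L₁.inv_mem hl) a⟩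

omit h' in
/-- **Types.** -/
theorem typ {σ' : Type} {Es' : σ' → PnD G'} (b' : Bld D' Es') (hE : Erg C E.I) :
    ∃ j, Typ C D D' θ E (Es' j) := by
  have h' := b'.mn
  let Λ' : Subgroup G' :=
    { carrier := {z | ∃ a ∈ E.L₁, Rl C D D' θ a z}
      one_mem' := ⟨1, E.L₁.one_mem, rl_one⟩
      mul_mem' := fun ⟨a, b, c⟩ ⟨a', b', c'⟩ => ⟨_, E.L₁.mul_mem b b', c.mul h' c'⟩
      inv_mem' := fun ⟨a, b, c⟩ => ⟨_, E.L₁.inv_mem b, c.inv h'⟩ }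
  have e : ∀ a z, Rl C D D' θ a z → (a ∈ E.L₁ ↔ z ∈ Λ') := fun a z r =>
    ⟨fun b => ⟨a, b, r⟩, fun ⟨a', b, c⟩ => by
      simpa using E.L₁.mul_mem b (p.M₁ ((((c.inv h').mul h' r).memM h h' m).2 (by simp)))⟩
  have h1' : D'.M ≤ Λ' := fun z hz => by
    obtain ⟨a, r⟩ := m.s.rl (h'.MZ hz)
    exact ⟨a, p.M₁ (((r.swap' h h' m).memM h h' m).2 hz), r.swap' h h' m⟩
  have h2' : Λ' ≤ D'.Z := fun z ⟨_, _, c⟩ => c.2.1
  rcases b'.alt h1' h2' with ⟨j, hj⟩ | hs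
  swap
  · exact absurd (fun A hA => inv_gen h h' m p h1' h2' le_rfl e hs p.n₁ hA) (diff h h' m p hE)
  have p' := b'.pn j
  obtain ⟨y, hy, h0⟩ := p'.χne
  have hb := hj y⁻¹ (D'.Z.inv_mem hy)
  obtain ⟨a₀, ha₀, r₀⟩ := hb
  have hb1 : y⁻¹ * (Es' j).n⁻¹ * y⁻¹⁻¹ * (Es' j).n ∈ (Es' j).L₁ := by
    simpa using p'.ab₁ _ (p'.ZL (D'.Z.inv_mem hy)) _ ((Es' j).L.inv_mem p'.nL)
  have hb0 : y⁻¹ * (Es' j).n⁻¹ * y⁻¹⁻¹ * (Es' j).n ∉ D'.M := fun c => h0 ((p'.χzero y hy).2 (by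
    simpa [mul_assoc] using h'.conj le_rfl h'.MZ hy c))
  refine ⟨j, fun a ha z hz r => ?_⟩
  have r : Rl C D D' θ a z := ⟨ha, hz, r⟩
  constructor
  · intro h1
    obtain ⟨k, hk, l, c⟩ := p.rk a ha h1 a₀ r₀.1 ha₀ fun c => hb0 ((r₀.memM h h' m).1 c)
    have := p'.M₁ ((((r.pow h' k).mul h' (r₀.zpow h' l)).memM h h' m).1 c)
    exact p'.tf₁ z hz k hk (((Es' j).L₁.mul_mem_cancel_right ((Es' j).L₁.zpow_mem hb1 l)).1 this)
  · intro h1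
    obtain ⟨k, hk, l, c⟩ := p'.rk z hz h1 _ r₀.2.1 hb1 hb0
    have := p.M₁ ((((r.pow h' k).mul h' (r₀.zpow h' l)).memM h h' m).2 c)
    exact p.tf₁ a ha k hk ((E.L₁.mul_mem_cancel_right (E.L₁.zpow_mem ha₀ l)).1 this)

omit p in
theorem Typ.swap (t : Typ C D D' θ E E') : Typ C.swap D' D Θ E' E := fun z hz a ha r =>
  (t a ha z hz (Rl.swap' h h' m ⟨hz, ha, r⟩).2.2).symm

omit h' in
/-- **Agreement on the panel.** -/
theorem agr {σ' : Type} {Es' : σ' → PnD G'} (b' : Bld D' Es') {j : σ'}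
    (t : Typ C D D' θ E (Es' j)) {l : G} (hl : l ∈ E.L₁) {A : Set G'} (hA : RI (Es' j).Q A) :
    cj C.s.π l (θ A) = θ A :=
  inv_gen h b'.mn m p (le_inf b'.mn.MZ (b'.pn j).M₁) inf_le_left ((b'.pn j).PQ b'.mn)
    (fun a z r => by rw [t a r.1 z r.2.1 r.2.2, Subgroup.mem_inf]; simp [r.2.1]) (b'.agr j) hl hA

/-- **The height projection.** -/
theorem ht₁ (p' : Pn D' E') (t : Typ C D D' θ E E') :
    θ (cK E'.I E'.L₁ E'.J) = Θ (cK E.I E.L₁ E.J) := by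
  rw [← cl₁_eq h m p, ← cl₁_eq h' m.swap p']
  exact mag_cl h h' m (le_inf h.MZ p.M₁) inf_le_left (le_inf h'.MZ p'.M₁) inf_le_left
    fun a z r => by
      rw [Subgroup.mem_inf, Subgroup.mem_inf, t a r.1 z r.2.1 r.2.2]; simp [r.1, r.2.1]

end Vale.Agent.P092MG
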