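import Vale.Agent.P092MG.Op

/-!
P092, E4/E5: invariant sums of squares are scalar.
-/

set_option linter.all false

open scoped InnerProductSpace ENNReal NNReal
open MeasureTheory Filter Topology ContinuousLinearMap

namespace Vale.Agent.P092MG

open Vale.Agent.P092.RC (Cm)
open Vale.Agent.P092CP

section sq

variable {K : Type} [NormedAddCommGroup K] [InnerProductSpace ℂ K] [CompleteSpace K] {ι : Type}

/-- a sum of squares -/
noncomputable def qq (T : ι → K →L[ℂ] K) (ξ : K) : ℝ≥0∞ := ∑' i, ‖T i ξ‖ₑ ^ 2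

theorem tsum_opt (f : Option ι → ℝ≥0∞) : ∑' o, f o = f none + ∑' i, f (some i) := by
  classical
  rw [ENNReal.tsum_eq_add_tsum_ite none]
  congr 1
  refine ((Option.some_injective ι).tsum_eq fun o ho => ?_).symm.trans (by simp)
  cases o with
  | none => simp at ho
  | some i => exact ⟨i, rfl⟩

theorem lp_enorm (f : lp (fun _ : ι => K) 2) : ‖f‖ₑ ^ 2 = ∑' i, ‖f i‖ₑ ^ 2 := by
  have h := lp.hasSum_norm (p := 2) (by norm_num) f
  simp only [ENNReal.toReal_ofNat, Real.rpow_ofNat] at h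
  rw [enorm_sq_eq, ← h.tsum_eq, ENNReal.ofReal_tsum_of_nonneg (fun i => sq_nonneg _) h.summable]
  exact tsum_congr fun i => (enorm_sq_eq _).symm

theorem mem_lp {f : ι → K} (h : ∑' i, ‖f i‖ₑ ^ 2 ≠ ∞) : Memℓp f 2 := by
  refine memℓp_gen ?_
  have h1 := ENNReal.summable_toReal h
  simp only [ENNReal.toReal_pow, toReal_enorm] at h1
  simpa using h1

theorem inner_of_norm {E : Type*} [NormedAddCommGroup E] [InnerProductSpace ℂ E] {u v u' v' : E}
    (h : ∀ c : ℂ, ‖u' + c • v'‖ = ‖u + c • v‖) : ⟪u', v'⟫_ℂ = ⟪u, v⟫_ℂ := by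
  have h1 := h 1
  have h2 := h (-1)
  have h3 := h Complex.I
  have h4 := h (-Complex.I)
  simp only [one_smul, neg_smul, ← sub_eq_add_neg] at h1 h2 h3 h4
  rw [inner_eq_sum_norm_sq_div_four, inner_eq_sum_norm_sq_div_four]
  simp only [RCLike.I_to_complex, h1, h2, h3, h4]

theorem qq_le {T : ι → K →L[ℂ] K} {w : K →L[ℂ] K} (h : ∀ i, T i * w = w * T i) (ξ : K) :
    qq T (w ξ) ≤ ‖w‖ₑ ^ 2 * qq T ξ := by
  rw [qq, qq, ← ENNReal.tsum_mul_left]
  refine ENNReal.tsum_le_tsum fun i => ?_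
  rw [← mul_ap, h i, mul_ap, ← mul_pow]
  exact pow_le_pow_left' (w.le_opENorm _) 2

/-- **The resolvent** of a sum of squares with a term equal to `1`. -/
theorem exists_res (T : ι → K →L[ℂ] K) {o : ι} (ho : T o = 1) : ∃ R : K →L[ℂ] K,
    (∀ w, (∀ i, T i * w = w * T i) → (∀ i, T i * adjoint w = adjoint w * T i) → R * w = w * R) ∧
    (∀ V V' : K →L[ℂ] K, adjoint V = V' → (∀ ξ, V (V' ξ) = ξ) → (∀ ξ, qq T (V ξ) = qq T ξ) →
      R * V = V * R) ∧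
    ∀ z : ℂ, R = z • 1 → ∃ φ, ∀ ξ, qq T ξ = φ * ‖ξ‖ₑ ^ 2 := by
  classical
  let Γ : Submodule ℂ (lp (fun _ : ι => K) 2) :=
    { carrier := {f | ∀ i, f i = T i (f o)}
      zero_mem' := fun i => by simp
      add_mem' := fun {f g} a b i => by
        simp only [lp.coeFn_add, Pi.add_apply, map_add]
        rw [← a i, ← b i]
      smul_mem' := fun c f a i => by
        simp only [lp.coeFn_smul, Pi.smul_apply, map_smul]
        rw [← a i] }
  have hΓ : ∀ f, f ∈ Γ ↔ ∀ i, f i = T i (f o) := fun f => Iff.rfl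
  have hc : IsClosed (Γ : Set (lp (fun _ : ι => K) 2)) := by
    have e : (Γ : Set (lp (fun _ : ι => K) 2)) = ⋂ i, {f | lp.evalCLM (𝕜 := ℂ) _ 2 i f =
        T i (lp.evalCLM (𝕜 := ℂ) _ 2 o f)} := by
      ext f
      simp only [Set.mem_iInter]
      rfl
    rw [e]
    exact isClosed_iInter fun i => isClosed_eq (by fun_prop) (by fun_prop)
  haveI : CompleteSpace Γ := hc.completeSpace_coe
  let F : K →L[ℂ] lp (fun _ : ι => K) 2 :=
    Γ.starProjection.comp (lp.singleContinuousLinearMap ℂ (fun _ : ι => K) 2 o)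
  have F1 : ∀ ξ, F ξ ∈ Γ := fun ξ => Γ.starProjection_apply_mem _
  have F2 : ∀ ξ, ∀ g ∈ Γ, ⟪g, F ξ⟫_ℂ = ⟪g o, ξ⟫_ℂ := fun ξ g hg => by
    have h1 := Submodule.inner_right_of_mem_orthogonal hg
      (Γ.sub_starProjection_mem_orthogonal (lp.single 2 o ξ))
    rw [inner_sub_right, sub_eq_zero, lp.inner_single_right] at h1
    exact h1.symm
  have F3 : ∀ ξ, ∀ f ∈ Γ, (∀ g ∈ Γ, ⟪g, f⟫_ℂ = ⟪g o, ξ⟫_ℂ) → f = F ξ := fun ξ f hf h => by
    have h1 := Γ.sub_mem hf (F1 ξ)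
    rw [← sub_eq_zero, ← inner_self_eq_zero (𝕜 := ℂ), inner_sub_right, h _ h1, F2 ξ _ h1, sub_self]
  have nm : ∀ f ∈ Γ, ‖f‖ₑ ^ 2 = qq T (f o) := fun f hf => by
    rw [lp_enorm]; exact tsum_congr fun i => by rw [← hf i]
  have ex : ∀ η, qq T η ≠ ∞ → ∃ f ∈ Γ, f o = η := fun η hη => by
    have e : T o η = η := by rw [ho]; rfl
    exact ⟨⟨fun i => T i η, mem_lp hη⟩, fun i => by
      change T i η = T i (T o η); rw [e], e⟩
  have fin : ∀ f ∈ Γ, qq T (f o) ≠ ∞ := fun f hf => by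
    rw [← nm f hf]; exact ENNReal.pow_ne_top enorm_ne_top
  have exw : ∀ w, (∀ i, T i * w = w * T i) → ∀ f ∈ Γ, ∃ g ∈ Γ, ∀ i, g i = w (f i) := by
    intro w hw f hf
    obtain ⟨g, hg, e⟩ := ex (w (f o)) (ne_top_of_le_ne_top
      (ENNReal.mul_ne_top (ENNReal.pow_ne_top enorm_ne_top) (fin f hf)) (qq_le hw _))
    exact ⟨g, hg, fun i => by rw [hg i, e, hf i, ← mul_ap, hw i, mul_ap]⟩
  refine ⟨(lp.evalCLM (𝕜 := ℂ) _ 2 o).comp F, fun w h1 h2 => ?_, fun V V' h1 h2 h3 => ?_,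
    fun z hz => ?_⟩
  · refine ContinuousLinearMap.ext fun ξ => ?_
    obtain ⟨g, hg, e⟩ := exw w h1 _ (F1 ξ)
    change F (w ξ) o = w (F ξ o)
    rw [← e o, F3 (w ξ) g hg fun k hk => ?_]
    obtain ⟨k', hk', e'⟩ := exw _ h2 k hk
    rw [← adjoint_inner_left, ← e' o, ← F2 ξ k' hk', lp.inner_eq_tsum, lp.inner_eq_tsum]
    exact tsum_congr fun i => by rw [e i, e' i, adjoint_inner_left]
  · refine ContinuousLinearMap.ext fun ξ => ?_
    obtain ⟨g, hg, e⟩ := ex (V (F ξ o)) (by rw [h3]; exact fin _ (F1 ξ))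
    change F (V ξ) o = V (F ξ o)
    rw [← e, F3 (V ξ) g hg fun k hk => ?_]
    obtain ⟨k', hk', e'⟩ := ex (V' (k o)) (by rw [← h3, h2]; exact fin _ hk)
    rw [← adjoint_inner_left, h1, ← e', ← F2 ξ k' hk']
    refine inner_of_norm fun c => norm_of_enorm_sq ?_
    rw [nm _ (Γ.add_mem hk (Γ.smul_mem c hg)), nm _ (Γ.add_mem hk' (Γ.smul_mem c (F1 ξ))), ← h3
      ((k' + c • F ξ) o)]
    simp only [lp.coeFn_add, lp.coeFn_smul, Pi.add_apply, Pi.smul_apply, map_add, map_smul]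
    rw [e, e', h2]
  · have hz' : ∀ ξ, F ξ o = z • ξ := fun ξ => ap_eq hz ξ
    by_cases h0 : z = 0
    · refine ⟨∞, fun ξ => ?_⟩
      by_cases hξ : qq T ξ = ∞
      · rcases eq_or_ne ξ 0 with rfl | h1
        · simp [qq]
        · rw [hξ, ENNReal.top_mul (pow_ne_zero 2 (enorm_ne_zero.2 h1))]
      · obtain ⟨f, hf, e⟩ := ex ξ hξ
        have h1 := F2 ξ f hf
        have h2 : F ξ = 0 := lp.ext (funext fun i => by
          rw [F1 ξ i, hz', h0, zero_smul, map_zero]; rfl)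
        rw [h2, inner_zero_right, e, eq_comm, inner_self_eq_zero] at h1
        simp [h1, qq]
    · refine ⟨‖z‖ₑ⁻¹, fun ξ => ?_⟩
      have h1 := F2 (z⁻¹ • ξ) _ (F1 (z⁻¹ • ξ))
      have h2 := nm _ (F1 (z⁻¹ • ξ))
      rw [hz', smul_inv_smul₀ h0] at h1 h2
      have h3 := congrArg (fun c : ℂ => ‖c‖ₑ) h1
      simp only [inner_self_eq_norm_sq_to_K, inner_smul_right, enorm_mul, enorm_pow,
        enorm_inv h0] at h3
      have e : ∀ {E : Type} [NormedAddCommGroup E] (u : E),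
          ‖(RCLike.ofReal ‖u‖ : ℂ)‖ₑ = ‖u‖ₑ := by
        intro E _ u
        rw [← ofReal_norm, RCLike.norm_ofReal, abs_norm, ofReal_norm]
      rwa [e, e, h2] at h3

/-- a bounded sum of squares is given by an operator -/
theorem exists_form (T : ι → K →L[ℂ] K) {c : ℝ} (hc : 0 ≤ c)
    (h : ∀ ξ, qq T ξ ≤ ENNReal.ofReal c ^ 2 * ‖ξ‖ₑ ^ 2) : ∃ Y : K →L[ℂ] K,
    (∀ ξ, ‖⟪ξ, Y ξ⟫_ℂ‖ₑ = qq T ξ) ∧ (∀ ξ, qq T ξ = 0 → Y ξ = 0) ∧
    (∀ w, (∀ i, T i * w = w * T i) → (∀ i, T i * adjoint w = adjoint w * T i) → Y * w = w * Y) ∧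
    ∀ V V' : K →L[ℂ] K, adjoint V = V' → (∀ ξ, V (V' ξ) = ξ) → (∀ ξ, qq T (V ξ) = qq T ξ) →
      Y * V = V * Y := by
  have fin : ∀ ξ, qq T ξ ≠ ∞ := fun ξ => ne_top_of_le_ne_top (by finiteness) (h ξ)
  let J₀ : K →ₗ[ℂ] lp (fun _ : ι => K) 2 :=
    { toFun := fun ξ => ⟨fun i => T i ξ, mem_lp (fin ξ)⟩
      map_add' := fun a b => lp.ext (funext fun i => map_add (T i) a b)
      map_smul' := fun a b => lp.ext (funext fun i => map_smul (T i) a b) }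
  have nm : ∀ ξ, ‖J₀ ξ‖ₑ ^ 2 = qq T ξ := fun ξ => lp_enorm _
  let J : K →L[ℂ] lp (fun _ : ι => K) 2 :=
    J₀.mkContinuous c fun ξ => norm_le_of_enorm_sq hc (by rw [nm]; exact h ξ)
  have hJ : ∀ ξ i, J ξ i = T i ξ := fun _ _ => rfl
  have nJ : ∀ ξ, ‖J ξ‖ₑ ^ 2 = qq T ξ := nm
  refine ⟨(adjoint J).comp J, fun ξ => ?_, fun ξ h0 => ?_, fun w h1 h2 => ?_,
    fun V V' h1 h2 h3 => ?_⟩
  · rw [comp_apply, adjoint_inner_right, inner_self_eq_norm_sq_to_K, enorm_pow, ← nJ,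
      ← ofReal_norm, ← ofReal_norm]
    simp
  · rw [← nJ, pow_eq_zero_iff two_ne_zero, enorm_eq_zero] at h0
    rw [comp_apply, h0, map_zero]
  · refine ContinuousLinearMap.ext fun ξ => ext_inner_left ℂ fun η => ?_
    rw [mul_ap, mul_ap, ← adjoint_inner_left w, comp_apply, comp_apply, adjoint_inner_right,
      adjoint_inner_right, lp.inner_eq_tsum, lp.inner_eq_tsum]
    refine tsum_congr fun i => ?_
    rw [hJ, hJ, hJ, hJ, ← mul_ap, h1 i, ← mul_ap (T i), h2 i, mul_ap, mul_ap, adjoint_inner_left]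
  · refine ContinuousLinearMap.ext fun ξ => ext_inner_left ℂ fun η => ?_
    rw [mul_ap, mul_ap, ← adjoint_inner_left V, comp_apply, comp_apply, adjoint_inner_right,
      adjoint_inner_right, h1]
    refine inner_of_norm fun c => norm_of_enorm_sq ?_
    rw [← map_smul, ← map_smul, ← map_add, ← map_smul, ← map_add, nJ, nJ, ← h3 (V' η + c • ξ),
      map_add, h2]

end sq

section cpl

variable {G G' K : Type} [Group G] [TopologicalSpace G] [IsTopologicalGroup G]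
  [LocallyCompactSpace G] [SecondCountableTopology G] [T2Space G] [MeasurableSpace G] [BorelSpace G]
  [Group G'] [TopologicalSpace G'] [IsTopologicalGroup G'] [LocallyCompactSpace G']
  [SecondCountableTopology G'] [T2Space G'] [MeasurableSpace G'] [BorelSpace G']
  [NormedAddCommGroup K] [InnerProductSpace ℂ K] [CompleteSpace K] {μ : Measure G}
  [μ.IsHaarMeasure] {μ' : Measure G'} [μ'.IsHaarMeasure] {W : Set (K →L[ℂ] K)}
  {C : Cpl μ μ' W} {S : Subgroup G} {ι : Type} {T : ι → K →L[ℂ] K}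

/-- **An invariant sum of squares is scalar.** -/
theorem scal (hS : Erg C S) (hT : ∀ i, Cm W (T i))
    (h1 : ∀ h ξ, qq T (C.t.π h ξ) = qq T ξ) (h2 : ∀ s ∈ S, ∀ ξ, qq T (C.s.π s ξ) = qq T ξ) :
    ∃ φ, ∀ ξ, qq T ξ = φ * ‖ξ‖ₑ ^ 2 := by
  let T' : Option ι → K →L[ℂ] K := fun o => o.elim 1 T
  have e : ∀ ξ, qq T' ξ = ‖ξ‖ₑ ^ 2 + qq T ξ := fun ξ => tsum_opt _
  have hT' : ∀ o, Cm W (T' o) := fun o => by
    cases o with
    | none => exact cm_one
    | some i => exact hT i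
  obtain ⟨R, a, b, c⟩ := exists_res T' (o := none) rfl
  obtain ⟨z, hz⟩ := hS R ⟨fun w hw => a w (fun o => hT' o w hw) fun o => hT' o _ (C.Wadj w hw),
    fun h => b _ _ (C.t.adj h) (pi_ap_inv h) fun ξ => by rw [e, e, h1, C.t.enorm_π]⟩
    fun s hs => b _ _ (C.s.adj s) (pi_ap_inv s) fun ξ => by rw [e, e, h2 s hs, C.s.enorm_π]
  obtain ⟨φ, hφ⟩ := c z hz
  refine ⟨φ - 1, fun ξ => ?_⟩
  have h3 : ‖ξ‖ₑ ^ 2 ≠ ∞ := ENNReal.pow_ne_top enorm_ne_top
  rw [ENNReal.sub_mul fun _ _ => h3, one_mul, ← hφ, e, ENNReal.add_sub_cancel_left h3]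

/-- a bounded sum of squares which is invariant under the target: the vector state -/
theorem tau_form (hT : ∀ i, Cm W (T i)) {c : ℝ} (hc : 0 ≤ c)
    (h : ∀ ξ, qq T ξ ≤ ENNReal.ofReal c ^ 2 * ‖ξ‖ₑ ^ 2)
    (h1 : ∀ h ξ, qq T (C.t.π h ξ) = qq T ξ) :
    (∀ g, qq T (C.s.π g C.t.Ω) = qq T C.t.Ω) ∧ (qq T C.t.Ω = 0 → ∀ i, T i = 0) := by
  obtain ⟨Y, a, a', b, d⟩ := exists_form T hc h
  have hY : C.t.M Y := ⟨fun w hw => b w (fun i => hT i w hw) fun i => hT i _ (C.Wadj w hw),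
    fun h => d _ _ (C.t.adj h) (pi_ap_inv h) (h1 h)⟩
  refine ⟨fun g => ?_, fun h0 i => ContinuousLinearMap.ext fun ξ => ?_⟩
  · have h2 := C.τ_σ hY g⁻¹
    rw [Side.τ, Side.τ, mul_ap, mul_ap, inv_inv, ← C.s.adj g, adjoint_inner_right] at h2
    rw [← a, ← a, h2]
  · have h2 := a ξ
    rw [C.eq_zero_of_Ω hY (a' _ h0), zero_apply, inner_zero_right, enorm_zero, eq_comm, qq,
      ENNReal.tsum_eq_zero] at h2
    simpa using h2 i

/-- an invariant intersection of kernels is trivial -/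
theorem ker_01 (hS : Erg C S) {Ps : Set (K →L[ℂ] K)} (hP : ∀ p ∈ Ps, Cm W p)
    (h1 : ∀ h, ∀ p ∈ Ps, cj C.t.π h p ∈ Ps) (h2 : ∀ s ∈ S, ∀ p ∈ Ps, cj C.s.π s p = p) :
    (∀ p ∈ Ps, p = 0) ∨ ∀ ξ, (∀ p ∈ Ps, p ξ = 0) → ξ = 0 := by
  let V : Submodule ℂ K := ⨅ p : Ps, (p : K →L[ℂ] K).ker
  have hV : ∀ ξ, ξ ∈ V ↔ ∀ p ∈ Ps, p ξ = 0 := fun ξ => by
    simp [V, Submodule.mem_iInf]
  have hc : IsClosed (V : Set K) := by
    rw [Submodule.coe_iInf]
    exact isClosed_iInter fun p => (p : K →L[ℂ] K).isClosed_ker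
  haveI : CompleteSpace V := hc.completeSpace_coe
  have key : ∀ w : K →L[ℂ] K, (∀ ξ ∈ V, w ξ ∈ V) → (∀ ξ ∈ V, adjoint w ξ ∈ V) →
      V.starProjection * w = w * V.starProjection := fun w a b =>
    ContinuousLinearMap.ext fun ξ => by
      refine Submodule.eq_starProjection_of_mem_orthogonal (a _ (V.starProjection_apply_mem ξ)) ?_
      change w ξ - w (V.starProjection ξ) ∈ Vᗮ
      rw [← map_sub, Submodule.mem_orthogonal]
      intro η hη
      rw [← adjoint_inner_left]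
      exact Submodule.inner_right_of_mem_orthogonal (b η hη)
        (V.sub_starProjection_mem_orthogonal ξ)
  have k1 : ∀ w ∈ W, ∀ ξ ∈ V, w ξ ∈ V := fun w hw ξ hξ => (hV _).2 fun p hp => by
    rw [← mul_ap, hP p hp w hw, mul_ap, (hV ξ).1 hξ p hp, map_zero]
  have k2 : ∀ h, ∀ ξ ∈ V, C.t.π h ξ ∈ V := fun h ξ hξ => (hV _).2 fun p hp => by
    have := (hV ξ).1 hξ _ (h1 h⁻¹ p hp)
    rw [cj_ap, inv_inv] at this
    rw [← pi_ap_inv (π := C.t.π) h (p _), this, map_zero]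
  have k3 : ∀ s ∈ S, ∀ ξ ∈ V, C.s.π s ξ ∈ V := fun s hs ξ hξ => (hV _).2 fun p hp => by
    rw [← mul_ap, cj_eq_iff.1 (h2 s hs p hp), mul_ap, (hV ξ).1 hξ p hp, map_zero]
  obtain ⟨z, hz⟩ := hS V.starProjection
    ⟨fun w hw => key w (k1 w hw) (k1 _ (C.Wadj w hw)),
      fun h => key _ (k2 h) (by rw [C.t.adj]; exact k2 _)⟩
    fun s hs => key _ (k3 s hs) (by rw [C.s.adj]; exact k3 _ (S.inv_mem hs))
  by_cases h0 : z = 0
  · refine Or.inr fun ξ hξ => ?_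
    rw [← Submodule.starProjection_eq_self_iff.2 ((hV ξ).2 hξ), hz, h0, zero_smul, zero_apply]
  · refine Or.inl fun p hp => ContinuousLinearMap.ext fun ξ => ?_
    have := (hV _).1 (V.starProjection_apply_mem (z⁻¹ • ξ)) p hp
    rwa [hz, smul_apply, one_apply_eq_self, smul_inv_smul₀ h0] at this

end cpl

end Vale.Agent.P092MG
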