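import Vale.Agent.P092MG.Grp

/-!
P092, E4/E5: the translates of the cells `I Λ J` separate points and generate the topology.
-/

set_option linter.all false

open Filter Topology

namespace Vale.Agent.P092MG

section grp

variable {G : Type} [Group G] [TopologicalSpace G] [IsTopologicalGroup G] {D : MnD G} {E : PnD G}
  {T Λ : Subgroup G}

/-- `x` shifts the heights modulo `Λ` by a constant -/
def Good (D : MnD G) (T Λ : Subgroup G) (x : G) : Prop :=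
  ∃ t ∈ D.Z, ∀ k ∈ T, k ∈ D.cl Λ → k * x ∈ D.Ω → k * x ∈ lt t (D.cl Λ)

namespace Mn

variable (h : Mn D) (h1 : D.M ≤ Λ) (h2 : Λ ≤ D.Z)
include h h1 h2

theorem lt_congr {s t : G} (e : s⁻¹ * t ∈ Λ) : lt t (D.cl Λ) = lt s (D.cl Λ) := by
  rw [← mul_inv_cancel_left s t, ← lt_lt, h.lt_cl h2 e]

theorem right_P {x z v : G} (hz : z ∈ D.Z) (hv : v ∈ D.J) :
    x * (z * v) ∈ D.cl Λ ↔ z * x ∈ D.cl Λ := by
  rw [← mul_assoc, (h.ri_cl h1 h2).iff (h.JH hv), ← mem_rt, h.rt_cl h1 h2 hz, mem_lt, inv_inv]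

theorem left_Ω {t x : G} (ht : t ∈ D.Z) (hx : x ∈ D.Ω) : t * x ∈ D.Ω :=
  h.lt_sub le_rfl ht (by rwa [mem_lt, inv_mul_cancel_left, ← Ω_eq])

theorem good_n (hT : D.Z ≤ T) {n k : G} (hn : ∀ z ∈ D.Z, n⁻¹ * z * n ∈ D.Z) (hk : k ∈ T)
    (hk1 : k ∈ D.cl Λ) (hk2 : k * n ∈ D.Ω) (hg : Good D T Λ n) {a : G} (ha : a ∈ D.Z) :
    a * n⁻¹ * a⁻¹ * n ∈ Λ := by
  obtain ⟨t, ht, b⟩ := hg
  have hc := hn _ (D.Z.inv_mem ha)
  have hz := D.Z.mul_mem (D.Z.mul_mem ha ht) hc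
  have e : a * k * a⁻¹ * n ∈ lt (a * t * (n⁻¹ * a⁻¹ * n)) (D.cl Λ) := by
    have := h.conj_cl h1 h2 (D.Z.inv_mem hc) (b k hk hk1 hk2)
    rw [mem_lt]
    convert this using 1
    group
  have := h.lt_uniq h2 ht hz (b _ (T.mul_mem (T.mul_mem (hT ha) hk) (T.inv_mem (hT ha)))
    (h.conj_cl h1 h2 ha hk1) (h.lt_sub h2 hz e)) e
  convert Λ.mul_mem (h.conj h1 h2 ht this) (h1 (h.ab t ht _ (D.Z.inv_mem hc))) using 1
  group

theorem exists_good : ∃ S : Subgroup G, D.P ≤ S ∧ ∀ x, x ∈ S ↔ Good D ⊤ Λ x := by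
  have hcl := h.ri_cl h1 h2
  refine ⟨{ carrier := {x | Good D ⊤ Λ x}
            one_mem' := ⟨1, D.Z.one_mem, fun k _ a _ => by simpa using a⟩
            mul_mem' := ?_
            inv_mem' := ?_ }, fun g hg => ?_, fun _ => Iff.rfl⟩
  · rintro x y ⟨t, ht, a⟩ ⟨s, hs, b⟩
    refine ⟨t * s, D.Z.mul_mem ht hs, fun k _ c d => ?_⟩
    obtain ⟨r, hr, e⟩ := h.cover d
    obtain ⟨w, ⟨f1, f2⟩, f3⟩ := h.dense.inter_open_nonempty
      (rt x⁻¹ (D.cl Λ) ∩ rt y (lt r (D.cl Λ)))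
      ((hcl.1.preimage (continuous_mul_const _)).inter
        ((hcl.lt r).1.preimage (continuous_mul_const _)))
      ⟨k * x, by simpa using c, by simpa [mul_assoc] using e Λ h2⟩
    have g1 := a _ trivial f1 (by simpa using f3)
    rw [inv_mul_cancel_right] at g1
    have g2 := b _ trivial g1 (by
      rw [mul_assoc]; exact h.left_Ω h1 h2 (D.Z.inv_mem ht) (h.lt_sub h2 hr f2))
    rw [← h.lt_congr h1 h2 (h.lt_uniq h2 (D.Z.mul_mem ht hs) hr (x := w * y)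
      (by simpa [mul_assoc] using g2) f2)]
    exact e Λ h2
  · rintro x ⟨t, ht, a⟩
    refine ⟨t⁻¹, D.Z.inv_mem ht, fun k _ c d => ?_⟩
    obtain ⟨r, hr, e⟩ := h.cover d
    have f : r⁻¹ * k ∈ lt r⁻¹ (D.cl Λ) := by simpa using c
    have g := a _ trivial (e Λ h2) (by simpa [mul_assoc] using h.lt_sub h2 (D.Z.inv_mem hr) f)
    have := h.conj h1 h2 ht (h.lt_uniq h2 (D.Z.inv_mem hr) ht f (by simpa [mul_assoc] using g))
    rw [← h.lt_congr h1 h2 (s := t⁻¹) (t := r) (by simpa [mul_assoc] using this)]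
    exact e Λ h2
  · obtain ⟨z, a, v, b, rfl⟩ := (h.cell.memQ g).1 hg
    refine ⟨z, a, fun k _ c _ => ?_⟩
    rw [mem_lt, ← mul_assoc, h.right_P h1 h2 a b]
    simpa using c

theorem sep_loc {Q₀ : Subgroup G} (hQ₀ : D.P ≤ Q₀) (c₀ : IsClosed (Q₀ : Set G)) {x : G}
    (hs : x ∉ Q₀ ∨ ¬Good D T Λ x) : ∃ V ∈ 𝓝 x, ∃ (F : Finset G) (A : Set G),
      (∀ k ∈ F, k ∈ T ∧ k ∈ D.cl Λ) ∧ RI Q₀ A ∧ 1 ∈ A ∧
      ∀ y ∈ V, ∀ p ∈ D.P, y * p ∈ A → ¬∀ k ∈ F, k * (y * p) ∈ D.cl Λ := by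
  classical
  have hcl := h.ri_cl h1 h2
  rcases hs with hs | hs
  · have hc : Continuous fun z : G × G => z.1⁻¹ * z.2 := by fun_prop
    obtain ⟨U, V, a, b, c, d, e⟩ := isOpen_prod_iff.1 (c₀.isOpen_compl.preimage hc) 1 x
      (by simpa using hs)
    refine ⟨V, b.mem_nhds d, ∅, sat Q₀ U, by simp, ri_sat a, subset_sat U c,
      fun y hy p hp ⟨q, hq, f⟩ _ => e (Set.mk_mem_prod f hy) ?_⟩
    convert Q₀.inv_mem (Q₀.mul_mem (hQ₀ hp) hq) using 1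
    simp [mul_assoc]
  · simp only [Good, not_exists, not_and, not_forall] at hs
    obtain ⟨k₁, a₁, b₁, c₁, -⟩ := hs 1 D.Z.one_mem
    obtain ⟨t₁, d₁, e₁⟩ := h.cover c₁
    obtain ⟨k₂, a₂, b₂, c₂, f⟩ := hs t₁ d₁
    obtain ⟨t₂, d₂, e₂⟩ := h.cover c₂
    refine ⟨lt k₁⁻¹ (lt t₁ (D.cl Λ)) ∩ lt k₂⁻¹ (lt t₂ (D.cl Λ)),
      (((hcl.lt _).lt _).inter ((hcl.lt _).lt _)).1.mem_nhds
        ⟨by simpa using e₁ Λ h2, by simpa using e₂ Λ h2⟩, {k₁, k₂}, Set.univ, by simp [*], ri_univ,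
      trivial, fun y hy p hp _ hk => f ?_⟩
    obtain ⟨z, a, v, b, rfl⟩ := (h.cell.memQ p).1 hp
    have key : ∀ k t, t ∈ D.Z → y ∈ lt k⁻¹ (lt t (D.cl Λ)) → k * (y * (z * v)) ∈ D.cl Λ →
        t⁻¹ * z⁻¹ ∈ Λ := fun k t ht c d => by
      rw [← mul_assoc, h.right_P h1 h2 a b] at d
      exact h.lt_uniq h2 ht (D.Z.inv_mem a) (x := k * y) (by simpa using c) (by simpa using d)
    rw [← h.lt_congr h1 h2 (s := t₁) (t := t₂) (by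
      convert Λ.mul_mem (key k₁ t₁ d₁ hy.1 (hk _ (by simp)))
        (Λ.inv_mem (key k₂ t₂ d₂ hy.2 (hk _ (by simp)))) using 1
      group)]
    exact e₂ Λ h2

/-- **Separation.** -/
theorem sep {Q Q₀ : Subgroup G} (hQ : D.P ≤ Q) (hQ₀ : D.P ≤ Q₀) (c₀ : IsClosed (Q₀ : Set G))
    (hs : ∀ x ∉ Q, x ∉ Q₀ ∨ ¬Good D T Λ x) {O : Set G} (hO : IsOpen O) (hO1 : 1 ∈ O) :
    ∃ (F : Finset G) (A : Set G), (∀ k ∈ F, k ∈ T ∧ k ∈ D.cl Λ) ∧ RI Q₀ A ∧ 1 ∈ A ∧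
      ∀ y ∈ A, (∀ k ∈ F, k * y ∈ D.cl Λ) → y ∈ sat Q O := by
  classical
  obtain ⟨C, hC, hc⟩ := h.coc
  have hS : RI Q (sat Q O) := ri_sat hO
  choose V a F A b c d e using fun (x : G) (hx : x ∈ C \ sat Q O) =>
    h.sep_loc h1 h2 hQ₀ c₀ (hs x fun hq => hx.2 ⟨x⁻¹, Q.inv_mem hq, by simpa using hO1⟩)
  obtain ⟨s, hs⟩ := (hC.diff hS.1).elim_nhds_subcover' V a
  refine ⟨s.biUnion fun x => F x x.2, ⋂ x ∈ s, A x x.2, fun k hk => ?_,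
    ri_biInter s fun x _ => c x x.2, Set.mem_iInter₂.2 fun x _ => d x x.2,
    fun y hy hk => by_contra fun hn => ?_⟩
  · obtain ⟨x, -, f⟩ := Finset.mem_biUnion.1 hk
    exact b x x.2 k f
  · obtain ⟨w, hw, f⟩ := hc y
    obtain ⟨x, hx, g⟩ := Set.mem_iUnion₂.1 (hs (a := w) ⟨hw, fun i => hn (by
      simpa using hS.2 w i _ (hQ f))⟩)
    refine e x x.2 w g _ f (by simpa using Set.mem_iInter₂.1 hy x hx) fun k i => ?_
    simpa using hk k (Finset.mem_biUnion.2 ⟨x, hx, i⟩)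

end Mn

theorem Pn.good_n (h : Mn D) (p : Pn D E) (h1 : D.M ≤ Λ) (h2 : Λ ≤ D.Z) (hT : E.L ≤ T)
    (hg : Good D T Λ E.n) {a : G} (ha : a ∈ D.Z) : a * E.n⁻¹ * a⁻¹ * E.n ∈ Λ := by
  obtain ⟨l, b, c, d⟩ := p.denseL h (U := rt E.n⁻¹ (D.cl Λ))
    ((h.ri_cl h1 h2).1.preimage (continuous_mul_const _)) p.nL (by simpa using one_cl)
  exact h.good_n h1 h2 (p.ZL.trans hT) (fun z => p.nZ') (hT (E.L.mul_mem b (E.L.inv_mem p.nL))) c
    (by simpa using d) hg ha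

theorem Pn.gen_loc (h : Mn D) (p : Pn D E) {O : Set G} (hO : IsOpen O) (hO1 : 1 ∈ O) :
    ∃ (F : Finset G) (A : Set G), (∀ k ∈ F, k ∈ E.L ∧ k ∈ D.cl D.M) ∧ RI E.Q A ∧ 1 ∈ A ∧
      ∀ y ∈ A, (∀ k ∈ F, k * y ∈ D.cl D.M) → y ∈ D.cl D.M → y ∈ sat D.H O := by
  obtain ⟨F, A, a, b, c, d⟩ := h.sep le_rfl h.MZ (T := E.L) le_rfl (p.PQ h) p.cell.clQ
    (fun x hx => or_iff_not_imp_left.2 fun hq ⟨t, ht, hg⟩ => by
      obtain ⟨l, a, w, b, rfl⟩ := (p.cell.memQ x).1 (not_not.1 hq)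
      rcases p.bru' h a with ⟨z, c, v, d, -, rfl⟩ | ⟨r, c, d, z, e, v, f, -, rfl⟩
      · exact hx (D.P.mul_mem (D.P.mul_mem (h.ZP c) (h.JP d)) (h.JP (p.JJ b)))
      obtain ⟨a₀, ha, ha1, h0⟩ := p.exists_a h
      have hv := D.J.mul_mem f (p.JJ b)
      have := p.χM h (p.good_n h le_rfl h.MZ le_rfl ⟨t * z⁻¹, D.Z.mul_mem ht (D.Z.inv_mem e),
        fun k i j m => by
          have e1 : k * r⁻¹ * (r * E.n * (z * v) * w) = k * E.n * (z * (v * w)) := by group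
          have := hg _ (E.L.mul_mem i (E.L.inv_mem d)) (h.ri_M.2 k j _ (h.JH (D.J.inv_mem c)))
            (e1 ▸ h.ri_Ω.2 _ m _ (D.P.mul_mem (h.ZP e) (h.JP hv)))
          rw [e1, mem_lt, ← mul_assoc, h.right_P le_rfl h.MZ e hv] at this
          simpa [mul_assoc] using this⟩ ha)
      rw [mul_assoc, mul_assoc, ← mul_assoc E.n⁻¹, p.χmul _ ha _ (p.nZ' (D.Z.inv_mem ha)),
        p.χn' h (D.Z.inv_mem ha) (E.L₁.inv_mem ha1), p.χinv ha] at this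
      exact h0 (by linarith))
    (hO.inter h.ri_M.1) ⟨hO1, one_cl⟩
  refine ⟨F, A, a, b, c, fun y hy hk hm => ?_⟩
  obtain ⟨q, hq, e, f⟩ := d y hy hk
  exact ⟨q, h.mem_H hm hq f, e⟩

variable {σ : Type} {Es : σ → PnD G}

theorem Bld.alt (b : Bld D Es) (h1 : D.M ≤ Λ) (h2 : Λ ≤ D.Z) :
    (∃ j, ∀ a ∈ D.Z, a * (Es j).n⁻¹ * a⁻¹ * (Es j).n ∈ Λ) ∨ ∀ x ∉ D.P, ¬Good D ⊤ Λ x := by
  obtain ⟨S, a, c⟩ := b.mn.exists_good h1 h2
  refine or_iff_not_imp_left.2 fun hn x hx hg => hx (b.bn S D.P a le_rfl (fun j hj => ?_)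
    ((c x).2 hg))
  exact absurd ⟨j, fun z => (b.pn j).good_n b.mn h1 h2 le_top ((c _).1 hj)⟩ hn

theorem Bld.agr (b : Bld D Es) (i : σ) : ∀ x ∉ (Es i).Q, ¬Good D ⊤ (D.Z ⊓ (Es i).L₁) x := by
  have h1 : D.M ≤ D.Z ⊓ (Es i).L₁ := le_inf b.mn.MZ (b.pn i).M₁
  obtain ⟨S, a, c⟩ := b.mn.exists_good h1 inf_le_left
  refine fun x hx hg => hx (b.bn S _ a ((b.pn i).PQ b.mn) (fun j hj => by_contra fun hn => ?_)
    ((c x).2 hg))
  obtain ⟨z, d, e⟩ := b.ind i j hn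
  exact e ((b.pn j).good_n b.mn h1 inf_le_left le_top ((c _).1 hj) d).2

end grp

section op

variable {G K : Type} [Group G] [TopologicalSpace G] [IsTopologicalGroup G]
  [SecondCountableTopology G] [NormedAddCommGroup K] [InnerProductSpace ℂ K] [CompleteSpace K]
  {D : MnD G} {E : PnD G} {H Λ : Subgroup G} {θ : Set G → K →L[ℂ] K} {V : K →L[ℂ] K}

/-- the measure of the set `A` commutes with `V` -/
def Cv (H : Subgroup G) (θ : Set G → K →L[ℂ] K) (V : K →L[ℂ] K) (A : Set G) : Prop :=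
  RI H A ∧ V * θ A = θ A * V

theorem Cv.inter (hθ : OP H θ) {A B : Set G} (a : Cv H θ V A) (b : Cv H θ V B) :
    Cv H θ V (A ∩ B) :=
  ⟨a.1.inter b.1, by rw [hθ.inter A B a.1 b.1, ← mul_assoc, a.2, mul_assoc, b.2, mul_assoc]⟩

theorem cv_biInter (hθ : OP H θ) {ι : Type*} (s : Finset ι) {F : ι → Set G}
    (hF : ∀ i ∈ s, Cv H θ V (F i)) : Cv H θ V (⋂ i ∈ s, F i) :=
  ⟨ri_biInter s fun i hi => (hF i hi).1, hθ.biInter (Φ := fun T => V * T = T * V)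
    (by rw [mul_one, one_mul]) (fun x y a b => by rw [← mul_assoc, a, mul_assoc, b, mul_assoc]) s
    (fun i hi => (hF i hi).1) fun i hi => (hF i hi).2⟩

theorem cv_loc (hθ : OP H θ) {O A : Set G} (hO : RI H O) (h1 : θ O = 1) (hA : RI H A)
    (hl : ∀ x ∈ O, x ∈ A → ∃ B, Cv H θ V B ∧ x ∈ B ∧ B ⊆ A) : V * θ A = θ A * V := by
  choose B a b c using fun x : ↥(O ∩ A) => hl x x.2.1 x.2.2
  rw [hθ.congr_full hO h1 hA (ri_iUnion fun x => (a x).1) fun x hx =>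
    ⟨fun d => Set.mem_iUnion.2 ⟨⟨x, hx, d⟩, b _⟩, fun d => Set.iUnion_subset c d⟩]
  exact hθ.iUnion_comm (fun x => (a x).1) fun x => (a x).2

theorem Mn.gen1 (h : Mn D) (h1 : D.M ≤ Λ) (h2 : Λ ≤ D.Z) (hθ : OP D.H θ) {Q : Subgroup G}
    (hQ : D.P ≤ Q) (hs : ∀ x ∉ Q, ¬Good D ⊤ Λ x)
    (hV : ∀ g, V * θ (lt g (D.cl Λ)) = θ (lt g (D.cl Λ)) * V) {A : Set G} (hA : RI Q A) :
    V * θ A = θ A * V := by
  refine cv_loc hθ ri_univ hθ.univ (hA.mono (h.HP.trans hQ)) fun x _ hx => ?_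
  obtain ⟨F, A₀, a, b, c, d⟩ := h.sep h1 h2 hQ le_top (by simp) (fun y hy => Or.inr (hs y hy))
    (hA.lt x⁻¹).1 (by simpa using hx)
  refine ⟨⋂ k ∈ F, lt (x * k⁻¹) (D.cl Λ), cv_biInter hθ F fun k _ => ⟨(h.ri_cl h1 h2).lt _, hV _⟩,
    Set.mem_iInter₂.2 fun k hk => by simpa using (a k hk).2, fun y hy => ?_⟩
  have := sat_subset (hA.lt x⁻¹) le_rfl (d (x⁻¹ * y) (by simpa using b.2 1 c _ trivial)
    fun k hk => by simpa [mul_assoc] using Set.mem_iInter₂.1 hy k hk)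
  simpa using this

theorem Pn.gen2 (h : Mn D) (p : Pn D E) (hθ : OP D.H θ) (h1 : θ D.Ω = 1)
    (hV : ∀ l ∈ E.L, V * θ (lt l (D.cl D.M)) = θ (lt l (D.cl D.M)) * V)
    (hV' : ∀ A, RI E.Q A → V * θ A = θ A * V) {A : Set G} (hA : RI D.H A) :
    V * θ A = θ A * V := by
  classical
  refine cv_loc hθ (h.ri_Ω.mono h.HP) h1 hA fun x hx hxA => ?_
  obtain ⟨u, hu, l, hl, v, hv, rfl⟩ := p.Ω_sub hx
  rw [hA.iff (p.JH h hv)] at hxA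
  obtain ⟨F, A₀, a, b, c, d⟩ := p.gen_loc h (hA.lt (u * l)⁻¹).1 (by simpa using hxA)
  have key : ∀ k ∈ E.L, ∀ y, y ∈ lt (l * k⁻¹) (D.cl D.M) ↔ k * ((u * l)⁻¹ * y) ∈ D.cl D.M :=
    fun k hk y => by
      rw [mem_lt, ← h.left_I h.MZ (p.II (p.cell.nI' (E.L.mul_mem hl (E.L.inv_mem hk))
        (E.I.inv_mem hu)))]
      congr! 1
      group
  have hF : ∀ k ∈ insert 1 F, k ∈ E.L ∧ k ∈ D.cl D.M := fun k hk => by
    rcases Finset.mem_insert.1 hk with rfl | hk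
    · exact ⟨E.L.one_mem, one_cl⟩
    · exact a k hk
  refine ⟨lt (u * l) A₀ ∩ ⋂ k ∈ insert 1 F, lt (l * k⁻¹) (D.cl D.M),
    Cv.inter hθ ⟨(b.lt _).mono (p.HQ h), hV' _ (b.lt _)⟩ (cv_biInter hθ _ fun k hk =>
      ⟨h.ri_M.lt _, hV _ (E.L.mul_mem hl (E.L.inv_mem (hF k hk).1))⟩),
    ⟨by simpa [mul_assoc] using b.2 1 c v (p.cell.JQ hv), Set.mem_iInter₂.2 fun k hk => ?_⟩, fun y hy => ?_⟩
  · rw [key k (hF k hk).1, inv_mul_cancel_left]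
    exact h.ri_M.2 k (hF k hk).2 v (p.JH h hv)
  · have e := fun k hk => (key k (hF k hk).1 y).1 (Set.mem_iInter₂.1 hy.2 k hk)
    have := sat_subset (hA.lt (u * l)⁻¹) le_rfl (d _ hy.1
      (fun k hk => e k (Finset.mem_insert_of_mem hk))
      (by simpa using e 1 (Finset.mem_insert_self _ _)))
    simpa [mul_assoc] using this

end op

end Vale.Agent.P092MG
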