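import Vale.Agent.P092MG.Grp

/-!
P092, E4: unimodularity, integration over cosets, Bruhat functions.
-/

set_option linter.all false

open scoped ENNReal NNReal
open Filter Topology MeasureTheory Measure

namespace Vale.Agent.P092MG

variable {G : Type} [Group G] [TopologicalSpace G] [IsTopologicalGroup G] {D : MnD G} {E : PnD G}
  {T N : Subgroup G}

theorem Pn.tf (h : Mn D) (p : Pn D E) (h1 : E.L₁ ≤ T) (Δ : T →* ℝ≥0)
    (h0 : ∀ x : T, (∃ C : Subgroup G, IsCompact (C : Set G) ∧ x.1 ∈ C) → Δ x = 1) (x : T)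
    (hx : x.1 ∈ E.L₁) : Δ x = 1 := by
  have cj : ∀ a y : T, Δ (a * y * a⁻¹) = Δ y := fun a y => by
    rw [map_mul, map_mul, mul_right_comm, ← map_mul, mul_inv_cancel, map_one, one_mul]
  have sq : ∀ y : T, Δ y * Δ y = 1 → Δ y = 1 := fun y e =>
    (pow_eq_one_iff_of_nonneg zero_le two_ne_zero).1 (by rw [pow_two, e])
  let n : T := ⟨E.n, h1 p.n₁⟩
  have hZ : ∀ z : T, z.1 ∈ D.Z → z.1 ∈ E.L₁ → Δ z = 1 := fun z a b => sq z (by
    have := h0 (n * z * n⁻¹ * z) ⟨D.M, h.cpM, p.neg z a b⟩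
    rwa [map_mul, cj] at this)
  obtain ⟨y, hy, e⟩ := p.gen₁ h (S := Δ.ker.map T.subtype)
    ⟨n, sq n (by rw [← map_mul]; exact hZ _ p.nn (E.L₁.mul_mem p.n₁ p.n₁)), rfl⟩
    (fun v a b => ⟨⟨v, h1 (p.J₁ a b)⟩, (cj n⁻¹ _).symm.trans
      (h0 _ (h.ic _ (by simpa using p.nJ' a b))), rfl⟩)
    (fun z a b => ⟨⟨z, h1 b⟩, hZ _ a b, rfl⟩) hx
  rwa [← Subtype.ext e]

theorem meas_of_right {K : Subgroup G} [MeasurableSpace G] [BorelSpace G]
    (hK : IsOpen (K : Set G)) {f : G → ℝ≥0∞} (hf : ∀ x, ∀ k ∈ K, f (x * k) = f x) :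
    Measurable f :=
  ((IsLocallyConstant.iff_eventually_eq f).2 fun x => by
    filter_upwards [(hK.preimage (continuous_const_mul x⁻¹)).mem_nhds (by simp)] with y hy
    simpa using hf x _ hy).continuous.measurable

variable [LocallyCompactSpace G] [SecondCountableTopology G] [T2Space G] [MeasurableSpace G]
  [BorelSpace G]

theorem invInv (μ : Measure G) [μ.IsHaarMeasure] [IsMulRightInvariant μ] : IsInvInvariant μ := by
  constructor
  obtain ⟨c, hcc⟩ : ∃ c : ℝ≥0∞, c = haarScalarFactor μ.inv μ := ⟨_, rfl⟩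
  have hc : μ.inv = c • μ := by
    rw [hcc]; exact isMulLeftInvariant_eq_smul μ.inv μ
  have this : map Inv.inv (map Inv.inv μ) = c ^ 2 • μ := by
    rw [← inv_def μ, hc, Measure.map_smul, ← inv_def μ, hc, smul_smul, pow_two]
  have μeq : μ = c ^ 2 • μ := by
    rw [map_map continuous_inv.measurable continuous_inv.measurable] at this
    simpa only [inv_involutive, Function.Involutive.comp_self, Measure.map_id] using this
  obtain ⟨K⟩ : Nonempty (TopologicalSpace.PositiveCompacts G) := inferInstance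
  have h1 : c ^ 2 * μ K = 1 ^ 2 * μ K := by
    conv_rhs => rw [μeq]
    simp
  have h2 : c ^ 2 = 1 ^ 2 :=
    (ENNReal.mul_left_inj (measure_pos_of_nonempty_interior _ K.interior_nonempty).ne'
          K.isCompact.measure_lt_top.ne).1 h1
  rw [hc, (ENNReal.pow_right_strictMono two_ne_zero).injective h2, one_smul]

instance sub_sc (T : Subgroup G) : SecondCountableTopology T :=
  TopologicalSpace.Subtype.secondCountableTopology (T : Set G)

theorem sub_cp (hT : IsClosed (T : Set G)) {A : Set G} (hA : IsCompact A) :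
    IsCompact (Subtype.val ⁻¹' A : Set T) := hT.isClosedEmbedding_subtypeVal.isCompact_preimage hA

/-- **Unimodularity.** -/
theorem Pn.exists_haar (h : Mn D) (p : Pn D E) (hT : IsClosed (T : Set G)) (h1 : E.L₁ ≤ T)
    (h2 : ∀ g ∈ T, ∃ u ∈ D.I, ∃ l ∈ E.L₁, g = u * l) :
    ∃ ν : Measure T, ν.IsHaarMeasure ∧ ν.IsMulRightInvariant ∧ ν.IsInvInvariant := by
  haveI : LocallyCompactSpace T := hT.locallyCompactSpace
  have e : ∀ x : T, map (· * x) haar = modularCharacter x • (haar : Measure T) := fun x => by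
    change _ = modularCharacterFun x • _
    rw [modularCharacterFun_eq_haarScalarFactor haar]
    exact isMulLeftInvariant_eq_smul _ _
  have h0 : ∀ x : T, (∃ C : Subgroup G, IsCompact (C : Set G) ∧ x.1 ∈ C) →
      modularCharacter x = 1 := fun x ⟨C, a, b⟩ => by
    obtain ⟨K, c, d, -⟩ := h.td _ univ_mem
    have hS : RI C (sat C K) := ri_sat c
    have hc : IsCompact (sat C (K : Set G)) := by
      convert (d.prod a).image continuous_mul using 1
      ext y
      exact ⟨fun ⟨k, i, j⟩ => ⟨(y * k, k⁻¹), ⟨j, C.inv_mem i⟩, by simp⟩,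
        fun ⟨⟨k, k'⟩, ⟨i, j⟩, l⟩ => ⟨k'⁻¹, C.inv_mem j, by simpa [← l] using i⟩⟩
    have ho := hS.1.preimage (continuous_subtype_val (p := (· ∈ T)))
    have := congrArg (fun m : Measure T => m (Subtype.val ⁻¹' sat C K)) (e x)
    simp only [Measure.smul_apply] at this
    rw [map_apply (measurable_mul_const x) ho.measurableSet,
      show (· * x) ⁻¹' (Subtype.val ⁻¹' sat C (K : Set G)) = Subtype.val ⁻¹' sat C K from
        Set.ext fun y => hS.iff b, ENNReal.smul_def, smul_eq_mul, eq_comm] at this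
    exact ENNReal.coe_injective ((ENNReal.mul_left_inj (ho.measure_ne_zero _
      ⟨1, subset_sat _ K.one_mem⟩) (sub_cp hT hc).measure_lt_top.ne).1 (by rw [this]; simp))
  haveI : (haar : Measure T).IsMulRightInvariant := ⟨fun x => by
    obtain ⟨u, a, l, b, c⟩ := h2 x x.2
    have hu : u ∈ T := by simpa [c] using T.mul_mem x.2 (T.inv_mem (h1 b))
    rw [e, show x = ⟨u, hu⟩ * ⟨l, h1 b⟩ from Subtype.ext c, map_mul, h0 _ (h.ic u a),
      p.tf h h1 _ h0 _ b, one_mul, one_smul]⟩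
  exact ⟨haar, inferInstance, inferInstance, invInv _⟩

theorem OpIn.isOpen (hN : OpIn N T) : IsOpen {x : T | x.1 ∈ N} := by
  obtain ⟨-, O, a, b⟩ := hN
  convert a.preimage (continuous_subtype_val (p := (· ∈ T))) using 1
  exact Set.ext fun x => b x x.2

theorem lint_rp (ν : Measure T) [ν.IsMulLeftInvariant] (hN : OpIn N T) {ι : Type} [Countable ι]
    {ρ : ι → G} (hρ : Rp N T ρ) {f : G → ℝ≥0∞} (hf : ∀ l ∈ T, ∀ k ∈ N, f (l * k) = f l) :
    ∫⁻ x, f x ∂ν = ν {x | x.1 ∈ N} * ∑' i, f (ρ i) := by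
  let A : ι → Set T := fun i => (fun x => (⟨ρ i, hρ.1 i⟩ : T)⁻¹ * x) ⁻¹' {x | x.1 ∈ N}
  have hA : ∀ i, MeasurableSet (A i) := fun i =>
    (hN.isOpen.preimage (continuous_const_mul _)).measurableSet
  rw [← setLIntegral_univ, ← Set.iUnion_eq_univ_iff.2 fun x : T => (hρ.2 x x.2).exists (p := fun i =>
    x ∈ A i), lintegral_iUnion hA fun i j hij => Set.disjoint_left.2 fun x a b =>
      hij ((hρ.2 x x.2).unique a b), ← ENNReal.tsum_mul_left]
  refine tsum_congr fun i => ?_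
  rw [setLIntegral_congr_fun (hA i) (g := fun _ => f (ρ i)) fun x hx => by
    simpa using hf _ (hρ.1 i) _ hx, setLIntegral_const, measure_preimage_mul, mul_comm]

/-- **Bruhat function.** -/
theorem bruhat (h : Mn D) (hT : IsClosed (T : Set G)) (μ : Measure G) [μ.IsHaarMeasure]
    (ν : Measure T) [ν.IsHaarMeasure] : ∃ ψ : G → ℝ≥0∞, Measurable ψ ∧
      ∀ F : G → ℝ≥0∞, Measurable F → ∫⁻ g, F g ∂μ = ∫⁻ g, ψ g * ∫⁻ x, F (x.1 * g) ∂ν ∂μ := by
  haveI : LocallyCompactSpace T := hT.locallyCompactSpace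
  obtain ⟨K, a, b, -⟩ := h.td _ univ_mem
  let s : Setoid G := ⟨fun x y => ∃ p ∈ T, ∃ k ∈ K, y = p * x * k,
    fun x => ⟨1, T.one_mem, 1, K.one_mem, by simp⟩,
    fun ⟨p, i, k, j, e⟩ => ⟨_, T.inv_mem i, _, K.inv_mem j, by rw [e]; group⟩,
    fun ⟨p, i, k, j, e⟩ ⟨p', i', k', j', e'⟩ =>
      ⟨_, T.mul_mem i' i, _, K.mul_mem j j', by rw [e', e]; group⟩⟩
  let r : G → G := fun x => (Quotient.mk s x).out
  have r1 : ∀ x, ∃ p ∈ T, ∃ k ∈ K, x = p * r x * k := fun x =>
    Quotient.exact (Quotient.out_eq (Quotient.mk s x))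
  have r2 : ∀ p ∈ T, ∀ x, r (p * x) = r x := fun p i x => congrArg Quotient.out
    (Quotient.sound (s.symm ⟨p, i, 1, K.one_mem, by simp⟩))
  have r3 : ∀ k ∈ K, ∀ x, r (x * k) = r x := fun k i x => congrArg Quotient.out
    (Quotient.sound (s.symm ⟨1, T.one_mem, k, i, by simp⟩))
  let A : G → Set T := fun g => {p | (r g)⁻¹ * (p.1⁻¹ * g) ∈ K}
  have hA : ∀ g, IsOpen (A g) := fun g => a.preimage (by fun_prop)
  have n0 : ∀ g, ν (A g) ≠ 0 := fun g => by
    obtain ⟨p, i, k, j, e⟩ := r1 g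
    refine (hA g).measure_ne_zero _ ⟨⟨p, i⟩, ?_⟩
    change _ ∈ K
    convert j using 1
    conv_lhs => enter [2, 2]; rw [e]
    group
  have n1 : ∀ g, ν (A g) ≠ ∞ := fun g => ne_top_of_le_ne_top (sub_cp hT (b.image
    (f := fun k => g * k⁻¹ * (r g)⁻¹) (by fun_prop))).measure_lt_top.ne
      (measure_mono fun p hp => ⟨_, hp, by group⟩)
  let ψ : G → ℝ≥0∞ := fun g => {g | (r g)⁻¹ * g ∈ K}.indicator (fun g => (ν (A g))⁻¹) g
  have hψ : Measurable ψ := meas_of_right a fun x k hk => by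
    classical
    simp only [ψ, A, Set.indicator_apply, Set.mem_setOf_eq, r3 k hk, ← mul_assoc,
      K.mul_mem_cancel_right hk]
  have h1 : ∀ g, ∫⁻ p, ψ (p.1⁻¹ * g) ∂ν = 1 := fun g => by
    rw [← ENNReal.inv_mul_cancel (n0 g) (n1 g), ← lintegral_indicator_const (hA g).measurableSet]
    refine lintegral_congr fun p => ?_
    have e : ν (A (p.1⁻¹ * g)) = ν (A g) := by
      rw [← measure_preimage_mul ν p (A g)]
      congr 1
      ext q
      simp [A, r2 _ (T.inv_mem p.2), mul_assoc]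
    classical
    simp only [ψ, Set.indicator_apply, Set.mem_setOf_eq, r2 _ (T.inv_mem p.2), e]
    rfl
  refine ⟨ψ, hψ, fun F hF => ?_⟩
  calc ∫⁻ g, F g ∂μ = ∫⁻ g, ∫⁻ p, ψ (p.1⁻¹ * g) * F g ∂ν ∂μ := lintegral_congr fun g => by
        rw [lintegral_mul_const (f := fun p : T => ψ (p.1⁻¹ * g)) _ (hψ.comp (by fun_prop)), h1,
          one_mul]
    _ = ∫⁻ p, ∫⁻ g, ψ (p.1⁻¹ * g) * F g ∂μ ∂ν := lintegral_lintegral_swap
        (((hψ.comp (by fun_prop)).mul (hF.comp measurable_fst)).aemeasurable)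
    _ = ∫⁻ p, ∫⁻ g, ψ g * F (p.1 * g) ∂μ ∂ν := lintegral_congr fun p => by
        rw [← lintegral_mul_left_eq_self _ p.1]
        simp only [inv_mul_cancel_left]
    _ = ∫⁻ g, ∫⁻ p, ψ g * F (p.1 * g) ∂ν ∂μ := lintegral_lintegral_swap
        (((hψ.comp measurable_snd).mul (hF.comp (by fun_prop))).aemeasurable)
    _ = _ := lintegral_congr fun g => lintegral_const_mul _ (hF.comp (by fun_prop))

end Vale.Agent.P092MG
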