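import Vale.Agent.P092MG.Rel
import Vale.Agent.P092MG.Uni

/-!
P092, E4: the integral over the Levi group is the trace.
-/

set_option linter.all false

open scoped InnerProductSpace ENNReal NNReal
open MeasureTheory Filter Topology ContinuousLinearMap

namespace Vale.Agent.P092MG

open Vale.Agent.P092.RC (Cm)
open Vale.Agent.P092CP

section grp

variable {G : Type} [Group G] [TopologicalSpace G] [IsTopologicalGroup G] {I L J Q A B : Subgroup G}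

/-- the product of two subgroups -/
def sd (A B : Subgroup G) (h : ∀ b ∈ B, ∀ a ∈ A, b * a * b⁻¹ ∈ A) : Subgroup G where
  carrier := {g | ∃ u ∈ A, ∃ l ∈ B, g = u * l}
  one_mem' := ⟨1, A.one_mem, 1, B.one_mem, by simp⟩
  mul_mem' := by
    rintro _ _ ⟨u, a, l, b, rfl⟩ ⟨u', a', l', b', rfl⟩
    exact ⟨_, A.mul_mem a (h l b u' a'), _, B.mul_mem b b', by group⟩
  inv_mem' := by
    rintro _ ⟨u, a, l, b, rfl⟩
    exact ⟨_, h _ (B.inv_mem b) _ (A.inv_mem a), _, B.inv_mem b, by group⟩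

theorem Cell.mem_sd (c : Cell I L J Q) (hA : A ≤ I) (hB : B ≤ L) {h} {u l : G} (hu : u ∈ I)
    (hl : l ∈ L) : u * l ∈ sd A B h ↔ u ∈ A ∧ l ∈ B :=
  ⟨fun ⟨u', a, l', b, e⟩ => by
    obtain ⟨rfl, rfl, -⟩ := c.eq hu hl J.one_mem (hA a) (hB b) J.one_mem (by rw [e])
    exact ⟨a, b⟩, fun a => ⟨u, a.1, l, a.2, rfl⟩⟩

theorem Cell.opIn_sd (c : Cell I L J Q) (hA : OpIn A I) (hB : OpIn B L) {B' : Subgroup G}
    (h1 : B ≤ B') (h2 : B' ≤ L) {h h'} : OpIn (sd A B h) (sd I B' h') := by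
  obtain ⟨a, S, b, d⟩ := hA
  obtain ⟨a', T, b', d'⟩ := hB
  refine ⟨fun _ ⟨u, i, l, j, e⟩ => ⟨u, a i, l, h1 j, e⟩, _, c.opn S T b b', ?_⟩
  rintro _ ⟨u, i, l, j, rfl⟩
  rw [c.mem_sd a a' i (h2 j), d u i, d' l (h2 j), ← c.mem_cs i (h2 j) J.one_mem, mul_one]

theorem OpIn.isClosed (h : OpIn A B) (hB : IsClosed (B : Set G)) : IsClosed (A : Set G) := by
  obtain ⟨a, T, b, c⟩ := h
  have : IsOpen ((A.subgroupOf B : Subgroup B) : Set B) := by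
    convert b.preimage (continuous_subtype_val (p := (· ∈ B))) using 1
    exact Set.ext fun x => c x x.2
  convert hB.isClosedMap_subtype_val _ ((A.subgroupOf B).isClosed_of_isOpen this) using 1
  exact Set.ext fun x => ⟨fun d => ⟨⟨x, a d⟩, d, rfl⟩, fun ⟨y, d, e⟩ => e ▸ d⟩

theorem Cell.rp_sd (c : Cell I L J Q) (hA : A ≤ I) {B' : Subgroup G} (h1 : B ≤ B') (h2 : B' ≤ L)
    {h h'} {ι κ : Type} {ρ : ι → G} {u : κ → G} (hρ : Rp B B' ρ) (hu : Rp A I u) :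
    Rp (sd A B h) (sd I B' h') fun z : ι × κ => ρ z.1 * u z.2 := by
  refine ⟨fun z => ⟨_, c.nI _ (h2 (hρ.1 z.1)) _ (hu.1 z.2), _, hρ.1 z.1, by group⟩, ?_⟩
  rintro _ ⟨v, a, l, b, rfl⟩
  have key : ∀ i j, (ρ i * u j)⁻¹ * (v * l) ∈ sd A B h ↔
      (u j)⁻¹ * ((ρ i)⁻¹ * v * ρ i) ∈ A ∧ (ρ i)⁻¹ * l ∈ B := fun i j => by
    rw [← c.mem_sd hA (h1.trans h2) (h := h) (I.mul_mem (I.inv_mem (hu.1 j))
      (c.nI' (h2 (hρ.1 i)) a)) (h2 (B'.mul_mem (B'.inv_mem (hρ.1 i)) b))]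
    congr! 1; group
  obtain ⟨i, d, d'⟩ := hρ.2 l b
  obtain ⟨j, e, e'⟩ := hu.2 _ (c.nI' (h2 (hρ.1 i)) a)
  refine ⟨(i, j), (key i j).2 ⟨e, d⟩, fun z hz => ?_⟩
  obtain ⟨f, g⟩ := (key z.1 z.2).1 hz
  obtain rfl := d' _ g
  rw [← e' _ f]

theorem Cell.lt_cs (c : Cell I L J Q) {U : Subgroup G} {u v l w : G} (hu : u ∈ I) (hv : v ∈ I)
    (hl : l ∈ L) (hw : w ∈ J) :
    v * l * w ∈ lt u (cs I L J U Set.univ) ↔ u⁻¹ * v ∈ U ⊓ I := by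
  have := I.mul_mem (I.inv_mem hu) hv
  rw [mem_lt, ← mul_assoc, ← mul_assoc, c.mem_cs this hl hw]
  simp [this]

theorem Cell.fix_cs (c : Cell I L J Q) {U : Subgroup G} {u k : G} (hu : u ∈ U ⊓ I)
    (hk : k ∈ U ⊓ L) : lt (u * k) (cs I L J U Set.univ) = cs I L J U Set.univ := by
  have key : ∀ u ∈ U ⊓ I, ∀ k ∈ U ⊓ L, ∀ x ∈ cs I L J U Set.univ, u * k * x ∈
      cs I L J U Set.univ := by
    rintro u hu k hk _ ⟨v, a, b, l, d, -, w, e, rfl⟩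
    exact ⟨_, I.mul_mem hu.2 (c.nI k hk.2 v a), U.mul_mem hu.1 (U.mul_mem (U.mul_mem hk.1 b)
      (U.inv_mem hk.1)), _, L.mul_mem hk.2 d, trivial, w, e, by group⟩
  ext x
  refine ⟨fun a => by simpa [mul_assoc] using key u hu k hk _ a, fun a => ?_⟩
  simpa [mul_assoc] using key 1 (Subgroup.one_mem _) _ (Subgroup.inv_mem _ hk) _
    (key _ (Subgroup.inv_mem _ hu) 1 (Subgroup.one_mem _) _ a)

theorem Pn.closed₁ {D : MnD G} {E : PnD G} (p : Pn D E) : IsClosed (E.L₁ : Set G) :=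
  p.op₁.isClosed p.cell.clL

theorem Pn.lt₁ {D : MnD G} {E : PnD G} (p : Pn D E) {l : G} (hl : l ∈ E.L₁) :
    lt l (cK E.I E.L₁ E.J) = cK E.I E.L₁ E.J :=
  Set.ext fun x => ⟨fun a => by simpa using p.cell.left_cK p.L₁L E.I.one_mem hl a,
    fun a => by simpa using p.cell.left_cK p.L₁L E.I.one_mem (E.L₁.inv_mem hl) a⟩

end grp

variable {G G' K : Type} [Group G] [TopologicalSpace G] [IsTopologicalGroup G]
  [LocallyCompactSpace G] [SecondCountableTopology G] [T2Space G] [MeasurableSpace G] [BorelSpace G]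
  [Group G'] [TopologicalSpace G'] [IsTopologicalGroup G'] [LocallyCompactSpace G']
  [SecondCountableTopology G'] [T2Space G'] [MeasurableSpace G'] [BorelSpace G']
  [NormedAddCommGroup K] [InnerProductSpace ℂ K] [CompleteSpace K] {μ : Measure G}
  [μ.IsHaarMeasure] {μ' : Measure G'} [μ'.IsHaarMeasure] {W : Set (K →L[ℂ] K)}
  {C : Cpl μ μ' W} {S : Subgroup G} {D : MnD G'} {E : PnD G'} {θ : Set G' → K →L[ℂ] K}

theorem Cov.owP (c : Cov C D S θ) (h : Mn D) (p : Pn D E) : Ow C.t.π E.I E.L E.J E.Q θ :=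
  ⟨p.cell, ur C.t, c.op.restrict (p.HQ h), fun g A hA => c.cov g A (hA.mono (p.HQ h)),
    c.op.full_mono (h.ri_Ω.mono h.HP) (p.cell.ri_big.mono (p.HQ h)) (fun _ => p.Ω_sub) c.full⟩

theorem Ow.part_cs {I L J Q U : Subgroup G'} {π : G' →* (K →L[ℂ] K)} (o : Ow π I L J Q θ)
    (u1 : IsOpen (U : Set G')) {κ : Type} [Countable κ] {u : κ → G'} (hu : Rp (U ⊓ I) I u) (ξ : K) :
    ‖ξ‖ₑ ^ 2 = ∑' j, ‖θ (lt (u j) (cs I L J U Set.univ)) ξ‖ₑ ^ 2 := by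
  have hE := o.cell.ri_cs u1
  rw [o.op.tsum (fun j => hE.lt (u j)) fun j j' hj x b b' => ?_, o.op.full_mono o.cell.ri_big
    (ri_iUnion fun j => hE.lt (u j)) (fun x ⟨v, b, l, d, w, f, g⟩ => Set.mem_iUnion.2
      ((hu.2 v b).exists.imp fun j i => g ▸ (o.cell.lt_cs (hu.1 j) b d f).2 i)) o.full,
    one_apply_eq_self]
  obtain ⟨v, d, -, l, f, -, w, g, e⟩ := id b
  have hv := I.mul_mem (hu.1 j) d
  have e' : x = u j * v * l * w := by rw [← mul_inv_cancel_left (u j) x, e]; group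
  rw [e'] at b b'
  exact hj ((hu.2 _ hv).unique ((o.cell.lt_cs (hu.1 j) hv f g).1 b)
    ((o.cell.lt_cs (hu.1 j') hv f g).1 b'))

/-- **The integral over `L₁` is the trace.** -/
theorem side (h : Mn D) (p : Pn D E) (c : Cov C D S θ) (hS : Erg C S) {U : Subgroup G'}
    (u1 : IsOpen (U : Set G')) (u2 : IsCompact (U : Set G')) {e : K →L[ℂ] K}
    (eI : ∀ u ∈ E.I, cj C.t.π u e = e) (eL : ∀ l ∈ E.L₁, cj C.t.π l e = e) (ν : Measure E.L₁)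
    [ν.IsHaarMeasure] : ∃ κ, ∀ a N, OpIn N E.L → Sm C.t.π E.I E.J E.Q θ N a → Cm W a →
      (∀ s ∈ S, cj C.s.π s a = a) → a * θ (cK E.I E.L₁ E.J) = a → ∃ φ,
      (∀ ξ, ∫⁻ l, ‖cj C.t.π l.1 a ξ‖ₑ ^ 2 ∂ν = φ * ‖θ (cK E.I E.L₁ E.J) ξ‖ₑ ^ 2) ∧
      C.t.Tr (a * θ (cs E.I E.L E.J U Set.univ) * e) = φ * κ := by
  classical
  have o := c.owP h p
  have n1 : ∀ l ∈ E.L₁, ∀ u ∈ E.I, l * u * l⁻¹ ∈ E.I := fun l hl => p.cell.nI l (p.L₁L hl)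
  have n2 : ∀ N ≤ U ⊓ E.L₁, ∀ l ∈ N, ∀ u ∈ U ⊓ E.I, l * u * l⁻¹ ∈ U ⊓ E.I := fun N hN l hl u hu =>
    ⟨U.mul_mem (U.mul_mem (hN hl).1 hu.1) (U.inv_mem (hN hl).1), n1 l (hN hl).2 u hu.2⟩
  have hP : IsClosed (sd E.I E.L₁ n1 : Set G') :=
    (p.cell.opIn_sd opIn_self p.op₁ p.L₁L le_rfl (h' := p.cell.nI)).isClosed p.cell.clIL
  obtain ⟨νP, _, _, _⟩ := p.exists_haar h hP (fun l hl => ⟨1, E.I.one_mem, l, hl, by simp⟩)
    fun _ ⟨u, a, b⟩ => ⟨u, p.II a, b⟩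
  obtain ⟨ψ, hψ, br⟩ := bruhat h hP μ' νP
  obtain ⟨κ, _, u, hu⟩ := exists_rp (opIn_inf u1 : OpIn (U ⊓ E.I) E.I)
  have hE := p.cell.ri_cs u1
  have hz := c.op.pj (p.ri₁ h)
  refine ⟨νP {x | x.1 ∈ sd _ _ (n2 _ le_rfl)} / ν {x | x.1 ∈ U ⊓ E.L₁} *
    ∫⁻ g, ψ g * ‖θ (cK E.I E.L₁ E.J) (e (C.t.π g C.t.Ω))‖ₑ ^ 2 ∂μ',
    fun a N₀ hN₀ ha₀ cm fix az => ?_⟩
  have hN : OpIn (N₀ ⊓ (U ⊓ E.L₁)) E.L := hN₀.inf ((opIn_inf u1).trans p.op₁)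
  have ha := o.sm_mono hN₀ hN inf_le_left ha₀
  have le : N₀ ⊓ (U ⊓ E.L₁) ≤ U ⊓ E.L₁ := inf_le_right
  generalize N₀ ⊓ (U ⊓ E.L₁) = N at hN ha le
  have le1 : N ≤ E.L₁ := le.trans inf_le_right
  obtain ⟨ι, _, ρ, hρ⟩ := exists_rp hN
  obtain ⟨φ, hφ⟩ := scal_sm o hS hN hρ ha cm fix
  have hρ₁ : Rp N E.L₁ fun i : {i | ρ i ∈ E.L₁} => ρ i := ⟨fun i => i.2, fun l hl => by
    obtain ⟨i, b, b'⟩ := hρ.2 l (p.L₁L hl)
    exact ⟨⟨i, by simpa using E.L₁.mul_mem hl (E.L₁.inv_mem (le1 b))⟩, b,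
      fun j d => Subtype.ext (b' _ d)⟩⟩
  have s1 : ∀ ξ, ∑' i : {i | ρ i ∈ E.L₁}, ‖cj C.t.π (ρ i) a ξ‖ₑ ^ 2 =
      φ * ‖θ (cK E.I E.L₁ E.J) ξ‖ₑ ^ 2 := fun ξ => by
    rw [← hφ, tsum_subtype _ fun i => ‖cj C.t.π (ρ i) a ξ‖ₑ ^ 2]
    refine tsum_congr fun i => ?_
    beta_reduce
    rw [← mul_ap, ← az, cj_mul, c.cov _ _ (p.ri₁ h), mul_assoc]
    by_cases hi : ρ i ∈ E.L₁
    · rw [Set.indicator_of_mem (s := {i | ρ i ∈ E.L₁}) hi, p.lt₁ hi, hz.idem, cj_mul, c.cov _ _ (p.ri₁ h), p.lt₁ hi]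
    · rw [Set.indicator_of_notMem (s := {i | ρ i ∈ E.L₁}) hi, c.op.disj ((p.ri₁ h).lt _) (p.ri₁ h)
        fun x b ⟨v, d, l, f, w, g, j⟩ => hi (by
          simpa using E.L₁.mul_mem f (E.L₁.inv_mem ((p.cell.lt_cK p.L₁L d (p.L₁L f) g
            (hρ.1 i)).1 (j ▸ b))))]
      simp
  have oN := hN.down le1 p.L₁L
  have oP := p.cell.opIn_sd (opIn_inf u1) hN le1 p.L₁L (h := n2 N le) (h' := n1)
  have rP := p.cell.rp_sd inf_le_right le1 p.L₁L (h := n2 N le) (h' := n1) hρ₁ hu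
  have s2 : ∀ η, ∫⁻ x, ‖cj C.t.π x.1 (a * θ (cs E.I E.L E.J U Set.univ)) η‖ₑ ^ 2 ∂νP =
      νP {x | x.1 ∈ sd _ _ (n2 N le)} * (φ * ‖θ (cK E.I E.L₁ E.J) η‖ₑ ^ 2) := fun η => by
    rw [lint_rp νP oP rP (f := fun x => ‖cj C.t.π x (a * θ (cs E.I E.L E.J U Set.univ)) η‖ₑ ^ 2)
      fun l _ k ⟨v, b, k', d, f⟩ => by
        rw [← cj_cj, f, cj_mul, o.sm_fix hN ha b.2 d, o.cov _ _ hE,
          p.cell.fix_cs b ⟨(le d).1, hN.1 d⟩], ← s1, ENNReal.tsum_prod']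
    congr 1
    refine tsum_congr fun i => ?_
    rw [cj_ap, C.t.enorm_π, o.part_cs u1 hu]
    refine tsum_congr fun j => ?_
    rw [← cj_cj, cj_mul, o.sm_fixI hN ha (hu.1 j), o.cov _ _ hE, ha.cme _ (hE.lt _), cj_ap,
      C.t.enorm_π, mul_ap]
  have s3 : νP {x | x.1 ∈ sd _ _ (n2 N le)} = ν {x | x.1 ∈ N} *
      (νP {x | x.1 ∈ sd _ _ (n2 _ le_rfl)} / ν {x | x.1 ∈ U ⊓ E.L₁}) := by
    have o1 : OpIn (U ⊓ E.L₁) E.L₁ := opIn_inf u1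
    have o2 := p.cell.opIn_sd (opIn_inf u1) (o1.trans p.op₁) inf_le_right p.L₁L
      (h := n2 _ le_rfl) (h' := n1)
    have e1 := lint_rp ν oN hρ₁ (f := (U ⊓ E.L₁ : Subgroup G').carrier.indicator 1)
      fun l _ k hk => Set.indicator_eq_indicator ((U ⊓ E.L₁).mul_mem_cancel_right (le hk)) rfl
    have e2 := lint_rp νP oP rP (f := (sd _ _ (n2 _ le_rfl)).carrier.indicator 1)
      fun l _ k ⟨v, b, k', d, f⟩ => Set.indicator_eq_indicator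
        ((sd _ _ (n2 _ le_rfl)).mul_mem_cancel_right ⟨v, b, k', le d, f⟩) rfl
    have e3 : ∑' z : {i | ρ i ∈ E.L₁} × κ, (sd _ _ (n2 _ le_rfl)).carrier.indicator
        (1 : G' → ℝ≥0∞) (ρ z.1 * u z.2) =
        ∑' i : {i | ρ i ∈ E.L₁}, (U ⊓ E.L₁ : Subgroup G').carrier.indicator 1 (ρ i) := by
      rw [ENNReal.tsum_prod']
      refine tsum_congr fun i => ?_
      have key : ∀ j, ρ i * u j ∈ sd _ _ (n2 _ le_rfl) ↔ (u j)⁻¹ * 1 ∈ U ⊓ E.I ∧ ρ i ∈ U ⊓ E.L₁ :=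
        fun j => by
          rw [← Subgroup.inv_mem_iff, mul_inv_rev, p.cell.mem_sd inf_le_right
            (inf_le_right.trans p.L₁L) (E.I.inv_mem (hu.1 j)) (E.L.inv_mem (hρ.1 i)), mul_one,
            Subgroup.inv_mem_iff (x := ρ i)]
      obtain ⟨j, b, b'⟩ := hu.2 1 E.I.one_mem
      exact (tsum_eq_single j fun j' hj => Set.indicator_of_notMem
        (fun d => hj (b' _ ((key j').1 d).1)) _).trans
          (Set.indicator_eq_indicator ((key j).trans (and_iff_right b)) rfl)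
    have i1 := lintegral_indicator_one (μ := ν) o1.isOpen.measurableSet
    have i2 := lintegral_indicator_one (μ := νP) o2.isOpen.measurableSet
    have n0 : ν {x | x.1 ∈ U ⊓ E.L₁} ≠ 0 := o1.isOpen.measure_ne_zero _ ⟨1, (U ⊓ E.L₁).one_mem⟩
    have n1 : ν {x | x.1 ∈ U ⊓ E.L₁} ≠ ∞ := ne_top_of_le_ne_top
      (sub_cp p.closed₁ u2).measure_lt_top.ne (measure_mono fun x hx => hx.1)
    rw [i2.symm.trans e2, e3, ← mul_div_assoc, mul_left_comm, ← i1.symm.trans e1,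
      mul_div_assoc, ENNReal.div_self n0 n1, mul_one]
  refine ⟨ν {x | x.1 ∈ N} * φ, fun ξ => ?_, ?_⟩
  · rw [lint_rp ν oN hρ₁ (f := fun l => ‖cj C.t.π l a ξ‖ₑ ^ 2) fun l _ k hk => by
      rw [← cj_cj, o.sm_fixN hN ha hk], s1, mul_assoc]
  · rw [Side.Tr, br _ (C.t.meas_π _ _), ← mul_assoc, mul_right_comm _ φ, ← s3]
    refine Eq.trans (lintegral_congr fun g => ?_)
      (lintegral_const_mul _ (hψ.mul (C.t.meas_π (θ (cK E.I E.L₁ E.J) * e) _)))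
    rw [mul_left_comm, mul_assoc _ φ, ← s2, ← lintegral_inv_eq_self]
    congr 1
    refine lintegral_congr fun x => ?_
    obtain ⟨v, b, l, d, f⟩ := (sd E.I E.L₁ n1).inv_mem x.2
    have : cj C.t.π x.1⁻¹ e = e := by rw [f, ← cj_cj, eL l d, eI v b]
    rw [cj_ap, C.t.enorm_π, ← pi_ap, mul_ap, ← mul_ap e, Subgroup.coe_inv, cj_eq_iff.1 this]
    rfl

end Vale.Agent.P092MG
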